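import Vale.Agent.P097.Rigid.Stage

/-!
# The action of the formal periodic orbits

It does not depend on the first chord, so its periodic modes vanish.
-/

namespace Vale.Agent.P097.Rigid

open Finset PowerSeries Filter Topology Asymptotics

noncomputable section

theorem Below.mul {k : ℕ} {A A' B B' : Jet} (h : Below k A A') (h' : Below k B B') :
    Below k (A * B) (A' * B') := by
  rw [Below, show A * B - A' * B' = (A - A') * B + A' * (B - B') by ring]
  exact dvd_add (dvd_mul_of_dvd_left h _) (dvd_mul_of_dvd_right h' _)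

theorem actA_congr {F : Jet} (hF : coeff 0 F = 0) (x : ℂˣ) {k : ℕ} {w w' : Jet}
    (h : Below k w w') : Below k (actA F x w) (actA F x w') := by
  have hd : Below k (dA x w) (dA x w') := (h.shS _).sub h
  have hc : Below k (comp F x (tA x w)) (comp F x (tA x w')) :=
    below_of_coeff fun i hi =>
      (comp_below hF x ((h.shS (x ^ 2)).add h)).coeff (Nat.lt_succ_of_lt hi)
  exact (((ser_below hd _).smul _).add ((hd.add (ser_below hd _)).smul _)).add
    (hc.mul (((ser_below hd _).smul _).add ((hd.add (ser_below hd _)).smul _)))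

theorem eq_zero_of_poly {M K : ℕ} (hKM : K < M) {c : ℕ → ℂ}
    (h : (fun t : ℝ => ∑ k ∈ range M, (t : ℂ) ^ k * c k) =o[𝓝 0] fun t : ℝ => t ^ K) : c K = 0 := by
  suffices ∀ k ≤ K, c k = 0 from this K le_rfl
  intro k
  induction k using Nat.strong_induction_on with
  | _ k ih =>
    intro hk
    have h1 : (fun t : ℝ => ∑ i ∈ (range M).erase k, (t : ℂ) ^ i * c i)
        =o[𝓝 0] fun t : ℝ => t ^ k := by
      refine (IsLittleO.sum (A := fun i (t : ℝ) => (t : ℂ) ^ i * c i) fun i hi => ?_).congr_left
        fun t => Finset.sum_apply _ _ _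
      rcases lt_trichotomy i k with hik | rfl | hik
      · simp only [ih i hik (by omega), mul_zero]; exact isLittleO_zero _ _
      · simp at hi
      · exact (isBigO_cpow i (c i)).trans_isLittleO (isLittleO_pow_pow hik)
    refine eq_zero_of_littleO (K := k) (((h.trans_isBigO (pow_bigO_pow hk)).sub h1).congr_left
      fun t => ?_)
    rw [← add_sum_erase _ _ (show k ∈ range M by rw [mem_range]; omega), add_sub_cancel_right]

variable {h : ℝ → ℝ → ℝ} {η : ℝ} {n m : ℕ} {F : Jet}
  (hs : ContDiff ℝ (⊤ : ℕ∞) fun q : ℝ × ℝ => h q.1 q.2)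
  (hev : ∀ᶠ t in 𝓝 0, IsTable (h t) ∧ CurvesBelow (h t) η)
  (hm : 0 < m) (hmn : m < n) (hη : Real.pi * m / n < η)

/-- The action along the configuration as a formal series. -/
def actSer (N : ℕ) (F : Jet) (x : ℂˣ) : Jet :=
  (-2 * Complex.I) • (actA F x (wT N F x) + Sh (x : ℂ) • (1 : Jet))

include hs in
theorem act_order {N : ℕ} (hK : Known h (N + 1) F) (hN : 0 < N) (hF : Flat N F (xr n m)) (τ : ℝ) :
    (fun t : ℝ => ((act (h t) (τ + 2 * disp N F (xr n m) τ t)
        (τ + 2 * (Real.pi * m / n) + 2 * disp N F (xr n m) (τ + 2 * (Real.pi * m / n)) t) : ℝ) : ℂ)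
      - pol (N + 1) τ (actSer N F (xr n m)) t) =o[𝓝 0] fun t : ℝ => t ^ N := by
  have hKN : Known h N F := ⟨hK.zero, hN, hK.disc, fun k h0 hk => hK.eq k h0 (by omega)⟩
  set α := Real.pi * m / n with hα
  set u := disp N F (xr n m) with hu
  have hw := appr_wT hF
  have h0 : coeff 0 (wT N F (xr n m)) = 0 := by rw [wT, coeff_mk, if_pos hN, wA_zero hK.zero]
  have hl : ∀ σ, Tendsto (fun t => u σ t) (𝓝 0) (𝓝 0) := fun σ => by
    have h1 := Complex.continuous_im.continuousAt.tendsto.comp
      ((hw.small N.succ_pos h0 σ).trans_tendsto tendsto_id)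
    simpa [Function.comp_def] using h1
  have hB : Tendsto (fun t => τ + 2 * u τ t) (𝓝 0) (𝓝 τ) := by
    simpa using ((hl τ).const_mul 2).const_add τ
  have hD : Tendsto (fun t => τ + 2 * α + 2 * u (τ + 2 * α) t) (𝓝 0) (𝓝 (τ + 2 * α)) := by
    simpa using ((hl (τ + 2 * α)).const_mul 2).const_add (τ + 2 * α)
  have hp := (hB.add hD).div_const 2
  have hsin := ((Complex.continuous_ofReal.comp Real.continuous_sin).tendsto _).comp
    ((hD.sub hB).div_const 2)
  have hg : gap h N F ((τ + (τ + 2 * α)) / 2) = 0 := sub_eq_zero.2 (hK.eq N hN N.lt_succ_self _)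
  have h1 := expand_prod (hKN.expand hs hp).1 hsin
  have h2 := littleO_of_bigO_succ (appr_act (F := F) (x := xr n m) (α := α) rfl hw N.succ_pos h0 τ)
  refine ((h1.const_mul_left 2).add h2).congr_left fun t => ?_
  simp only [hg, act, actSer, Function.comp_apply, Complex.ofReal_mul, Complex.ofReal_ofNat]
  ring

include hs hev hm hmn hη

/-- The periodic modes of the action vanish. -/
theorem action_modes (hall : ∀ N, 0 < N → Known h N F) (K : ℕ) {a : ℤ} (ha : a ≠ 0)
    (hx : xr n m ^ (2 * a) = 1) : (coeff K (actA F (xr n m) (wA F (xr n m)))).coeff a = 0 := by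
  have hn : n ≠ 0 := by omega
  set N := K + 1 with hN
  have hK := hall (N + 1) N.succ_pos
  have hKN := hall N K.succ_pos
  have hF : Flat N F (xr n m) := flat_of_known hs hev hm hmn hη N hKN
  set A := coeff K (actSer N F (xr n m)) with hA
  set P := ∑ j ∈ range n, shT ((xr n m ^ 2) ^ j) A with hP
  have key : ∀ τ, evT τ P = evT 0 P := fun τ => by
    have h1 := action_near (Y := fun t => conf N F n m τ t) (Y' := fun t => conf N F n m 0 t)
      hs hKN.disc hev hm hmn hη (conf_lim hKN hF τ) (conf_lim hKN hF 0)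
      (fun t => conf_end hn τ t) (fun t => conf_end hn 0 t)
      (fun j hj hjn => el_bigO hs hm hmn hKN hF τ hj hjn)
      (fun j hj hjn => el_bigO hs hm hmn hKN hF 0 hj hjn)
    have h1' := (Complex.isBigO_ofReal_left.2 h1).trans_isLittleO
      (isLittleO_pow_pow (show K < N by omega))
    have hS : ∀ σ, (fun t : ℝ => ((actSum (h t) n (ext n (conf N F n m σ t)) : ℝ) : ℂ)
        - ∑ j ∈ range n, pol (N + 1) (star n m σ j) (actSer N F (xr n m)) t)
        =o[𝓝 0] fun t : ℝ => t ^ K := fun σ => by
      have h2 := (IsLittleO.sum fun j (_ : j ∈ range n) =>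
        act_order hs hK K.succ_pos hF (star n m σ j)).trans
          (isLittleO_pow_pow (show K < N by omega))
      refine h2.congr_left fun t => ?_
      simp only [Finset.sum_apply, sum_sub_distrib, actSum, Complex.ofReal_sum]
      congr 1
      refine sum_congr rfl fun j hj => ?_
      rw [mem_range] at hj
      simp only [ext, conf, dif_pos (show j < n + 1 by omega), dif_pos (show j + 1 < n + 1 by omega)]
      rw [show star n m σ (j + 1) = star n m σ j + 2 * (Real.pi * m / n) by
        simp only [star_eq]; push_cast; ring]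
    have h3 := ((h1'.sub (hS τ)).add (hS 0))
    have h4 : (fun t : ℝ => ∑ k ∈ range (N + 1), (t : ℂ) ^ k *
        ∑ j ∈ range n, (evT (star n m τ j) (coeff k (actSer N F (xr n m)))
          - evT (star n m 0 j) (coeff k (actSer N F (xr n m)))))
        =o[𝓝 0] fun t : ℝ => t ^ K := by
      refine h3.congr_left fun t => ?_
      simp only [pol_eq, sum_sub_distrib, mul_sub, mul_sum, sum_comm (s := range (N + 1))]
      push_cast
      ring
    have h5 := eq_zero_of_poly (show K < N + 1 by omega) h4
    simp only [hP, map_sum, evT_orbit, hA]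
    rwa [sum_sub_distrib, sub_eq_zero] at h5
  have hP0 : P = mode 0 (evT 0 P) := evT_ext fun τ => by rw [key τ, evT_mode]; simp
  have h6 : P.coeff a = 0 := by
    rw [hP0, mode, AddMonoidAlgebra.coeff_single, Finsupp.single_apply, if_neg (Ne.symm ha)]
  rw [hP, sum_shift (xr_pow hn m), if_pos hx, mul_eq_zero,
    or_iff_right (Nat.cast_ne_zero.2 hn)] at h6
  have hb : Below N (actA F (xr n m) (wT N F (xr n m))) (actA F (xr n m) (wA F (xr n m))) :=
    actA_congr hKN.zero _ (below_of_coeff fun i hi => by simp [wT, hi])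
  simp only [hA, actSer, PowerSeries.coeff_smul, map_add, PowerSeries.coeff_one,
    AddMonoidAlgebra.coeff_smul, AddMonoidAlgebra.coeff_add, Finsupp.coe_smul, Finsupp.coe_add,
    Pi.smul_apply, Pi.add_apply, smul_eq_mul, hb.coeff (show K < N by omega)] at h6
  have h7 : (if K = 0 then (1 : Trig) else 0).coeff a = 0 := by
    split_ifs
    · rw [AddMonoidAlgebra.one_def, AddMonoidAlgebra.coeff_single, Finsupp.single_apply,
        if_neg (Ne.symm ha)]
    · simp
  rw [h7, mul_zero, add_zero, mul_eq_zero] at h6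
  exact h6.resolve_left (by simp)

end

end Vale.Agent.P097.Rigid
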