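import Vale.Agent.P097.Rigid.Modes

/-!
# Formal deformations as expansions of functions

`Appr N f g`: at each point, the function `g` agrees with the series `f` up to `O(t ^ N)`.
-/

namespace Vale.Agent.P097.Rigid

open Finset PowerSeries Filter Topology Asymptotics ComplexConjugate

noncomputable section

/-- The first `N` terms of the values of `f`. -/
def pol (N : ℕ) (τ : ℝ) (f : Jet) (t : ℝ) : ℂ :=
  (trunc N (PowerSeries.map (evT τ).toRingHom f)).eval (t : ℂ)

/-- Agreement up to `O(t ^ N)` at each point. -/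
def Appr (N : ℕ) (f : Jet) (g : ℝ → ℝ → ℂ) : Prop :=
  ∀ τ, (fun t => g τ t - pol N τ f t) =O[𝓝 0] fun t : ℝ => t ^ N

theorem pol_eq (N : ℕ) (τ : ℝ) (f : Jet) (t : ℝ) :
    pol N τ f t = ∑ k ∈ range N, (t : ℂ) ^ k * evT τ (coeff k f) := by
  rw [pol, ← Polynomial.eval₂_id, eval₂_trunc_eq_sum_range]
  simp [mul_comm]

theorem isBigO_cpow (N : ℕ) (c : ℂ) :
    (fun t : ℝ => (t : ℂ) ^ N * c) =O[𝓝 0] fun t : ℝ => t ^ N :=
  IsBigO.of_bound ‖c‖ (Eventually.of_forall fun t => by simp [mul_comm])

theorem poly_small {N : ℕ} {P : Polynomial ℂ} (h : ∀ k < N, P.coeff k = 0) :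
    (fun t : ℝ => P.eval (t : ℂ)) =O[𝓝 0] fun t : ℝ => t ^ N := by
  obtain ⟨q, rfl⟩ := Polynomial.X_pow_dvd_iff.2 h
  have h1 : (fun t : ℝ => (t : ℂ) ^ N) =O[𝓝 0] fun t : ℝ => t ^ N := by
    simpa using isBigO_cpow N 1
  have h2 : (fun t : ℝ => q.eval (t : ℂ)) =O[𝓝 0] fun _ : ℝ => (1 : ℝ) :=
    ((q.continuous.comp Complex.continuous_ofReal).tendsto 0).isBigO_one ℝ
  simpa using h1.mul h2

theorem bigO_one_pow (N : ℕ) : (fun t : ℝ => t ^ N) =O[𝓝 0] fun _ : ℝ => (1 : ℝ) :=
  ((continuous_pow N).tendsto 0).isBigO_one ℝ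

theorem pow_bigO_pow {M N : ℕ} (h : M ≤ N) :
    (fun t : ℝ => t ^ N) =O[𝓝 0] fun t : ℝ => t ^ M := by
  obtain ⟨k, rfl⟩ := Nat.exists_eq_add_of_le h
  simpa [pow_add] using (isBigO_refl (fun t : ℝ => t ^ M) _).mul (bigO_one_pow k)

theorem eq_zero_of_littleO {K : ℕ} {c : ℂ}
    (h : (fun t : ℝ => (t : ℂ) ^ K * c) =o[𝓝 0] fun t : ℝ => t ^ K) : c = 0 := by
  by_contra hc
  have hpos : 0 < ‖c‖ := norm_pos_iff.2 hc
  obtain ⟨t, ht, ht0⟩ := ((h.def (half_pos hpos)).filter_mono nhdsWithin_le_nhds).and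
    (self_mem_nhdsWithin (s := ({0}ᶜ : Set ℝ))) |>.exists
  rw [norm_mul, norm_pow, Complex.norm_real, norm_pow, mul_comm] at ht
  have : 0 < ‖t‖ ^ K := pow_pos (norm_pos_iff.2 ht0) K
  nlinarith

namespace Appr

variable {N : ℕ} {f f' : Jet} {g g' : ℝ → ℝ → ℂ}

theorem add (h : Appr N f g) (h' : Appr N f' g') :
    Appr N (f + f') fun τ t => g τ t + g' τ t := fun τ =>
  ((h τ).add (h' τ)).congr_left fun t => by
    simp [pol_eq, mul_add, sum_add_distrib]; ring

theorem smul (h : Appr N f g) (r : ℂ) : Appr N (r • f) fun τ t => r * g τ t := fun τ =>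
  ((h τ).const_mul_left r).congr_left fun t => by
    simp only [pol_eq, mul_sub, mul_sum, PowerSeries.coeff_smul, map_smul, smul_eq_mul]
    congr 1
    exact sum_congr rfl fun k _ => by ring

theorem congr (h : Appr N f g) (e : ∀ τ, ∀ᶠ t in 𝓝 0, g τ t = g' τ t) : Appr N f g' := fun τ =>
  (h τ).congr' ((e τ).mono fun t ht => by simp only [ht]) EventuallyEq.rfl

theorem congr_fun (h : Appr N f g) (e : ∀ τ t, g τ t = g' τ t) : Appr N f g' :=
  h.congr fun τ => Eventually.of_forall (e τ)

theorem neg (h : Appr N f g) : Appr N (-f) fun τ t => -g τ t := by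
  simpa using h.smul (-1)

theorem sub (h : Appr N f g) (h' : Appr N f' g') :
    Appr N (f - f') fun τ t => g τ t - g' τ t :=
  sub_eq_add_neg f f' ▸ (h.add h'.neg).congr_fun fun _ _ => (sub_eq_add_neg _ _).symm

theorem bounded (h : Appr N f g) (τ : ℝ) : g τ =O[𝓝 0] fun _ : ℝ => (1 : ℝ) := by
  have h2 : (fun t : ℝ => pol N τ f t) =O[𝓝 0] fun _ : ℝ => (1 : ℝ) :=
    (((Polynomial.continuous _).comp Complex.continuous_ofReal).tendsto 0).isBigO_one ℝ
  exact (((h τ).trans (bigO_one_pow N)).add h2).congr_left fun t => sub_add_cancel _ _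

theorem mul (h : Appr N f g) (h' : Appr N f' g') :
    Appr N (f * f') fun τ t => g τ t * g' τ t := fun τ => by
  have hp : (fun t : ℝ => pol N τ f t) =O[𝓝 0] fun _ : ℝ => (1 : ℝ) :=
    (((Polynomial.continuous _).comp Complex.continuous_ofReal).tendsto 0).isBigO_one ℝ
  have h1 : (fun t => (g τ t - pol N τ f t) * g' τ t) =O[𝓝 0] fun t : ℝ => t ^ N := by
    simpa using (h τ).mul (h'.bounded τ)
  have h2 : (fun t => pol N τ f t * (g' τ t - pol N τ f' t)) =O[𝓝 0] fun t : ℝ => t ^ N := by
    simpa using hp.mul (h' τ)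
  set φ := (evT τ).toRingHom
  have h3 : (fun t : ℝ => pol N τ f t * pol N τ f' t - pol N τ (f * f') t)
      =O[𝓝 0] fun t : ℝ => t ^ N := by
    refine (poly_small (P := trunc N (PowerSeries.map φ f) * trunc N (PowerSeries.map φ f')
      - trunc N (PowerSeries.map φ (f * f'))) fun k hk => ?_).congr_left fun t => by
        simp [pol, φ]
    rw [Polynomial.coeff_sub, Polynomial.coeff_mul, coeff_trunc, if_pos hk, map_mul,
      PowerSeries.coeff_mul, sub_eq_zero]
    refine sum_congr rfl fun q hq => ?_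
    rw [HasAntidiagonal.mem_antidiagonal] at hq
    rw [coeff_trunc, coeff_trunc, if_pos (by omega), if_pos (by omega)]
  exact ((h1.add h2).add h3).congr_left fun t => by ring

theorem below (h : Appr N f g) (e : Below N f f') : Appr N f' g := fun τ =>
  (h τ).congr_left fun t => by
    simp only [pol_eq]
    rw [sum_congr rfl fun k hk => by rw [e.coeff (mem_range.1 hk)]]

theorem mono (h : Appr N f g) {M : ℕ} (hM : M ≤ N) : Appr M f g := fun τ => by
  have e : (fun t : ℝ => pol N τ f t - pol M τ f t) =O[𝓝 0] fun t : ℝ => t ^ M :=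
    (poly_small (P := trunc N (PowerSeries.map (evT τ).toRingHom f)
      - trunc M (PowerSeries.map (evT τ).toRingHom f)) fun k hk => by
        simp [coeff_trunc, hk, show k < N by omega]).congr_left fun t => by simp [pol]
  exact (((h τ).trans (pow_bigO_pow hM)).add e).congr_left fun t => by ring

/-- A series is expanded by its own partial sums. -/
theorem self (N : ℕ) (f : Jet) : Appr N f fun τ t => pol N τ f t := fun τ =>
  (isBigO_zero _ _).congr_left fun t => (sub_self _).symm

theorem one (N : ℕ) : Appr N (1 : Jet) fun _ _ => 1 := fun τ =>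
  (poly_small (P := 1 - trunc N (PowerSeries.map (evT τ).toRingHom (1 : Jet))) fun k hk => by
    rw [Polynomial.coeff_sub, coeff_trunc, if_pos hk, map_one, PowerSeries.coeff_one,
      Polynomial.coeff_one]
    simp).congr_left fun t => by simp [pol]

theorem pow (h : Appr N f g) : ∀ j : ℕ, Appr N (f ^ j) fun τ t => g τ t ^ j
  | 0 => by simpa using Appr.one N
  | j + 1 => by simpa [pow_succ] using (h.pow j).mul h

theorem finsum {ι : Type*} (s : Finset ι) {F : ι → Jet} {G : ι → ℝ → ℝ → ℂ}
    (h : ∀ i ∈ s, Appr N (F i) (G i)) :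
    Appr N (∑ i ∈ s, F i) fun τ t => ∑ i ∈ s, G i τ t := fun τ =>
  (IsBigO.sum fun i hi => h i hi τ).congr_left fun t => by
    simp only [pol_eq, map_sum, mul_sum, Finset.sum_apply, sum_sub_distrib]
    rw [sum_comm (s := range N)]

theorem shift (h : Appr N f g) {y : ℂˣ} {β : ℝ} (hy : (y : ℂ) = Complex.exp (β * Complex.I)) :
    Appr N (shS y f) fun τ t => g (τ + β) t := fun τ =>
  (h (τ + β)).congr_left fun t => by
    have e : ∀ p : Trig, evT τ (shT y p) = evT (τ + β) p := fun p => by
      induction p using AddMonoidAlgebra.induction_linear with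
      | zero => simp
      | add p q hp hq => simp [hp, hq]
      | single a r =>
        simp only [shT, evT, mode, AddMonoidAlgebra.lift_single, MonoidHom.coe_mk, OneHom.coe_mk,
          toAdd_ofAdd, map_smul, smul_eq_mul]
        rw [Units.val_zpow_eq_zpow_val, hy, ← Complex.exp_int_mul, ← Complex.exp_add]
        congr 2
        push_cast
        ring
    simp only [pol_eq, coeff_shS, e]

theorem small (h : Appr N f g) (hN : 0 < N) (hf : coeff 0 f = 0) (τ : ℝ) :
    g τ =O[𝓝 0] fun t : ℝ => t := by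
  have h1 : (fun t => g τ t - pol N τ f t) =O[𝓝 0] fun t : ℝ => t ^ 1 :=
    (h τ).trans (pow_bigO_pow hN)
  have h2 : (fun t : ℝ => pol N τ f t) =O[𝓝 0] fun t : ℝ => t ^ 1 :=
    poly_small fun k hk => by
      obtain rfl : k = 0 := by omega
      rw [coeff_trunc, if_pos hN, coeff_map, hf, map_zero]
  simpa using h1.add h2

theorem exp (h : Appr N f g) (hN : 0 < N) (hf : coeff 0 f = 0) (b : ℂ) :
    Appr N (ser (expC b) f) fun τ t => Complex.exp (b * g τ t) := by
  have hs : Appr N (∑ j ∈ range N, expC b j • f ^ j)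
      fun τ t => ∑ j ∈ range N, expC b j * g τ t ^ j :=
    finsum _ fun j _ => (h.pow j).smul _
  have hb : Below N (∑ j ∈ range N, expC b j • f ^ j) (ser (expC b) f) :=
    below_of_coeff fun k hk => by
      simp only [ser, coeff_mk, map_sum, PowerSeries.coeff_smul]
      rw [← sum_subset (range_subset_range.2 (show k + 1 ≤ N by omega)) fun j _ hj => ?_]
      · exact sum_congr rfl fun j _ => Algebra.smul_def _ _
      · rw [mem_range, not_lt] at hj
        rw [coeff_pow_eq_zero (J := 1) (fun i hi => by rw [show i = 0 by omega]; exact hf) (by omega),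
          smul_zero]
  intro τ
  have h0 : Tendsto (fun t => b * g τ t) (𝓝 0) (𝓝 0) := by
    simpa using ((h.small hN hf τ).trans_tendsto tendsto_id).const_mul b
  have h1 : (fun t => Complex.exp (b * g τ t) - ∑ j ∈ range N, expC b j * g τ t ^ j)
      =O[𝓝 0] fun t : ℝ => t ^ N := by
    refine IsBigO.trans ?_ (((h.small hN hf τ).const_mul_left b).pow N)
    refine IsBigO.of_bound ((N.succ : ℝ) * ((N.factorial : ℝ) * N)⁻¹) ?_
    filter_upwards [h0.norm.eventually_le_const (show ‖(0 : ℂ)‖ < 1 by simp)] with t ht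
    have := Complex.exp_bound ht hN
    simp only [expC, div_mul_eq_mul_div, ← mul_pow, norm_pow]
    exact this.trans_eq (mul_comm _ _)
  exact (h1.add ((hs.below hb) τ)).congr_left fun t => by ring

theorem cosh (h : Appr N f g) (hN : 0 < N) (hf : coeff 0 f = 0) :
    Appr N (ser chC f) fun τ t => Complex.cosh (g τ t) := by
  have e : ser chC f = (2⁻¹ : ℂ) • (ser (expC 1) f + ser (expC (-1)) f) := by
    ext1 k
    simp only [ser, coeff_mk, PowerSeries.coeff_smul, map_add, ← sum_add_distrib, smul_sum,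
      ← add_mul]
    refine sum_congr rfl fun j _ => ?_
    rw [Algebra.smul_def, ← mul_assoc, ← map_add, ← map_mul]
    congr 2
    rcases Nat.even_or_odd j with hj | hj
    · simp only [chC, expC, if_pos hj, one_pow, hj.neg_one_pow]; field_simp; ring
    · simp only [chC, expC, if_neg (Nat.not_even_iff_odd.2 hj), one_pow, hj.neg_one_pow]; ring
  rw [e]
  exact (((h.exp hN hf 1).add (h.exp hN hf (-1))).smul 2⁻¹).congr_fun fun τ t => by
    rw [Complex.cosh, one_mul, neg_one_mul]; ring

theorem sinh (h : Appr N f g) (hN : 0 < N) (hf : coeff 0 f = 0) :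
    Appr N (f + ser shC' f) fun τ t => Complex.sinh (g τ t) := by
  have e : f + ser shC' f = (2⁻¹ : ℂ) • (ser (expC 1) f - ser (expC (-1)) f) := by
    ext1 k
    simp only [ser, coeff_mk, PowerSeries.coeff_smul, map_sub, map_add, ← sum_sub_distrib, smul_sum,
      ← sub_mul]
    have e1 : coeff k f = ∑ j ∈ range (k + 1),
        algebraMap ℂ Trig (if j = 1 then 1 else 0) * coeff k (f ^ j) := by
      rcases Nat.eq_zero_or_pos k with rfl | hk
      · rw [sum_eq_zero, hf]
        intro j hj
        rw [show j = 0 by simpa using hj, if_neg zero_ne_one, map_zero, zero_mul]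
      · rw [sum_eq_single 1 (fun j _ hj => by rw [if_neg hj, map_zero, zero_mul])
          fun h => absurd (mem_range.2 (by omega)) h]
        simp
    rw [e1, ← sum_add_distrib]
    refine sum_congr rfl fun j _ => ?_
    rw [← add_mul, Algebra.smul_def, ← mul_assoc, ← map_sub, ← map_mul, ← map_add]
    congr 2
    rcases Nat.even_or_odd j with hj | hj
    · have h1 : j ≠ 1 := fun e => by subst e; exact Nat.not_even_one hj
      simp [shC', expC, h1, Nat.not_odd_iff_even.2 hj, hj.neg_one_pow]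
    · rcases eq_or_ne j 1 with rfl | h1
      · norm_num [shC', expC]
      · simp only [shC', expC, if_neg h1, if_pos (And.intro hj h1), one_pow, hj.neg_one_pow]
        field_simp; ring
  rw [e]
  exact (((h.exp hN hf 1).sub (h.exp hN hf (-1))).smul 2⁻¹).congr_fun fun τ t => by
    rw [Complex.sinh, one_mul, neg_one_mul]; ring

/-- The first coefficient which may be non-zero. -/
theorem top {K : ℕ} (h : Appr (K + 1) f g) {τ : ℝ} (hlow : ∀ k < K, evT τ (coeff k f) = 0) :
    (fun t : ℝ => g τ t - (t : ℂ) ^ K * evT τ (coeff K f)) =O[𝓝 0] fun t : ℝ => t ^ (K + 1) :=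
  (h τ).congr_left fun t => by
    rw [pol_eq, sum_range_succ, sum_eq_zero fun k hk => by rw [hlow k (mem_range.1 hk), mul_zero],
      zero_add]

end Appr

/-! ### The values determine the coefficients -/

theorem evT_mode (τ : ℝ) (a : ℤ) (r : ℂ) :
    evT τ (mode a r) = r * Complex.exp (a * ((τ : ℂ) * Complex.I)) := by
  simp only [evT, mode, AddMonoidAlgebra.lift_single, MonoidHom.coe_mk, OneHom.coe_mk, toAdd_ofAdd,
    smul_eq_mul]

theorem evT_apply (τ : ℝ) (p : Trig) :
    evT τ p = p.coeff.sum fun a r => r * Complex.exp (a * ((τ : ℂ) * Complex.I)) := by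
  rw [evT, AddMonoidAlgebra.lift_apply]
  rfl

/-- A character of the line. -/
def chr (a : ℤ) : Multiplicative ℝ →* ℂ where
  toFun τ := Complex.exp (a * ((τ.toAdd : ℂ) * Complex.I))
  map_one' := by simp
  map_mul' σ τ := by rw [← Complex.exp_add]; congr 1; simp; ring

theorem chr_injective : Function.Injective chr := by
  intro a b h
  by_contra hne
  have h1 := congrArg (fun e : Multiplicative ℝ →* ℂ =>
    e (Multiplicative.ofAdd (Real.pi / ((a - b : ℤ) : ℝ)))) h
  simp only [chr, MonoidHom.coe_mk, OneHom.coe_mk, toAdd_ofAdd] at h1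
  have hd : ((a - b : ℤ) : ℂ) ≠ 0 := by exact_mod_cast sub_ne_zero.2 hne
  have e : Complex.exp (Real.pi * Complex.I) = 1 := by
    rw [← div_eq_one_iff_eq (Complex.exp_ne_zero _), ← Complex.exp_sub] at h1
    rw [← h1]
    congr 1
    push_cast at hd ⊢
    rw [← sub_mul]
    field_simp
  rw [Complex.exp_pi_mul_I] at e
  norm_num at e

theorem evT_ext {p q : Trig} (h : ∀ τ, evT τ p = evT τ q) : p = q := by
  refine sub_eq_zero.1 (AddMonoidAlgebra.coeff_injective (Finsupp.ext fun a => ?_))
  have hli := (linearIndependent_monoidHom (Multiplicative ℝ) ℂ).comp chr chr_injective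
  refine DFunLike.congr_fun (linearIndependent_iff.1 hli (p - q).coeff ?_) a
  funext τ
  have := h τ.toAdd
  rw [← sub_eq_zero, ← map_sub, evT_apply] at this
  simpa [Finsupp.linearCombination_apply, Finsupp.sum, chr, Function.comp_apply] using this

/-- The conjugate of the values, mode by mode. -/
def bar (p : Trig) : Trig := p.coeff.sum fun a r => mode (-a) (conj r)

theorem coeff_bar (p : Trig) (a : ℤ) : (bar p).coeff a = conj (p.coeff (-a)) := by
  classical
  simp only [bar, mode, Finsupp.sum, AddMonoidAlgebra.coeff_sum, Finsupp.finsetSum_apply,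
    AddMonoidAlgebra.coeff_single, Finsupp.single_apply, neg_eq_iff_eq_neg]
  rw [sum_ite_eq' p.coeff.support (-a) fun b => conj (p.coeff b)]
  split_ifs with h
  · rfl
  · rw [Finsupp.notMem_support_iff.1 h, map_zero]

theorem evT_bar (τ : ℝ) (p : Trig) : evT τ (bar p) = conj (evT τ p) := by
  rw [bar, Finsupp.sum, map_sum, evT_apply τ p, Finsupp.sum, map_sum]
  refine sum_congr rfl fun a _ => ?_
  rw [evT_mode, map_mul, ← Complex.exp_conj]
  congr 2
  simp

/-- The values along a regular configuration sum to those of the periodic modes. -/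
theorem sum_shift {x : ℂˣ} {n : ℕ} (hx : x ^ (2 * n) = 1) (p : Trig) (a : ℤ) :
    (∑ j ∈ range n, shT ((x ^ 2) ^ j) p).coeff a =
      if x ^ (2 * a) = 1 then (n : ℂ) * p.coeff a else 0 := by
  simp only [AddMonoidAlgebra.coeff_sum, Finsupp.finsetSum_apply, coeff_shT, ← sum_mul]
  have e : ∀ j : ℕ, ((((x ^ 2) ^ j) ^ a : ℂˣ) : ℂ) = ((x ^ (2 * a) : ℂˣ) : ℂ) ^ j := fun j => by
    rw [← Units.val_pow_eq_pow_val, ← zpow_natCast, ← zpow_natCast (x ^ (2 * a)), ← zpow_natCast,
      ← zpow_mul, ← zpow_mul, ← zpow_mul]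
    congr 1
    push_cast
    ring_nf
  simp only [e]
  split_ifs with h
  · simp [h]
  · have hne : ((x ^ (2 * a) : ℂˣ) : ℂ) ≠ 1 := fun h1 => h (Units.ext h1)
    have h1 : ((x ^ (2 * a) : ℂˣ) : ℂ) ^ n = 1 := by
      rw [← Units.val_pow_eq_pow_val, ← zpow_natCast, ← zpow_mul,
        show (2 * a * (n : ℤ)) = ((2 * n : ℕ) : ℤ) * a by push_cast; ring, zpow_mul, zpow_natCast,
        hx, one_zpow, Units.val_one]
    rw [geom_sum_eq hne, h1, sub_self, zero_div, zero_mul]

end

end Vale.Agent.P097.Rigid
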