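import Vale.Agent.P097.Rigid.Core

/-!
# No one sided deformation keeps all periodic families

At `n = J p` the two rotations have the same residue while the leading pole differs by the factor
`(2 J + 1) ^ p`, which is not `1` modulo `p`.
-/

namespace Vale.Agent.P097.Rigid

open Finset PowerSeries

noncomputable section

variable {Γ : Type*} [LinearOrderedCommGroupWithZero Γ] {p J n s : ℕ} {x ζ : ℂ}
  {v : Valuation ℂ Γ} {φ : ℕ → ℂ} {w : ℂ⟦X⟧}

theorem Cong.refl (v : Valuation ℂ Γ) (a : ℂ) : Cong v a a := by simp [Cong]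

theorem Cong.symm {a b : ℂ} (h : Cong v a b) : Cong v b a := by
  rwa [Cong, Valuation.map_sub_swap]

theorem Cong.trans {a b c : ℂ} (h : Cong v a b) (h' : Cong v b c) : Cong v a c := by
  rw [Cong, show a - c = a - b + (b - c) by ring]
  exact (v.map_add _ _).trans_lt (max_lt h h')

theorem Cong.le_one {a b : ℂ} (h : Cong v a b) (hb : v b ≤ 1) : v a ≤ 1 := by
  rw [show a = a - b + b by ring]
  exact (v.map_add _ _).trans (max_le h.le hb)

theorem Cong.mul {a b c d : ℂ} (h : Cong v a b) (h' : Cong v c d) (hb : v b ≤ 1) (hd : v d ≤ 1) :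
    Cong v (a * c) (b * d) := by
  rw [Cong, show a * c - b * d = (a - b) * c + b * (c - d) by ring]
  refine (v.map_add _ _).trans_lt (max_lt ?_ ?_) <;> rw [map_mul]
  · exact (mul_le_of_le_one_right' (h'.le_one hd)).trans_lt h
  · exact (mul_le_of_le_one_left' hb).trans_lt h'

theorem Cong.pow {a b : ℂ} (h : Cong v a b) (hb : v b ≤ 1) : ∀ k : ℕ, Cong v (a ^ k) (b ^ k)
  | 0 => by simpa using Cong.refl v 1
  | k + 1 => by
    rw [pow_succ, pow_succ]
    exact (Cong.pow h hb k).mul h (by rw [map_pow]; exact pow_le_one₀ zero_le hb) hb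

theorem coeff_zero_ser {R : Type*} [CommRing R] [Algebra ℂ R] (c : ℕ → ℂ) (f : R⟦X⟧) :
    coeff 0 (ser c f) = algebraMap ℂ R (c 0) := by
  simp [ser]

theorem coeff_ser_first (hJ : 0 < J) {f : ℂ⟦X⟧} (hf : ∀ a < J, coeff a f = 0) (c : ℕ → ℂ) :
    coeff J (ser c f) = c 1 * coeff J f := by
  rw [ser, coeff_mk, sum_eq_single 1]
  · simp
  · intro k _ hk
    rcases Nat.eq_zero_or_pos k with rfl | hk0
    · simp [coeff_one, hJ.ne']
    · rw [coeff_pow_eq_zero hf
        (lt_of_lt_of_le (by omega : J < J * 2) (Nat.mul_le_mul_left J (by omega : 2 ≤ k))), mul_zero]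
  · exact fun h => absurd (mem_range.2 (by omega)) h

/-- The rotation and its multiples have the valuations of a root of unity. -/
theorem good_of (P : Place p ζ v) (hp : 2 < p) (hJp : J < p) (hn : n ≤ J * p) (hn1 : 1 < n)
    (hx : x ^ (2 * n) = 1) (hne : ∀ a, 0 < a → a < n → x ^ (2 * a) ≠ 1) :
    ∃ s, Good p J n s ζ x v := by
  obtain ⟨q, hq, hdvd⟩ : ∃ q, ¬ p ∣ q ∧ n ∣ p * q := by
    by_cases h : p ∣ n
    · obtain ⟨i, rfl⟩ := h
      refine ⟨i, fun hd => ?_, dvd_rfl⟩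
      have h1 : i ≤ J := Nat.le_of_mul_le_mul_left (by rw [mul_comm p J]; exact hn) P.prime.pos
      have h0 : 0 < i := Nat.pos_of_ne_zero fun e => by simp [e] at hn1
      have := Nat.le_of_dvd h0 hd
      omega
    · exact ⟨n, h, dvd_mul_left n p⟩
  have hroot : ∀ a, (x ^ (2 * a)) ^ (p * q) = 1 := fun a => by
    obtain ⟨k, hk⟩ := hdvd
    rw [← pow_mul, hk, show 2 * a * (n * k) = 2 * n * (a * k) by ring, pow_mul, hx, one_pow]
  have hpow : ∀ a, v (x ^ (2 * a) - 1) ≤ 1 := fun a => by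
    have h1 : v x = 1 := Place.root_eq_one (v := v) (by omega) hx
    exact (v.map_sub _ _).trans (max_le (by rw [map_pow, h1, one_pow]) (by simp))
  have hlow : ∀ a, 0 < a → a < n → v (ζ - 1) ≤ v (x ^ (2 * a) - 1) := fun a ha han => by
    rcases P.dichotomy hq (hroot a) (hne a ha han) with h | ⟨-, h⟩
    · rw [h]; exact P.vdelta_lt.le
    · rw [h]
  rcases P.dichotomy hq (x := x ^ 2) (by simpa using hroot 1)
      (by simpa using hne 1 one_pos hn1) with h | ⟨h1, h⟩
  · exact ⟨0, P, hp, hx, hne, hn, zero_le_one, by simpa using h, hlow, fun a => by simpa using hpow a⟩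
  · refine ⟨1, P, hp, hx, hne, hn, le_rfl, by simpa using h, hlow, fun a => ?_⟩
    rw [pow_one]
    rcases eq_or_ne (x ^ (2 * a)) 1 with he | he
    · simp [he]
    have : NeZero p := ⟨P.prime.ne_zero⟩
    obtain ⟨r, -, hr⟩ := P.root.eq_pow_of_pow_eq_one
      (show (x ^ (2 * a)) ^ p = 1 by rw [pow_mul, ← pow_mul, mul_comm a p, pow_mul, h1, one_pow])
    rw [← hr]
    refine (P.sub_one_of_pow fun hd => he ?_).2.le
    obtain ⟨k, rfl⟩ := hd
    rw [← hr, pow_mul, P.root.pow_eq_one, one_pow]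

/-- All of the action but the two terms which may be large is small. -/
theorem action_bound (G : Good p J n s ζ x v) (hJ : 0 < J) (hn0 : 0 < n) (hφ : Small ζ v J n φ)
    (O : Orbit φ n x w) (hsupp : ∀ a < J, coeff a w = 0) :
    Pole ζ v (blocks J n - 2 - s) (φ n * (x ^ n * Sh x)
      + Ch x * if n = J * p then coeff J (dp x w) ^ p / p.factorial else 0) := by
  have E := est G hJ hn0 hφ O hsupp n le_rfl
  have hs : (s : ℤ) ≤ 1 := by exact_mod_cast G.hs
  have hodd : ¬ Even p := Nat.not_even_iff_odd.2 (G.prime.odd_of_ne_two (by linarith [G.two]))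
  have hlt : ∀ k, J * k ≤ n → k ≠ p → k < p := fun k hk hkp => by
    have := G.hn
    have : k ≤ p := Nat.le_of_mul_le_mul_left (hk.trans G.hn) hJ
    omega
  set c : ℕ → ℂ := fun k => if k = p then 0 else shC' k with hc
  have hch : Gain ζ v J ((2 : ℕ) * 1) (n + 1) (ser chC' (dp x w)) :=
    E.next'.ser_succ G.toPlace zero_le_one E.supp_dp hJ le_rfl
      (fun k hk => by interval_cases k <;> simp [chC', chC]) fun k hk => by
      rw [chC']
      split_ifs with h0
      · simp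
      rcases eq_or_ne k p with rfl | hkp
      · simp [chC, hodd]
      · exact G.chC_le k (hlt k hk hkp)
  have hsh : Gain ζ v J ((3 : ℕ) * 1) (n + 1) (ser c (dp x w)) :=
    E.next'.ser_succ G.toPlace zero_le_one E.supp_dp hJ (by norm_num)
      (fun k hk => by interval_cases k <;> simp [hc, shC']) fun k hk => by
      simp only [hc]
      split_ifs with hkp
      · simp
      · exact G.shC'_le k (hlt k hk hkp)
  have hdn : coeff n (dp x w) = 0 := by
    rw [dp, map_sub, coeff_rescale, ← pow_mul, G.pow_eq, one_mul, sub_self]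
  have hsplit : coeff n (ser shC' (dp x w)) = coeff n (ser c (dp x w))
      + if n = J * p then coeff J (dp x w) ^ p / p.factorial else 0 := by
    have e : ∀ k, shC' k * coeff n (dp x w ^ k) = c k * coeff n (dp x w ^ k) +
        if k = p then coeff n (dp x w ^ p) / p.factorial else 0 := fun k => by
      simp only [hc]
      split_ifs with hk
      · subst hk
        rw [shC', if_pos ⟨G.prime.odd_of_ne_two (by linarith [G.two]), G.prime.one_lt.ne'⟩]
        ring
      · ring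
    simp only [ser, coeff_mk, Algebra.algebraMap_self, RingHom.id_apply, e, sum_add_distrib,
      sum_ite_eq', mem_range]
    congr 1
    rcases (G.hn).eq_or_lt with rfl | hlt'
    · rw [if_pos (by nlinarith [G.two] : p < J * p + 1), if_pos rfl, coeff_pow_top E.supp_dp]
    · rw [if_neg hlt'.ne, coeff_pow_eq_zero E.supp_dp hlt']
      simp
  have hkL : ∀ b, Gain ζ v J s n (kerL x w b) := fun b =>
    ((E.gain_exp G le_rfl b).1.mul G.toPlace (E.gain_snp G hn0 le_rfl)).smul G.toPlace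
      (i := 0) (by simpa using Place.pole_of_le_one (G.vpow hn0 b).le) (by omega)
  have h0 : coeff 0 (kerL x w n) = x ^ n * Sh x := by
    have e1 : coeff 0 (snp x (dp x w)) = Sh x := by
      simp only [snp, map_add, coeff_C_mul, coeff_zero_ser, E.supp_dp 0 hJ]
      simp [chC, shC']
    rw [kerL, coeff_C_mul, coeff_zero_eq_constantCoeff_apply, map_mul,
      ← coeff_zero_eq_constantCoeff_apply, ← coeff_zero_eq_constantCoeff_apply, coeff_zero_ser, e1]
    simp [expC]
  have h := O.action_eq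
  rw [action, sum_range_succ, Nat.sub_self, h0, map_add, hdn, zero_add, hsplit] at h
  have hrest : Pole ζ v (blocks J n - 2 - s) (Sh x * coeff n (ser chC' (dp x w))
      + Ch x * coeff n (ser c (dp x w)) + ∑ b ∈ range n, φ b * coeff (n - b) (kerL x w b)) := by
    refine Place.pole_add (Place.pole_add ?_ ?_) ?_
    · exact G.pole_mul (G.pole_Sh hn0) (hch n (by omega)) (by omega)
    · exact G.pole_mul (G.pole_Ch hn0) (hsh n (by omega)) (by omega)
    · refine Place.pole_sum _ fun b hb => ?_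
      rw [mem_range] at hb
      rcases lt_or_ge b J with hbJ | hbJ
      · rw [hφ.1 b hbJ, zero_mul]; exact Place.pole_zero _
      refine G.pole_mul (hφ.2 b hb) (hkL b (n - b) (by omega)) ?_
      have := blocks_add_le J b (n - b)
      rw [Nat.add_sub_cancel' hb.le] at this
      omega
  convert Place.pole_neg hrest using 1
  linear_combination h

theorem rot_pow (hn : n ≠ 0) : rot n ^ n = -1 := by
  rw [rot, ← Complex.exp_nat_mul, mul_div_cancel₀ _ (by exact_mod_cast hn), Complex.exp_pi_mul_I]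

theorem rot_sq (n : ℕ) : rot n ^ 2 = Complex.exp (2 * Real.pi * Complex.I / n) := by
  rw [rot, ← Complex.exp_nat_mul]
  congr 1
  push_cast
  ring

theorem rot_prop {m : ℕ} (hn : n ≠ 0) (hm : m.Coprime n) :
    (rot n ^ m) ^ (2 * n) = 1 ∧ ∀ a, 0 < a → a < n → (rot n ^ m) ^ (2 * a) ≠ 1 := by
  refine ⟨?_, fun a ha han h => ?_⟩
  · rw [← pow_mul, show m * (2 * n) = n * (m * 2) by ring, pow_mul, rot_pow hn,
      show m * 2 = 2 * m by ring, pow_mul, neg_one_sq, one_pow]
  · have hP : IsPrimitiveRoot (rot n ^ 2) n := rot_sq n ▸ Complex.isPrimitiveRoot_exp n hn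
    have h2 : (rot n ^ 2) ^ (m * a) = 1 := by
      rw [← pow_mul, show 2 * (m * a) = m * (2 * a) by ring, pow_mul]
      exact h
    have := Nat.le_of_dvd ha (hm.symm.dvd_of_dvd_mul_left ((hP.pow_eq_one_iff_dvd _).1 h2))
    omega

/-- The bound on every coefficient below `J p`. -/
theorem small_of (P : Place p ζ v) (hp : 2 < p) (hJp : J < p) (hJ : 2 ≤ J) (q : ℕ)
    (hzero : ∀ b < J, φ b = 0) (hint : ∀ b ≤ q, v (φ b) ≤ 1)
    (H : ∀ n > q, ∃ w, (∀ a < J, coeff a w = 0) ∧ Orbit φ n (rot n) w) :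
    ∀ N ≤ J * p, Small ζ v J N φ := by
  intro N
  induction N with
  | zero => exact fun _ => ⟨hzero, fun b hb => absurd hb b.not_lt_zero⟩
  | succ N ih =>
    intro hN
    have hS := ih (by omega)
    refine ⟨hzero, fun b hb => ?_⟩
    rcases Nat.lt_succ_iff_lt_or_eq.1 hb with h | rfl
    · exact hS.2 b h
    rcases lt_or_ge b J with hbJ | hbJ
    · rw [hzero b hbJ]; exact Place.pole_zero _
    have hb1 : 0 < b / J := Nat.div_pos hbJ (by omega)
    rcases lt_or_ge q b with hqb | hbq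
    · obtain ⟨w, hw0, O⟩ := H b hqb
      obtain ⟨hx, hne⟩ := rot_prop (m := 1) (by omega : b ≠ 0) (Nat.coprime_one_left b)
      rw [pow_one] at hx hne
      obtain ⟨s, G⟩ := good_of P hp hJp (by omega) (by omega) hx hne
      have h := action_bound G (by omega) (by omega) hS O hw0
      rw [if_neg (by omega), mul_zero, add_zero] at h
      have hne0 : rot b ^ b * Sh (rot b) ≠ 0 :=
        mul_ne_zero (pow_ne_zero _ (G.xne (by omega))) (G.Sh_ne (by omega))
      have hinv : Pole ζ v s (rot b ^ b * Sh (rot b))⁻¹ := P.pole_inv (by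
        rw [map_mul, G.vpow (by omega), one_mul, G.vSh (by omega)])
      have := P.pole_mul h hinv (c := blocks J b - 2) (by omega)
      rwa [mul_assoc, mul_inv_cancel₀ hne0, mul_one] at this
    · refine P.pole_mono (Place.pole_of_le_one (hint b hbq)) ?_
      simp only [blocks]
      omega

/-- The first coefficient of the orbit. -/
theorem first_coeff (O : Orbit φ n x w) (hJ : 0 < J) (hJn : J < n)
    (hsupp : ∀ a < J, coeff a w = 0) (hzero : ∀ b < J, φ b = 0) :
    Sh x * (x ^ J - x⁻¹ ^ J) ^ 2 * coeff J w =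
      φ J * (J * ((x ^ J + x⁻¹ ^ J) * Sh x) - (x ^ J - x⁻¹ ^ J) * Ch x) := by
  have hd : ∀ a < J, coeff a (dp x w) = 0 := fun a ha => by simp [dp, hsupp a ha]
  have hd' : ∀ a < J, coeff a (dm x w) = 0 := fun a ha => by simp [dm, hsupp a ha]
  have h0 : coeff 0 (kerE x w J) =
      J * ((x ^ J + x⁻¹ ^ J) * Sh x) - (x ^ J - x⁻¹ ^ J) * Ch x := by
    have ed := hd 0 hJ
    have ed' := hd' 0 hJ
    rw [coeff_zero_eq_constantCoeff_apply] at ed ed'
    have key : ∀ (c : ℕ → ℂ) (f : ℂ⟦X⟧), constantCoeff (ser c f) = c 0 := fun c f => by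
      rw [← coeff_zero_eq_constantCoeff_apply, coeff_zero_ser]; rfl
    simp [kerE, snp, snm, csp, csm, key, ed, ed', chC, shC', expC]
    ring
  rw [O.eq J hJn, eqn, sum_range_succ, Nat.sub_self, h0,
    sum_eq_zero fun b hb => by rw [hzero b (mem_range.1 hb), zero_mul]]
  simp [map_sub, map_add, coeff_ser_first hJ hd, coeff_ser_first hJ hd', chC, shC']

/-- The residue of the first coefficient of the displacement difference at `n = J p`. -/
theorem residue_dp (G : Good p J (J * p) 0 ζ x v) (hJ : 0 < J) (hxn : x ^ (J * p) = -1)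
    (O : Orbit φ (J * p) x w) (hsupp : ∀ a < J, coeff a w = 0) (hzero : ∀ b < J, φ b = 0)
    (hφ : v (φ J) ≤ 1) {M : ℕ} (hM : ¬ p ∣ M) (hη : x ^ (2 * J) = ζ ^ M) :
    Cong v ((M : ℂ) * ((ζ - 1) * coeff J (dp x w))) (-2 * J * φ J) := by
  have hn0 : 0 < J * p := Nat.mul_pos hJ G.prime.pos
  have hJn : J < J * p := lt_mul_of_one_lt_right hJ G.prime.one_lt
  have hxne := G.xne hn0
  have hy : Cong v (x⁻¹ ^ J) (-1) := by
    have h1 : (-x⁻¹ ^ J) ^ p = 1 := by
      rw [neg_pow, (G.prime.odd_of_ne_two (by linarith [G.two])).neg_one_pow, ← pow_mul, inv_pow,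
        hxn]
      norm_num
    have : NeZero p := ⟨G.prime.ne_zero⟩
    obtain ⟨r, -, hr⟩ := G.root.eq_pow_of_pow_eq_one h1
    rw [Cong, show x⁻¹ ^ J - -1 = -(ζ ^ r - 1) by rw [hr]; ring, Valuation.map_neg,
      ← geom_sum_mul ζ r, map_mul]
    refine (mul_le_of_le_one_left' (v.map_sum_le fun i _ => ?_)).trans_lt G.vdelta_lt
    rw [map_pow, Place.root_eq_one (v := v) G.prime.pos G.root.pow_eq_one, one_pow]
  obtain ⟨hc, hve⟩ := G.sub_one_of_pow hM
  set η := ζ ^ M with hηdef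
  have hη0 : η - 1 ≠ 0 := fun h => by
    rw [h, map_zero] at hve
    exact G.vdelta_ne hve.symm
  have hS := G.Sh_ne hn0
  have he : x ^ J - x⁻¹ ^ J = x⁻¹ ^ J * (η - 1) := by
    rw [← hη, inv_pow, mul_sub, two_mul, pow_add, ← mul_assoc,
      inv_mul_cancel₀ (pow_ne_zero _ hxne), one_mul, mul_one]
  have hs : x ^ J + x⁻¹ ^ J = x⁻¹ ^ J * (η + 1) := by
    rw [← hη, inv_pow, mul_add, two_mul, pow_add, ← mul_assoc,
      inv_mul_cancel₀ (pow_ne_zero _ hxne), one_mul, mul_one]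
  have key := first_coeff O hJ hJn hsupp hzero
  rw [he, hs] at key
  have hform : (ζ - 1) * coeff J (dp x w) =
      φ J * ((ζ - 1) / (η - 1)) * (J * (x ^ (2 * J) * (x⁻¹ ^ J * (η + 1))))
        - (ζ - 1) * (φ J * (x ^ J * (Ch x / Sh x))) := by
    have hw : coeff J w = φ J * (J * (x⁻¹ ^ J * (η + 1) * Sh x) - x⁻¹ ^ J * (η - 1) * Ch x)
        / (Sh x * (x⁻¹ ^ J * (η - 1)) ^ 2) := by
      rw [← key]
      field_simp
    rw [dp, map_sub, coeff_rescale, ← sub_one_mul, ← pow_mul, hη, hw, inv_pow]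
    field_simp
    rw [← hη, two_mul, pow_add]
    ring
  have hvx : v x = 1 := G.vx hn0
  have hη1 : Cong v η 1 := by rw [Cong, hve]; exact G.vdelta_lt
  have hmain : Cong v ((M : ℂ) * ((ζ - 1) / (η - 1))) 1 := by
    have hu : v ((η - 1) / (ζ - 1)) = 1 := by rw [map_div₀, hve, div_self G.vdelta_ne]
    rw [Cong, show (M : ℂ) * ((ζ - 1) / (η - 1)) - 1
      = (M - (η - 1) / (ζ - 1)) * ((η - 1) / (ζ - 1))⁻¹ by field_simp [G.delta_ne], map_mul,
      map_inv₀, hu, inv_one, mul_one]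
    exact hc.symm
  have h2 : Cong v (η + 1) 2 := by
    rw [Cong, show η + 1 - 2 = η - 1 by ring]
    exact hη1
  have hprod : Cong v (φ J * ((M : ℂ) * ((ζ - 1) / (η - 1))) * (J * (η * (x⁻¹ ^ J * (η + 1)))))
      (φ J * 1 * (J * (1 * (-1 * 2)))) := by
    have e1 : v ((1 : ℂ) * (-1 * 2)) ≤ 1 := by
      simp only [map_mul, Valuation.map_neg, map_one, one_mul, G.vtwo, le_refl]
    refine ((Cong.refl v (φ J)).mul hmain hφ (by simp)).mul ((Cong.refl v (J : ℂ)).mul
      (hη1.mul (hy.mul h2 (by simp) G.vtwo.le) (by simp) (by simp [G.vtwo]))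
      (Place.natCast_le J) e1) (by simpa using hφ) ?_
    rw [map_mul]
    exact mul_le_one' (Place.natCast_le J) e1
  have hsmall : Cong v ((M : ℂ) * ((ζ - 1) * (φ J * (x ^ J * (Ch x / Sh x))))) 0 := by
    rw [Cong, sub_zero, map_mul, map_mul]
    refine (mul_le_of_le_one_left' (Place.natCast_le M)).trans_lt
      ((mul_le_of_le_one_right' ?_).trans_lt G.vdelta_lt)
    rw [map_mul, map_mul, map_pow, hvx, one_pow, one_mul, map_div₀, G.vSh hn0, pow_zero, div_one]
    exact mul_le_one' hφ (by simpa [Pole] using G.pole_Ch hn0)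
  have hexp : (M : ℂ) * ((ζ - 1) * coeff J (dp x w)) - (-2 * J * φ J) =
      (φ J * ((M : ℂ) * ((ζ - 1) / (η - 1))) * (J * (η * (x⁻¹ ^ J * (η + 1))))
        - φ J * 1 * (J * (1 * (-1 * 2))))
      - ((M : ℂ) * ((ζ - 1) * (φ J * (x ^ J * (Ch x / Sh x)))) - 0) := by
    rw [hform, hη]; ring
  rw [Cong, hexp]
  exact (v.map_sub _ _).trans_lt (max_lt hprod hsmall)

theorem Place.prime_val (P : Place p ζ v) : v (p : ℂ) = v (ζ - 1) ^ (p - 1) := by
  have h1 : p = p - 1 + 1 := (Nat.sub_add_cancel P.prime.pos).symm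
  have h2 := (h1 ▸ P.root : IsPrimitiveRoot ζ (p - 1 + 1)).prod_one_sub_pow_eq_order
  have h3 : ∀ r ∈ range (p - 1), v (1 - ζ ^ (r + 1)) = v (ζ - 1) := fun r hr => by
    rw [mem_range] at hr
    rw [Valuation.map_sub_swap]
    exact (P.sub_one_of_pow (Nat.not_dvd_of_pos_of_lt r.succ_pos (by omega))).2
  have h4 := congrArg v h2
  rw [map_prod, prod_congr rfl h3, prod_const, card_range] at h4
  rw [h4]
  congr 1
  exact_mod_cast h1

theorem Place.factorial_val (P : Place p ζ v) : v (p.factorial : ℂ) = v (ζ - 1) ^ (p - 1) := by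
  obtain ⟨k, rfl⟩ : ∃ k, p = k + 1 := ⟨p - 1, (Nat.sub_add_cancel P.prime.pos).symm⟩
  rw [Nat.factorial_succ, Nat.cast_mul, map_mul, P.prime_val,
    P.natCast_eq_one fun hd => (P.prime.dvd_factorial.1 hd).not_gt k.lt_succ_self, mul_one]

theorem rot_eq_exp (hJ : J ≠ 0) : rot (J * p) ^ (2 * J) = Complex.exp (2 * Real.pi * Complex.I / p) := by
  rw [rot, ← Complex.exp_nat_mul]
  congr 1
  push_cast
  field_simp

/-- **The one sided problem has no solution.** -/
theorem no_orbits {φ : ℕ → ℂ} {J : ℕ} (hJ : 3 ≤ J) (hzero : ∀ b < J, φ b = 0) (hJne : φ J ≠ 0)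
    (q : ℕ) (H : ∀ n > q, ∀ m, m = 1 ∨ m = 2 * J + 1 →
      ∃ w, (∀ a < J, coeff a w = 0) ∧ Orbit φ n (rot n ^ m) w) : False := by
  classical
  obtain ⟨p, V, hp, hN, hint, hunit, hpV⟩ :=
    exists_place ((range (q + 1)).image φ) hJne (2 * J + 1 + q)
  set v := V.valuation
  set ζ := Complex.exp (2 * Real.pi * Complex.I / p) with hζ
  have P : Place p ζ v := ⟨hp, hpV, Complex.isPrimitiveRoot_exp p hp.ne_zero⟩
  have hSm : Small ζ v J (J * p) φ := by
    refine small_of P (by omega) (by omega) (by omega) q hzero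
      (fun b hb => hint _ (mem_image_of_mem _ (mem_range.2 (by omega)))) (fun n hn => ?_)
      _ le_rfl
    simpa using H n hn 1 (Or.inl rfl)
  have hn0 : J * p ≠ 0 := Nat.mul_ne_zero (by omega) hp.ne_zero
  have hcop : (2 * J + 1).Coprime (J * p) := by
    refine Nat.Coprime.mul_right ?_ ((Nat.Prime.coprime_iff_not_dvd hp).2
      (Nat.not_dvd_of_pos_of_lt (by omega) (by omega))).symm
    rw [add_comm, mul_comm 2 J, Nat.coprime_add_mul_left_left]
    exact Nat.coprime_one_left J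
  set x := rot (J * p) with hx
  have hζx : x ^ (2 * J) = ζ := by rw [hx, hζ, rot_eq_exp (by omega)]
  have hη : ∀ m : ℕ, (x ^ m) ^ (2 * J) = ζ ^ m := fun m => by
    rw [← pow_mul, mul_comm m, pow_mul, hζx]
  have hxn : ∀ m : ℕ, Odd m → (x ^ m) ^ (J * p) = -1 := fun m hm => by
    rw [← pow_mul, mul_comm m, pow_mul, hx, rot_pow hn0, hm.neg_one_pow]
  have hqn : q < J * p := lt_of_lt_of_le (by omega) (Nat.le_mul_of_pos_left p (by omega))
  -- the rotations have the valuations of a point off the places `x² = 1`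
  have hgood : ∀ m, m.Coprime (J * p) → ¬ p ∣ m → Good p J (J * p) 0 ζ (x ^ m) v := fun m hm hpm => by
    obtain ⟨h1, h2⟩ := rot_prop hn0 hm
    obtain ⟨s, G⟩ := good_of P (by omega) (by omega : J < p) le_rfl
      (lt_of_lt_of_le hp.one_lt (Nat.le_mul_of_pos_left p (by omega))) h1 h2
    obtain rfl : s = 0 := by
      rcases Nat.le_one_iff_eq_zero_or_eq_one.1 G.hs with h | h
      · exact h
      subst h
      exfalso
      have hsq := G.sq
      rw [pow_one] at hsq
      have hJq : ¬ p ∣ J := Nat.not_dvd_of_pos_of_lt (by omega) (by omega)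
      rcases P.dichotomy hJq (x := (x ^ m) ^ 2)
        (by rw [← pow_mul (x ^ m), show 2 * (p * J) = 2 * (J * p) by ring]; exact G.pow_eq)
        (by simpa using G.ne_one 1 one_pos (lt_of_lt_of_le hp.one_lt
          (Nat.le_mul_of_pos_left p (by omega)))) with h | ⟨h, -⟩
      · exact P.vdelta_lt.ne (hsq.symm.trans h)
      · refine G.ne_one p hp.pos (lt_mul_of_one_lt_left hp.pos (by omega)) ?_
        rwa [pow_mul]
    exact G
  -- residues
  set A : ℂ := -2 * J * φ J with hA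
  have hvA : v A = 1 := by
    rw [hA, map_mul, map_mul, Valuation.map_neg, hunit, mul_one]
    rw [show (2 : ℂ) = ((2 : ℕ) : ℂ) by norm_num, P.natCast_eq_one (Nat.not_dvd_of_pos_of_lt
      two_pos (by omega)), P.natCast_eq_one (Nat.not_dvd_of_pos_of_lt (by omega) (by omega)),
      one_mul]
  have hpM : ¬ p ∣ 2 * J + 1 := Nat.not_dvd_of_pos_of_lt (by omega) (by omega)
  obtain ⟨w₁, hw₁, O₁⟩ := H (J * p) hqn 1 (Or.inl rfl)
  obtain ⟨w₂, hw₂, O₂⟩ := H (J * p) hqn (2 * J + 1) (Or.inr rfl)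
  have G₁ := hgood 1 (Nat.coprime_one_left _) (by simpa using hp.one_lt.ne')
  have G₂ := hgood (2 * J + 1) hcop hpM
  have hn0' : 0 < J * p := Nat.pos_of_ne_zero hn0
  have R₁ := residue_dp G₁ (by omega) (hxn 1 odd_one) O₁ hw₁ hzero hunit.le
    (M := 1) (by simpa using hp.one_lt.ne') (hη 1)
  have R₂ := residue_dp G₂ (by omega) (hxn _ ⟨J, by ring⟩) O₂ hw₂ hzero hunit.le hpM (hη _)
  simp only [Nat.cast_one, one_mul] at R₁
  have B₁ := action_bound G₁ (by omega) hn0' hSm O₁ hw₁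
  have B₂ := action_bound G₂ (by omega) hn0' hSm O₂ hw₂
  rw [if_pos rfl, hxn 1 odd_one] at B₁
  rw [if_pos rfl, hxn _ ⟨J, by ring⟩] at B₂
  set x₁ := x ^ 1
  set x₂ := x ^ (2 * J + 1)
  set K₁ := Ch x₁ / Sh x₁ with hK₁
  set K₂ := Ch x₂ / Sh x₂ with hK₂
  set T₁ := (ζ - 1) * coeff J (dp x₁ w₁) with hT₁
  set T₂ := (ζ - 1) * coeff J (dp x₂ w₂) with hT₂
  have hbl : blocks J (J * p) = 2 * (p : ℤ) := by
    rw [blocks, Nat.mul_div_cancel_left _ (by omega)]
  -- the two leading poles differ by less than a full pole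
  have hdiff : Cong v (K₁ * T₁ ^ p) (K₂ * T₂ ^ p) := by
    have d₁ := P.pole_mul B₁ (P.pole_inv (G₁.vSh hn0')) (c := 2 * (p : ℤ) - 2) (by rw [hbl]; simp)
    have d₂ := P.pole_mul B₂ (P.pole_inv (G₂.vSh hn0')) (c := 2 * (p : ℤ) - 2) (by rw [hbl]; simp)
    have e := Place.pole_sub d₁ d₂
    have hS₁ := G₁.Sh_ne hn0'
    have hS₂ := G₂.Sh_ne hn0'
    have hfp : (p.factorial : ℂ) ≠ 0 := Nat.cast_ne_zero.2 p.factorial_ne_zero
    have e' : Pole ζ v (2 * (p : ℤ) - 2)
        ((K₁ * T₁ ^ p - K₂ * T₂ ^ p) / ((ζ - 1) ^ p * p.factorial)) := by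
      convert e using 1
      simp only [hK₁, hK₂, hT₁, hT₂, mul_pow]
      field_simp [P.delta_ne]
      ring
    have hd : v ((ζ - 1) ^ p * p.factorial) = v (ζ - 1) ^ (2 * (p : ℤ) - 1) := by
      rw [map_mul, map_pow, P.factorial_val, ← pow_add, ← zpow_natCast]
      congr 1
      have := hp.pos
      omega
    rw [P.pole_iff, map_div₀, hd, div_le_iff₀ (zpow_pos (zero_lt_iff.2 P.vdelta_ne) _),
      ← zpow_add₀ P.vdelta_ne] at e'
    refine e'.trans_lt ?_
    rw [show -(2 * (p : ℤ) - 2) + (2 * (p : ℤ) - 1) = 1 by ring, zpow_one]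
    exact P.vdelta_lt
  -- the coefficient `Ch / Sh` has the same unit residue at both rotations
  have hKC : ∀ y : ℂ, y ≠ 0 → Ch y / Sh y = (y ^ 2 + 1) / (y ^ 2 - 1) := fun y hy => by
    rw [Ch, Sh, div_div_div_cancel_right₀ two_ne_zero, ← mul_div_mul_left _ _ hy]
    congr 1 <;> field_simp
  have hsq : Cong v (x₂ ^ 2) (x₁ ^ 2) := by
    rw [Cong, show x₂ ^ 2 - x₁ ^ 2 = x₁ ^ 2 * (ζ ^ 2 - 1) by
      simp only [x₁, x₂, pow_one, pow_succ x (2 * J), hζx]; ring, map_mul,
      G₁.vpow hn0', one_mul, (P.sub_one_of_pow (Nat.not_dvd_of_pos_of_lt two_pos (by omega))).2]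
    exact P.vdelta_lt
  have hd₁ : v (x₁ ^ 2 - 1) = 1 := by simpa using G₁.sq
  have hd₂ : v (x₂ ^ 2 - 1) = 1 := by simpa using G₂.sq
  have hplus : v (x₁ ^ 2 + 1) = 1 := by
    have hv1 : v (x₁ ^ 2) = 1 := G₁.vpow hn0' 2
    refine le_antisymm ((v.map_add _ _).trans (max_le hv1.le (by simp))) (not_lt.1 fun hlt => ?_)
    have h1 : (-(x₁ ^ 2)) ^ (p * (2 * J)) = 1 := by
      rw [neg_pow, (Even.mul_left (even_two_mul J) p).neg_one_pow, one_mul, ← pow_mul,
        show 2 * (p * (2 * J)) = 2 * (J * p) * 2 by ring, pow_mul, G₁.pow_eq, one_pow]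
    have hq2 : ¬ p ∣ 2 * J := Nat.not_dvd_of_pos_of_lt (by omega) (by omega)
    rcases eq_or_ne (-(x₁ ^ 2)) 1 with he | he
    · refine G₁.ne_one 2 two_pos (by nlinarith) ?_
      rw [pow_mul, show x₁ ^ 2 = -1 by linear_combination -he, neg_one_sq]
    rcases P.dichotomy hq2 h1 he with h | ⟨h, -⟩
    · rw [show -(x₁ ^ 2) - 1 = -(x₁ ^ 2 + 1) by ring, Valuation.map_neg] at h
      exact hlt.ne h
    · refine G₁.ne_one (2 * p) (by omega) (by nlinarith) ?_
      rw [neg_pow, (hp.odd_of_ne_two (by omega)).neg_one_pow] at h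
      rw [show 2 * (2 * p) = 2 * (p * 2) by ring, pow_mul, pow_mul (x₁ ^ 2),
        show (x₁ ^ 2) ^ p = -1 by linear_combination -h, neg_one_sq]
  have hK : Cong v K₂ K₁ := by
    rw [hK₁, hK₂, hKC _ (G₁.xne hn0'), hKC _ (G₂.xne hn0'), Cong,
      div_sub_div _ _ (sub_ne_zero.2 fun h => G₂.ne_one 1 one_pos (by nlinarith) (by simpa using h))
        (sub_ne_zero.2 fun h => G₁.ne_one 1 one_pos (by nlinarith) (by simpa using h)),
      map_div₀, map_mul, hd₁, hd₂, mul_one,
      div_one, show (x₂ ^ 2 + 1) * (x₁ ^ 2 - 1) - (x₂ ^ 2 - 1) * (x₁ ^ 2 + 1)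
        = 2 * (x₁ ^ 2 - x₂ ^ 2) by ring, map_mul, G₁.vtwo, one_mul, Valuation.map_sub_swap]
    · exact hsq
  have hvK : v K₁ = 1 := by
    rw [hK₁, hKC _ (G₁.xne hn0'), map_div₀, hplus, hd₁, div_one]
  have hM := Place.natCast_le (v := v) (2 * J + 1)
  have hA1 : v (A ^ p) = 1 := by rw [map_pow, hvA, one_pow]
  -- compare the residues
  have s1 : Cong v (K₁ * T₁ ^ p * ((2 * J + 1 : ℕ) : ℂ) ^ p) (K₁ * A ^ p * ((2 * J + 1 : ℕ) : ℂ) ^ p) :=
    ((Cong.refl v K₁).mul (R₁.pow hvA.le p) hvK.le hA1.le).mul (Cong.refl v _)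
      (by rw [map_mul, hvK, hA1, one_mul]) (by rw [map_pow]; exact pow_le_one₀ zero_le hM)
  have s2 : Cong v (K₂ * T₂ ^ p * ((2 * J + 1 : ℕ) : ℂ) ^ p) (K₁ * A ^ p) := by
    rw [mul_assoc, ← mul_pow, mul_comm T₂]
    exact hK.mul (R₂.pow hvA.le p) hvK.le hA1.le
  have s3 : Cong v (K₁ * T₁ ^ p * ((2 * J + 1 : ℕ) : ℂ) ^ p)
      (K₂ * T₂ ^ p * ((2 * J + 1 : ℕ) : ℂ) ^ p) := by
    rw [Cong, ← sub_mul, map_mul, map_pow]
    exact (mul_le_of_le_one_right' (pow_le_one₀ zero_le hM)).trans_lt hdiff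
  have hfin := (s1.symm.trans s3).trans s2
  rw [Cong, show K₁ * A ^ p * ((2 * J + 1 : ℕ) : ℂ) ^ p - K₁ * A ^ p
      = K₁ * A ^ p * ((((2 * J + 1) ^ p - 1 : ℕ) : ℂ)) by
    rw [Nat.cast_sub (Nat.one_le_pow _ _ (by omega))]; push_cast; ring,
    map_mul, map_mul, hvK, hA1, one_mul, one_mul] at hfin
  refine hfin.ne (P.natCast_eq_one fun hd => ?_)
  have : Fact p.Prime := ⟨hp⟩
  rw [← Nat.modEq_iff_dvd' (Nat.one_le_pow _ _ (by omega)), ← ZMod.natCast_eq_natCast_iff] at hd
  push_cast at hd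
  rw [ZMod.pow_card] at hd
  have h2 : ((2 * J : ℕ) : ZMod p) = 0 := by push_cast; linear_combination -hd
  exact Nat.not_dvd_of_pos_of_lt (by omega) (by omega) ((ZMod.natCast_eq_zero_iff _ _).1 h2)

end

end Vale.Agent.P097.Rigid
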