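import Vale.Agent.P097.Rigid.Ser

/-!
# The one sided periodicity problem

`φ` is a power series in `z = exp (I ψ)`, `w` is half the displacement of a periodic orbit times
`I`, and `x = exp (I α)`. If `φ` starts at degree `J ≥ 3`, the orbits of type `(1, n)` and
`(2 J + 1, n)`, `n` large, cannot all have an action free of the starting point: at `n = J p`,
`p` a large prime, the `p`-th term of the sine series has a strictly largest pole.
-/

namespace Vale.Agent.P097.Rigid

open Finset PowerSeries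

noncomputable section

/-- Half the difference of `x` and its inverse. -/
def Sh (x : ℂ) : ℂ := (x - x⁻¹) / 2

/-- Half the sum of `x` and its inverse. -/
def Ch (x : ℂ) : ℂ := (x + x⁻¹) / 2

/-- The displacement difference across the next chord. -/
def dp (x : ℂ) (w : ℂ⟦X⟧) : ℂ⟦X⟧ := rescale (x ^ 2) w - w

/-- The displacement difference across the previous chord. -/
def dm (x : ℂ) (w : ℂ⟦X⟧) : ℂ⟦X⟧ := rescale (x⁻¹ ^ 2) w - w

/-- The displacement sum across the next chord. -/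
def tp (x : ℂ) (w : ℂ⟦X⟧) : ℂ⟦X⟧ := rescale (x ^ 2) w + w

/-- The displacement sum across the previous chord. -/
def tm (x : ℂ) (w : ℂ⟦X⟧) : ℂ⟦X⟧ := rescale (x⁻¹ ^ 2) w + w

/-- The sine of half the next chord, times `I`. -/
def snp (x : ℂ) (d : ℂ⟦X⟧) : ℂ⟦X⟧ := C (Sh x) * ser chC d + C (Ch x) * (d + ser shC' d)

/-- The sine of half the previous chord, times `I`. -/
def snm (x : ℂ) (d : ℂ⟦X⟧) : ℂ⟦X⟧ := C (Sh x) * ser chC d - C (Ch x) * (d + ser shC' d)

/-- The cosine of half the next chord. -/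
def csp (x : ℂ) (d : ℂ⟦X⟧) : ℂ⟦X⟧ := C (Ch x) * ser chC d + C (Sh x) * (d + ser shC' d)

/-- The cosine of half the previous chord. -/
def csm (x : ℂ) (d : ℂ⟦X⟧) : ℂ⟦X⟧ := C (Ch x) * ser chC d - C (Sh x) * (d + ser shC' d)

/-- What the mode `b` of the support function contributes to the equation. -/
def kerE (x : ℂ) (w : ℂ⟦X⟧) (b : ℕ) : ℂ⟦X⟧ :=
  C (b : ℂ) * (C (x ^ b) * (ser (expC b) (tp x w) * snp x (dp x w))
      + C (x⁻¹ ^ b) * (ser (expC b) (tm x w) * snm x (dm x w)))
    - (C (x ^ b) * (ser (expC b) (tp x w) * csp x (dp x w))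
      - C (x⁻¹ ^ b) * (ser (expC b) (tm x w) * csm x (dm x w)))

/-- What the mode `b` of the support function contributes to the action. -/
def kerL (x : ℂ) (w : ℂ⟦X⟧) (b : ℕ) : ℂ⟦X⟧ :=
  C (x ^ b) * (ser (expC b) (tp x w) * snp x (dp x w))

/-- The equation less its part linear in the displacement. -/
def eqn (φ : ℕ → ℂ) (x : ℂ) (w : ℂ⟦X⟧) (a : ℕ) : ℂ :=
  -Ch x * coeff a (ser chC (dp x w) - ser chC (dm x w))
    - Sh x * coeff a (ser shC' (dp x w) + ser shC' (dm x w))
    + ∑ b ∈ range (a + 1), φ b * coeff (a - b) (kerE x w b)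

/-- The action. -/
def action (φ : ℕ → ℂ) (x : ℂ) (w : ℂ⟦X⟧) (a : ℕ) : ℂ :=
  Sh x * coeff a (ser chC' (dp x w)) + Ch x * coeff a (dp x w + ser shC' (dp x w))
    + ∑ b ∈ range (a + 1), φ b * coeff (a - b) (kerL x w b)

/-- A formal periodic orbit with `n` steps whose action does not depend on the starting point. -/
structure Orbit (φ : ℕ → ℂ) (n : ℕ) (x : ℂ) (w : ℂ⟦X⟧) : Prop where
  zero : coeff 0 w = 0
  eq : ∀ a < n, Sh x * (x ^ a - x⁻¹ ^ a) ^ 2 * coeff a w = eqn φ x w a
  action_eq : action φ x w n = 0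

/-- The rotation `exp (π I / n)`. -/
def rot (n : ℕ) : ℂ := Complex.exp (Real.pi * Complex.I / n)

variable {Γ : Type*} [LinearOrderedCommGroupWithZero Γ] {p J n s : ℕ} {x ζ : ℂ}
  {v : Valuation ℂ Γ} {φ : ℕ → ℂ} {w : ℂ⟦X⟧}

/-- The valuations at the rotation `x`. -/
structure Good (p J n s : ℕ) (ζ x : ℂ) (v : Valuation ℂ Γ) : Prop extends Place p ζ v where
  two : 2 < p
  pow_eq : x ^ (2 * n) = 1
  ne_one : ∀ a, 0 < a → a < n → x ^ (2 * a) ≠ 1
  hn : n ≤ J * p
  hs : s ≤ 1
  sq : v (x ^ 2 - 1) = v (ζ - 1) ^ s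
  low : ∀ a, 0 < a → a < n → v (ζ - 1) ≤ v (x ^ (2 * a) - 1)
  high : ∀ a, v (x ^ (2 * a) - 1) ≤ v (ζ - 1) ^ s

namespace Good

variable (G : Good p J n s ζ x v) (hn0 : 0 < n)
include G hn0

theorem vx : v x = 1 := Place.root_eq_one (v := v) (by omega) G.pow_eq

theorem xne : x ≠ 0 := fun h => by simpa [h] using G.vx hn0

theorem vpow (b : ℕ) : v (x ^ b) = 1 := by rw [map_pow, G.vx hn0, one_pow]

theorem vpow' (b : ℕ) : v (x⁻¹ ^ b) = 1 := by rw [map_pow, map_inv₀, G.vx hn0, inv_one, one_pow]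

omit hn0 in
theorem vtwo : v (2 : ℂ) = 1 := by
  exact_mod_cast G.natCast_eq_one (n := 2) fun h => by
    have := Nat.le_of_dvd two_pos h
    linarith [G.two]

theorem vdiff (b : ℕ) : v (x ^ b - x⁻¹ ^ b) = v (x ^ (2 * b) - 1) := by
  rw [show x ^ b - x⁻¹ ^ b = x⁻¹ ^ b * (x ^ (2 * b) - 1) by
    rw [inv_pow, mul_sub, mul_one, two_mul, pow_add, ← mul_assoc,
      inv_mul_cancel₀ (pow_ne_zero _ (G.xne hn0)), one_mul],
    map_mul, G.vpow' hn0, one_mul]

theorem vSh : v (Sh x) = v (ζ - 1) ^ s := by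
  rw [Sh, map_div₀, G.vtwo, div_one, ← G.sq]
  simpa using G.vdiff hn0 1

theorem Sh_ne : Sh x ≠ 0 := fun h => by
  have := G.vSh hn0
  rw [h, map_zero] at this
  exact pow_ne_zero _ G.vdelta_ne this.symm

theorem pole_Sh : Pole ζ v (-(s : ℤ)) (Sh x) := by
  rw [G.pole_iff, G.vSh hn0, neg_neg, zpow_natCast]

theorem pole_diff (b : ℕ) : Pole ζ v (-(s : ℤ)) (x ^ b - x⁻¹ ^ b) := by
  rw [G.pole_iff, G.vdiff hn0, neg_neg, zpow_natCast]
  exact G.high b

theorem pole_Ch : Pole ζ v 0 (Ch x) := by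
  refine Place.pole_of_le_one ?_
  rw [Ch, map_div₀, G.vtwo, div_one]
  exact (v.map_add _ _).trans (max_le (G.vx hn0).le (by rw [map_inv₀, G.vx hn0, inv_one]))

omit hn0 in
theorem factorial_le {k : ℕ} (h : k < p) : v (k.factorial : ℂ)⁻¹ ≤ 1 := by
  rw [map_inv₀, G.natCast_eq_one fun hd => by
    have := G.prime.dvd_factorial.1 hd
    omega, inv_one]

omit hn0 in
theorem expC_le (b k : ℕ) (h : k < p) : v (expC b k) ≤ 1 := by
  rw [expC, div_eq_mul_inv, map_mul, map_pow]
  exact mul_le_one' (pow_le_one₀ zero_le (Place.natCast_le b)) (G.factorial_le h)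

omit hn0 in
theorem chC_le (k : ℕ) (h : k < p) : v (chC k) ≤ 1 := by
  rw [chC]
  split_ifs
  · exact G.factorial_le h
  · simp

omit hn0 in
theorem shC'_le (k : ℕ) (h : k < p) : v (shC' k) ≤ 1 := by
  rw [shC']
  split_ifs
  · exact G.factorial_le h
  · simp

end Good

/-- The bounds below `N`. -/
structure Est (ζ : ℂ) (v : Valuation ℂ Γ) (J N : ℕ) (x : ℂ) (w : ℂ⟦X⟧) : Prop where
  self : Gain ζ v J 0 N w
  next' : Gain ζ v J 1 N (dp x w)
  prev : Gain ζ v J 1 N (dm x w)
  second : Gain ζ v J 2 N (dp x w + dm x w)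
  supp : ∀ a < J, coeff a w = 0

namespace Est

variable {N : ℕ} (E : Est ζ v J N x w) (G : Good p J n s ζ x v) (hn0 : 0 < n) (hJ : 0 < J)
  (hN : N ≤ n)
include E G hn0 hN

omit G hn0 hN in
theorem supp_dp : ∀ a < J, coeff a (dp x w) = 0 := fun a ha => by simp [dp, E.supp a ha]

omit G hn0 hN in
theorem supp_dm : ∀ a < J, coeff a (dm x w) = 0 := fun a ha => by simp [dm, E.supp a ha]

omit G hn0 hN in
theorem supp_tp : ∀ a < J, coeff a (tp x w) = 0 := fun a ha => by simp [tp, E.supp a ha]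

omit G hn0 hN in
theorem supp_tm : ∀ a < J, coeff a (tm x w) = 0 := fun a ha => by simp [tm, E.supp a ha]

omit E hn0 in
theorem small {k : ℕ} (h : J * k < N) : k < p := by
  by_contra hk
  push Not at hk
  have := Nat.mul_le_mul_left J hk
  have := G.hn
  omega

omit hn0 hN in
theorem gain_tp : Gain ζ v J 0 N (tp x w) := by
  have := (E.next'.mono G.toPlace (show (0 : ℤ) ≤ 1 by norm_num)).add (E.self.add E.self)
  rwa [show dp x w + (w + w) = tp x w by simp [dp, tp]] at this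

omit hn0 hN in
theorem gain_tm : Gain ζ v J 0 N (tm x w) := by
  have := (E.prev.mono G.toPlace (show (0 : ℤ) ≤ 1 by norm_num)).add (E.self.add E.self)
  rwa [show dm x w + (w + w) = tm x w by simp [dm, tm]] at this

omit hn0 in
theorem gain_exp (b : ℕ) : Gain ζ v J 0 N (ser (expC b) (tp x w)) ∧
    Gain ζ v J 0 N (ser (expC b) (tm x w)) ∧
    Gain ζ v J 1 N (ser (expC b) (tp x w) - ser (expC b) (tm x w)) := by
  have hint : ∀ k, J * k < N → v (expC b k) ≤ 1 := fun k hk => G.expC_le b k (small G hN hk)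
  refine ⟨?_, ?_, ?_⟩
  · simpa using (E.gain_tp G).ser_of G.toPlace le_rfl E.supp_tp (r := 0) (by simp) hint
  · simpa using (E.gain_tm G).ser_of G.toPlace le_rfl E.supp_tm (r := 0) (by simp) hint
  · refine (E.gain_tp G).ser_sub G.toPlace (E.gain_tm G) ?_ E.supp_tp E.supp_tm hint
    have e : tp x w - tm x w = dp x w - dm x w := by simp [tp, tm, dp, dm]
    rw [e]
    exact E.next'.sub E.prev

omit hn0 in
theorem gain_ch : Gain ζ v J 0 N (ser chC (dp x w)) ∧ Gain ζ v J 0 N (ser chC (dm x w)) ∧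
    Gain ζ v J 1 N (ser chC (dp x w) - ser chC (dm x w)) := by
  have hint : ∀ k, J * k < N → v (chC k) ≤ 1 := fun k hk => G.chC_le k (small G hN hk)
  refine ⟨?_, ?_, ?_⟩
  · simpa using E.next'.ser_of G.toPlace zero_le_one E.supp_dp (r := 0) (by simp) hint
  · simpa using E.prev.ser_of G.toPlace zero_le_one E.supp_dm (r := 0) (by simp) hint
  · exact (E.next'.mono G.toPlace zero_le_one).ser_sub G.toPlace
      (E.prev.mono G.toPlace zero_le_one) (E.next'.sub E.prev) E.supp_dp E.supp_dm hint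

omit hn0 in
theorem gain_sh : Gain ζ v J 1 N (dp x w + ser shC' (dp x w)) ∧
    Gain ζ v J 1 N (dm x w + ser shC' (dm x w)) := by
  have hint : ∀ k, J * k < N → v (shC' k) ≤ 1 := fun k hk => G.shC'_le k (small G hN hk)
  have hr : ∀ k < 3, shC' k = 0 := fun k hk => by
    interval_cases k <;> simp [shC']
  exact ⟨E.next'.add ((E.next'.ser_of G.toPlace zero_le_one E.supp_dp hr hint).mono G.toPlace
      (by norm_num)),
    E.prev.add ((E.prev.ser_of G.toPlace zero_le_one E.supp_dm hr hint).mono G.toPlace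
      (by norm_num))⟩

theorem gain_snp : Gain ζ v J s N (snp x (dp x w)) := by
  have hs : (s : ℤ) ≤ 1 := by exact_mod_cast G.hs
  obtain ⟨c, -, -⟩ := E.gain_ch G hN
  obtain ⟨a, -⟩ := E.gain_sh G hN
  exact (c.smul G.toPlace (i := (s : ℤ)) (G.pole_Sh hn0) (by omega)).add
    (a.smul G.toPlace (i := 0) (by simpa using G.pole_Ch hn0) (by omega))

theorem gain_snm : Gain ζ v J s N (snm x (dm x w)) := by
  have hs : (s : ℤ) ≤ 1 := by exact_mod_cast G.hs
  obtain ⟨-, c, -⟩ := E.gain_ch G hN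
  obtain ⟨-, a⟩ := E.gain_sh G hN
  exact (c.smul G.toPlace (i := (s : ℤ)) (G.pole_Sh hn0) (by omega)).sub
    (a.smul G.toPlace (i := 0) (by simpa using G.pole_Ch hn0) (by omega))

theorem gain_kerE (b : ℕ) : Gain ζ v J s N (kerE x w b) := by
  have hs : (s : ℤ) ≤ 1 := by exact_mod_cast G.hs
  obtain ⟨e1, e2, e3⟩ := E.gain_exp G hN b
  obtain ⟨c1, c2, c3⟩ := E.gain_ch G hN
  obtain ⟨a1, a2⟩ := E.gain_sh G hN
  have hb : Pole ζ v (-0) (b : ℂ) := by simpa using Place.pole_of_le_one (Place.natCast_le b)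
  have hx : Pole ζ v (-0) (x ^ b) := by simpa using Place.pole_of_le_one (G.vpow hn0 b).le
  have hx' : Pole ζ v (-0) (x⁻¹ ^ b) := by simpa using Place.pole_of_le_one (G.vpow' hn0 b).le
  have hC : Pole ζ v (-0) (Ch x) := by simpa using G.pole_Ch hn0
  have hcp : Gain ζ v J 0 N (csp x (dp x w)) :=
    (c1.smul G.toPlace hC (by omega)).add (a1.smul G.toPlace (G.pole_Sh hn0) (by omega))
  have hcd : Gain ζ v J s N (csp x (dp x w) - csm x (dm x w)) := by
    have h1 := (c3.smul G.toPlace hC (k := (s : ℤ)) (by omega)).add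
      ((a1.add a2).smul G.toPlace (G.pole_Sh hn0) (k := (s : ℤ)) (by omega))
    convert h1 using 1
    simp only [csp, csm]; ring
  refine Gain.sub ?_ ?_
  · refine Gain.smul G.toPlace hb (Gain.add ?_ ?_) (zero_add (s : ℤ)).ge
    · exact (e1.mul G.toPlace (E.gain_snp G hn0 hN)).smul G.toPlace hx (by omega)
    · exact (e2.mul G.toPlace (E.gain_snm G hn0 hN)).smul G.toPlace hx' (by omega)
  · have e : C (x ^ b) * (ser (expC b) (tp x w) * csp x (dp x w))
        - C (x⁻¹ ^ b) * (ser (expC b) (tm x w) * csm x (dm x w))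
        = C (x ^ b - x⁻¹ ^ b) * (ser (expC b) (tp x w) * csp x (dp x w))
          + C (x⁻¹ ^ b) * ((ser (expC b) (tp x w) - ser (expC b) (tm x w)) * csp x (dp x w)
            + ser (expC b) (tm x w) * (csp x (dp x w) - csm x (dm x w))) := by
      rw [map_sub]; ring
    rw [e]
    exact ((e1.mul G.toPlace hcp).smul G.toPlace (G.pole_diff hn0 b) (by omega)).add
      ((((e3.mul G.toPlace hcp).mono G.toPlace (show (s : ℤ) ≤ 1 + 0 by omega)).add
        ((e2.mul G.toPlace hcd).mono G.toPlace (zero_add (s : ℤ)).ge)).smul G.toPlace hx'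
          (zero_add (s : ℤ)).ge)

end Est

/-- The coefficients of the support function gain two. -/
def Small (ζ : ℂ) (v : Valuation ℂ Γ) (J n : ℕ) (φ : ℕ → ℂ) : Prop :=
  (∀ b < J, φ b = 0) ∧ ∀ b < n, Pole ζ v (blocks J b - 2) (φ b)

theorem Est.pole_sum_phi (G : Good p J n s ζ x v) (hJ : 0 < J) {N a : ℕ} (hφ : Small ζ v J n φ)
    {K : ℕ → ℂ⟦X⟧} (hK : ∀ b, Gain ζ v J s N (K b)) (ha : a < n ∨ a = n) (haN : a ≤ N) :
    Pole ζ v (blocks J a - 2 - s) (∑ b ∈ range a, φ b * coeff (a - b) (K b)) := by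
  refine Place.pole_sum _ fun b hb => ?_
  rw [mem_range] at hb
  rcases lt_or_ge b J with hbJ | hbJ
  · rw [hφ.1 b hbJ, zero_mul]; exact Place.pole_zero _
  refine G.pole_mul (hφ.2 b (by omega)) (hK b (a - b) (by omega)) ?_
  have := blocks_add_le J b (a - b)
  rw [Nat.add_sub_cancel' hb.le] at this
  omega

/-- The bounds hold up to `n`. -/
theorem est (G : Good p J n s ζ x v) (hJ : 0 < J) (hn0 : 0 < n) (hφ : Small ζ v J n φ)
    (O : Orbit φ n x w) (hsupp : ∀ a < J, coeff a w = 0) :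
    ∀ N ≤ n, Est ζ v J N x w := by
  intro N
  induction N with
  | zero =>
    exact fun _ => ⟨fun c hc => absurd hc c.not_lt_zero, fun c hc => absurd hc c.not_lt_zero,
      fun c hc => absurd hc c.not_lt_zero, fun c hc => absurd hc c.not_lt_zero, hsupp⟩
  | succ N ih =>
    intro hN
    have E := ih (by omega)
    have hNn : N < n := by omega
    have hs : (s : ℤ) ≤ 1 := by exact_mod_cast G.hs
    -- the bounds for the coefficient `N`
    have key : Pole ζ v (blocks J N) (coeff N w) ∧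
        Pole ζ v (blocks J N - 1) (coeff N (dp x w)) ∧
        Pole ζ v (blocks J N - 1) (coeff N (dm x w)) ∧
        Pole ζ v (blocks J N - 2) (coeff N (dp x w + dm x w)) := by
      rcases lt_or_ge N J with hNJ | hNJ
      · have h0 := hsupp N hNJ
        simp [dp, dm, h0, Pole]
      have hN0 : 0 < N := by omega
      have hlt : ∀ k, J * k ≤ N → k < p := fun k hk => by
        by_contra hp
        push Not at hp
        have := Nat.mul_le_mul_left J hp
        have := G.hn
        omega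
      have hch : Gain ζ v J (1 + 2) (N + 1) (ser chC (dp x w) - ser chC (dm x w)) :=
        (E.next'.mono G.toPlace zero_le_one).ser_sub_even G.toPlace
          (E.prev.mono G.toPlace zero_le_one) (E.next'.sub E.prev) E.second E.supp_dp E.supp_dm hJ
          (fun k hk => if_neg hk) fun k hk => G.chC_le k (hlt k hk)
      have hr : ∀ k < 3, shC' k = 0 := fun k hk => by interval_cases k <;> simp [shC']
      have hsh : Gain ζ v J 3 (N + 1) (ser shC' (dp x w) + ser shC' (dm x w)) := by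
        have h1 := E.next'.ser_succ G.toPlace zero_le_one E.supp_dp hJ (by norm_num) hr
          fun k hk => G.shC'_le k (hlt k hk)
        have h2 := E.prev.ser_succ G.toPlace zero_le_one E.supp_dm hJ (by norm_num) hr
          fun k hk => G.shC'_le k (hlt k hk)
        simpa using h1.add h2
      have hlast : Pole ζ v (blocks J N - 2 - s) (φ N * coeff (N - N) (kerE x w N)) := by
        refine G.pole_mul (hφ.2 N hNn) (E.gain_kerE G hn0 (by omega) N (N - N) (by omega)) ?_
        simp [blocks]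
      have hE : Pole ζ v (blocks J N - 2 - s) (eqn φ x w N) := by
        refine Place.pole_add (Place.pole_sub ?_ ?_) ?_
        · exact G.pole_mul (Place.pole_neg (G.pole_Ch hn0)) (hch N (by omega)) (by omega)
        · exact G.pole_mul (G.pole_Sh hn0) (hsh N (by omega)) (by omega)
        · rw [sum_range_succ]
          exact Place.pole_add (Est.pole_sum_phi G hJ hφ (E.gain_kerE G hn0 (by omega))
            (Or.inl hNn) le_rfl) hlast
      set e := x ^ N - x⁻¹ ^ N with he
      have hve : v e = v (x ^ (2 * N) - 1) := G.vdiff hn0 N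
      have he0 : e ≠ 0 := fun h => by
        rw [h, map_zero] at hve
        exact G.ne_one N hN0 hNn (sub_eq_zero.1 (v.zero_iff.1 hve.symm))
      have hpe : Pole ζ v 1 e⁻¹ := by
        rw [G.pole_iff, map_inv₀, zpow_neg, zpow_one, inv_le_inv₀ (zero_lt_iff.2 ?_)
          (zero_lt_iff.2 G.vdelta_ne), hve]
        · exact G.low N hN0 hNn
        · simpa using he0
      have hpS : Pole ζ v s (Sh x)⁻¹ := G.pole_inv (G.vSh hn0)
      have hw : coeff N w = eqn φ x w N * ((Sh x)⁻¹ * (e⁻¹ * e⁻¹)) := by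
        rw [← O.eq N hNn, ← he]
        field_simp [G.Sh_ne hn0]
      have h2 : Pole ζ v (s + 1) ((Sh x)⁻¹ * e⁻¹) := G.pole_mul hpS hpe le_rfl
      have hx : ∀ y : ℂ, v y = 1 → Pole ζ v 0 y := fun y hy => Place.pole_of_le_one hy.le
      have hxp : (x ^ 2) ^ N - 1 = x ^ N * e := by
        rw [he, mul_sub, inv_pow, mul_inv_cancel₀ (pow_ne_zero _ (G.xne hn0)), ← pow_mul,
          ← pow_add, two_mul]
      have hxm : (x⁻¹ ^ 2) ^ N - 1 = -(x⁻¹ ^ N * e) := by
        rw [he, mul_sub, inv_pow, inv_pow, inv_pow, inv_mul_cancel₀ (pow_ne_zero _ (G.xne hn0)),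
          ← mul_inv, ← pow_mul, ← pow_add, ← two_mul]
        ring
      have hp1 : coeff N (dp x w) = eqn φ x w N * (x ^ N * ((Sh x)⁻¹ * e⁻¹)) := by
        rw [dp, map_sub, coeff_rescale, ← sub_one_mul, hxp, hw]
        field_simp
      have hm1 : coeff N (dm x w) = -(eqn φ x w N * (x⁻¹ ^ N * ((Sh x)⁻¹ * e⁻¹))) := by
        rw [dm, map_sub, coeff_rescale, ← sub_one_mul, hxm, hw]
        field_simp
      refine ⟨hw ▸ G.pole_mul hE (G.pole_mul hpS (G.pole_mul hpe hpe le_rfl) le_rfl) (by omega),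
        hp1 ▸ G.pole_mul hE (G.pole_mul (hx _ (G.vpow hn0 N)) h2 le_rfl) (by omega),
        hm1 ▸ Place.pole_neg
          (G.pole_mul hE (G.pole_mul (hx _ (G.vpow' hn0 N)) h2 le_rfl) (by omega)), ?_⟩
      rw [map_add, hp1, hm1, show eqn φ x w N * (x ^ N * ((Sh x)⁻¹ * e⁻¹)) +
        -(eqn φ x w N * (x⁻¹ ^ N * ((Sh x)⁻¹ * e⁻¹))) = eqn φ x w N * (Sh x)⁻¹ * (e * e⁻¹) by
          rw [he]; ring, mul_inv_cancel₀ he0, mul_one]
      exact G.pole_mul hE hpS (by omega)
    obtain ⟨k1, k2, k3, k4⟩ := key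
    refine ⟨?_, ?_, ?_, ?_, hsupp⟩ <;> intro c hc <;>
      rcases Nat.lt_succ_iff_lt_or_eq.1 hc with h | rfl
    exacts [E.self c h, by simpa using k1, E.next' c h, k2, E.prev c h, k3, E.second c h, k4]

end

end Vale.Agent.P097.Rigid
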