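import Vale.Agent.P097.Calib

/-!
# Periodic configurations near the disc

A configuration lists the normal angles of the chords. A critical configuration of type `(m, n)`
near the regular one lies on one invariant curve, so it is a periodic orbit and its action does not
depend on its first chord; almost critical configurations are close to critical ones.
-/

namespace Vale.Agent.P097.Rigid

open Finset Filter Topology Asymptotics Real

noncomputable section

/-- The first variation of the action at the middle one of three chords. -/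
def el (h : ℝ → ℝ) (a b c : ℝ) : ℝ := lineP h b ((a + b) / 2) - lineP h b ((b + c) / 2)

/-- The first variation at the chord `Y j`, `0 < j`. -/
def elAt (h : ℝ → ℝ) (Y : ℕ → ℝ) (j : ℕ) : ℝ := el h (Y (j - 1)) (Y j) (Y (j + 1))

/-- The first variation at the first chord of a configuration of type `(m, n)`. -/
def elZero (h : ℝ → ℝ) (n m : ℕ) (Y : ℕ → ℝ) : ℝ := el h (Y (n - 1) - 2 * π * m) (Y 0) (Y 1)

/-- The action of a configuration. -/
def actSum (h : ℝ → ℝ) (n : ℕ) (Y : ℕ → ℝ) : ℝ := ∑ j ∈ range n, act h (Y j) (Y (j + 1))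

/-- On one invariant curve: a critical configuration is periodic and maximises the action. -/
theorem critical_on_curve {h : ℝ → ℝ} (hh : IsTable h) {η : ℝ} (hη : CurvesBelow h η) {n m : ℕ}
    (hn : 0 < n) {X : ℕ → ℝ} (hX : X n = X 0 + 2 * π * m)
    (hgap : ∀ j < n, 0 < X (j + 1) - X j ∧ X (j + 1) - X j < 2 * π)
    (h0 : X 1 - X 0 < 2 * η) (hcrit : ∀ j, 0 < j → j < n → elAt h X j = 0) :
    elZero h n m X = 0 ∧ ∀ X' : ℕ → ℝ, X' n = X' 0 + 2 * π * m →
      (∀ j < n, 0 < X' (j + 1) - X' j ∧ X' (j + 1) - X' j < 2 * π) →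
      actSum h n X' ≤ actSum h n X := by
  set mid : ℕ → ℝ := fun j => (X j + X (j + 1)) / 2
  set hd : ℕ → ℝ := fun j => (X (j + 1) - X j) / 2
  obtain ⟨d, hd', hd0⟩ := hη (mid 0) (hd 0) (by have := (hgap 0 hn).1; simp only [hd]; linarith)
    (by simp only [hd]; linarith)
  have hin : ∀ j < n, mid j ∈ Set.Icc (X (j + 1) - π) (X (j + 1)) ∧
      mid j ∈ Set.Icc (X j) (X j + π) := fun j hj => by
    obtain ⟨g1, g2⟩ := hgap j hj
    refine ⟨⟨?_, ?_⟩, ?_, ?_⟩ <;> simp only [mid] <;> linarith
  have hnext : ∀ j < n, d (mid j) = hd j → ∀ y, Step h (mid j, d (mid j)) (y, d y) →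
      y - d y = X (j + 1) ∧ lineP h (X (j + 1)) (mid j) = lineP h (X (j + 1)) y ∧
        y ∈ Set.Icc (X (j + 1)) (X (j + 1) + π) := fun j _ hdj y hy => by
    obtain ⟨e1, e2⟩ := lineP_of_step hy
    have e : mid j + hd j = X (j + 1) := by simp only [mid, hd]; ring
    simp only [hdj, e] at e1 e2
    have := hd'.mem y
    exact ⟨e1, e2, by constructor <;> linarith [this.1, this.2]⟩
  have hon : ∀ j < n, d (mid j) = hd j := by
    intro j
    induction j with
    | zero => exact fun _ => hd0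
    | succ j ih =>
      intro hj
      obtain ⟨y, hy⟩ := hd'.forward (mid j)
      obtain ⟨e1, e2, e3⟩ := hnext j (by omega) (ih (by omega)) y hy
      have hc := hcrit (j + 1) j.succ_pos hj
      simp only [elAt, el, Nat.add_sub_cancel, sub_eq_zero] at hc
      have hy' : y = mid (j + 1) :=
        (lineP_strictAntiOn hh _).injOn e3 (hin (j + 1) hj).2 (e2.symm.trans hc)
      subst hy'
      simp only [mid, hd] at e1 ⊢
      linarith
  obtain ⟨ham, -, hbm, -, -⟩ := curve_lines hh hd'
  constructor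
  · obtain ⟨y, hy⟩ := hd'.forward (mid (n - 1))
    obtain ⟨e1, e2, e3⟩ := hnext (n - 1) (by omega) (hon _ (by omega)) y hy
    have hper : Function.Periodic d (2 * π * m) := by
      rw [mul_comm]; exact hd'.periodic.nat_mul m
    have hy' : y = mid 0 + 2 * π * m := by
      refine hbm.injective ?_
      show y - d y = mid 0 + 2 * π * m - d (mid 0 + 2 * π * m)
      rw [e1, hper, hd0, show n - 1 + 1 = n by omega, hX]
      simp only [mid, hd]; ring
    subst hy'
    rw [show n - 1 + 1 = n by omega, hX] at e2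
    have hl : ∀ φ ψ, lineP h (φ + 2 * π * m) (ψ + 2 * π * m) = lineP h φ ψ := by
      intro φ ψ
      clear e1 e2 e3 hy hX hper
      induction m with
      | zero => simp
      | succ k ih =>
        push_cast
        rw [show φ + 2 * π * (k + 1) = φ + 2 * π * k + 2 * π by ring,
          show ψ + 2 * π * (k + 1) = ψ + 2 * π * k + 2 * π by ring, lineP_add hh, ih]
    rw [elZero, el, sub_eq_zero]
    rw [← hl (X 0) ((X (n - 1) - 2 * π * m + X 0) / 2), ← hl (X 0) ((X 0 + X 1) / 2)]
    convert e2 using 2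
    simp only [mid, show n - 1 + 1 = n by omega, hX]
    ring
  · obtain ⟨u, c, I, hI, hle, heq⟩ := calibrated hh hd'
    have hIm : ∀ (k : ℕ) φ, u (φ + 2 * π * k) = u φ + k * I := fun k => by
      induction k with
      | zero => simp
      | succ k ih =>
        intro φ
        push_cast
        rw [show φ + 2 * π * (k + 1) = φ + 2 * π * k + 2 * π by ring, hI, ih]
        ring
    have htele : ∀ Z : ℕ → ℝ, Z n = Z 0 + 2 * π * m →
        ∑ j ∈ range n, (u (Z (j + 1)) - u (Z j) + c) = m * I + n * c := fun Z hZ => by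
      rw [sum_add_distrib, sum_range_sub (fun j => u (Z j)), hZ, hIm, sum_const, card_range,
        nsmul_eq_mul]
      ring
    intro X' hX' hgap'
    calc actSum h n X' ≤ ∑ j ∈ range n, (u (X' (j + 1)) - u (X' j) + c) :=
          sum_le_sum fun j hj => hle _ _ (by linarith [(hgap' j (mem_range.1 hj)).1])
            (by linarith [(hgap' j (mem_range.1 hj)).2])
      _ = m * I + n * c := htele X' hX'
      _ = ∑ j ∈ range n, (u (X (j + 1)) - u (X j) + c) := (htele X hX).symm
      _ = actSum h n X := sum_congr rfl fun j hj => by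
          have := heq (mid j)
          rw [hon j (mem_range.1 hj), show mid j - hd j = X j by simp only [mid, hd]; ring,
            show mid j + hd j = X (j + 1) by simp only [mid, hd]; ring] at this
          exact this.symm

variable (h : ℝ → ℝ → ℝ) (n m : ℕ)

/-- A configuration from its first `n + 1` chords. -/
def ext (V : Fin (n + 1) → ℝ) : ℕ → ℝ := fun j => if hj : j < n + 1 then V ⟨j, hj⟩ else 0

/-- The equations for the critical configurations. -/
def sys (p : ℝ × (Fin (n + 1) → ℝ)) : ℝ × (Fin (n + 1) → ℝ) :=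
  (p.1, fun i => if (i : ℕ) = 0 then p.2 i
    else if (i : ℕ) = n then p.2 i - ext n p.2 0 else elAt (h p.1) (ext n p.2) i)

/-- The regular configuration. -/
def star (τ : ℝ) (j : ℕ) : ℝ := τ + 2 * (π * m / n) * j

variable {h n m}

theorem contDiff_el (hs : ContDiff ℝ (⊤ : ℕ∞) fun q : ℝ × ℝ => h q.1 q.2) :
    ContDiff ℝ 1 fun q : ℝ × ℝ × ℝ × ℝ => el (h q.1) q.2.1 q.2.2.1 q.2.2.2 := by
  have hd : ∀ t ψ, deriv (h t) ψ = fderiv ℝ (fun q : ℝ × ℝ => h q.1 q.2) (t, ψ) (0, 1) := fun t ψ => by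
    have h1 : HasDerivAt (fun s : ℝ => (t, s)) ((0 : ℝ), (1 : ℝ)) ψ :=
      (hasDerivAt_const ψ t).prodMk (hasDerivAt_id ψ)
    exact (((hs.differentiable (by simp)) (t, ψ)).hasFDerivAt.comp_hasDerivAt ψ h1).deriv
  have h0 : ContDiff ℝ 1 fun q : ℝ × ℝ => h q.1 q.2 := hs.of_le (by exact_mod_cast le_top)
  have h1 : ContDiff ℝ 1 fun q : ℝ × ℝ => deriv (h q.1) q.2 := by
    rw [show (fun q : ℝ × ℝ => deriv (h q.1) q.2)
      = fun q : ℝ × ℝ => fderiv ℝ (fun q : ℝ × ℝ => h q.1 q.2) q (0, 1) from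
        funext fun q => hd q.1 q.2]
    exact ((hs.of_le (show (2 : WithTop ℕ∞) ≤ ((⊤ : ℕ∞) : WithTop ℕ∞) from
      WithTop.coe_le_coe.2 le_top)).fderiv_right
      (m := 1) (by norm_num)).clm_apply contDiff_const
  have hl : ∀ {φ ψ : ℝ × ℝ × ℝ × ℝ → ℝ}, ContDiff ℝ 1 φ → ContDiff ℝ 1 ψ →
      ContDiff ℝ 1 fun q => lineP (h q.1) (φ q) (ψ q) := fun hφ hψ => by
    simp only [lineP]
    exact ((h0.comp (contDiff_fst.prodMk hψ)).mul (hφ.sub hψ).cos).add
      ((h1.comp (contDiff_fst.prodMk hψ)).mul (hφ.sub hψ).sin)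
  simp only [el]
  exact (hl (by fun_prop) (by fun_prop)).sub (hl (by fun_prop) (by fun_prop))

theorem contDiff_ext (j : ℕ) : ContDiff ℝ 1 fun V : Fin (n + 1) → ℝ => ext n V j := by
  simp only [ext]
  split_ifs with hj
  · exact contDiff_apply ℝ ℝ (⟨j, hj⟩ : Fin (n + 1))
  · exact contDiff_const

theorem contDiff_elAt (hs : ContDiff ℝ (⊤ : ℕ∞) fun q : ℝ × ℝ => h q.1 q.2) (j : ℕ) :
    ContDiff ℝ 1 fun p : ℝ × (Fin (n + 1) → ℝ) => elAt (h p.1) (ext n p.2) j := by
  exact (contDiff_el hs).comp (contDiff_fst.prodMk (((contDiff_ext _).comp contDiff_snd).prodMk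
    (((contDiff_ext _).comp contDiff_snd).prodMk ((contDiff_ext _).comp contDiff_snd))))

theorem contDiff_elZero (hs : ContDiff ℝ (⊤ : ℕ∞) fun q : ℝ × ℝ => h q.1 q.2) :
    ContDiff ℝ 1 fun p : ℝ × (Fin (n + 1) → ℝ) => elZero (h p.1) n m (ext n p.2) := by
  have hc : ∀ j, ContDiff ℝ 1 fun p : ℝ × (Fin (n + 1) → ℝ) => ext n p.2 j := fun j =>
    (contDiff_ext j).comp contDiff_snd
  exact (contDiff_el hs).comp
    (contDiff_fst.prodMk (((hc (n - 1)).sub contDiff_const).prodMk ((hc 0).prodMk (hc 1))))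

theorem el_disc {h : ℝ → ℝ} (h0 : ∀ ψ, h ψ = 1) (a b c : ℝ) :
    el h a b c = cos ((b - a) / 2) - cos ((c - b) / 2) := by
  have hd : ∀ ψ, deriv h ψ = 0 := fun ψ => by simp [funext h0]
  simp only [el, lineP, h0, hd, one_mul, zero_mul, add_zero]
  rw [show b - (a + b) / 2 = (b - a) / 2 by ring, show b - (b + c) / 2 = -((c - b) / 2) by ring,
    cos_neg]

/-- The variation along a line through the regular configuration, at the disc. -/
theorem el_disc_deriv {h : ℝ → ℝ} (h0 : ∀ ψ, h ψ = 1) {α : ℝ} {a b c δa δb δc : ℝ}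
    (hab : b - a = 2 * α) (hbc : c - b = 2 * α) :
    HasDerivAt (fun s : ℝ => el h (a + s * δa) (b + s * δb) (c + s * δc))
      (sin α / 2 * ((δc - δb) - (δb - δa))) 0 := by
  simp only [el_disc h0]
  have e : ∀ u v δu δv : ℝ, v - u = 2 * α →
      HasDerivAt (fun s : ℝ => cos ((v + s * δv - (u + s * δu)) / 2))
        (-sin α * ((δv - δu) / 2)) 0 := fun u v δu δv huv => by
    have h1 : HasDerivAt (fun s : ℝ => (v + s * δv - (u + s * δu)) / 2) ((δv - δu) / 2) 0 := by
      simpa using ((((hasDerivAt_id (0 : ℝ)).mul_const δv).const_add v).sub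
        (((hasDerivAt_id (0 : ℝ)).mul_const δu).const_add u)).div_const 2
    refine h1.cos.congr_deriv ?_
    simp [huv]
  exact ((e a b δa δb hab).sub (e b c δb δc hbc)).congr_deriv (by ring)

/-- The derivative is read off along a line. -/
theorem fderiv_eq_of_line {E F : Type*} [NormedAddCommGroup E] [NormedSpace ℝ E]
    [NormedAddCommGroup F] [NormedSpace ℝ F] {f : E → F} {p v : E} {d : F}
    (hf : DifferentiableAt ℝ f p) (h : HasDerivAt (fun s : ℝ => f (p + s • v)) d 0) :
    fderiv ℝ f p v = d := by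
  have h1 : HasDerivAt (fun s : ℝ => p + s • v) v 0 := by
    simpa using ((hasDerivAt_id (0 : ℝ)).smul_const v).const_add p
  refine (HasFDerivAt.comp_hasDerivAt (0 : ℝ) ?_ h1).unique h
  simpa using hf.hasFDerivAt

theorem el_line (h0 : ∀ ψ, h 0 ψ = 1) (V : Fin (n + 1) → ℝ) (τ : ℝ) {j : ℕ} (hj : 0 < j)
    (hjn : j < n) :
    HasDerivAt (fun s : ℝ => elAt (h 0) (ext n ((fun i : Fin (n + 1) => star n m τ i) + s • V)) j)
      (sin (π * m / n) / 2 * ((ext n V (j + 1) - ext n V j) - (ext n V j - ext n V (j - 1)))) 0 := by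
  obtain ⟨i, rfl⟩ : ∃ i, j = i + 1 := ⟨j - 1, by omega⟩
  simp only [elAt, Nat.add_sub_cancel, ext, dif_pos (show i < n + 1 by omega),
    dif_pos (show i + 1 < n + 1 by omega), dif_pos (show i + 1 + 1 < n + 1 by omega),
    Pi.add_apply, Pi.smul_apply, smul_eq_mul, star]
  exact el_disc_deriv h0 (by push_cast; ring) (by push_cast; ring)

/-- What is needed to move an almost critical configuration to a critical one. -/
theorem exists_critical (hs : ContDiff ℝ (⊤ : ℕ∞) fun q : ℝ × ℝ => h q.1 q.2)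
    (h0 : ∀ ψ, h 0 ψ = 1) (hm : 0 < m) (hmn : m < n) (τ : ℝ) {k : ℕ}
    {Y : ℝ → Fin (n + 1) → ℝ} (hY : Tendsto Y (𝓝 0) (𝓝 fun i => star n m τ i))
    (hend : ∀ t, ext n (Y t) n = ext n (Y t) 0 + 2 * π * m)
    (hres : ∀ j, 0 < j → j < n → (fun t => elAt (h t) (ext n (Y t)) j) =O[𝓝 0] fun t => t ^ k) :
    ∃ X : ℝ → Fin (n + 1) → ℝ, Tendsto X (𝓝 0) (𝓝 fun i => star n m τ i) ∧
      ((fun t => Y t - X t) =O[𝓝 0] fun t => t ^ k) ∧
      ∀ᶠ t in 𝓝 0, ext n (X t) n = ext n (X t) 0 + 2 * π * m ∧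
        ∀ j, 0 < j → j < n → elAt (h t) (ext n (X t)) j = 0 := by
  set p : ℝ × (Fin (n + 1) → ℝ) := (0, fun i => star n m τ i) with hp
  have hcd : ContDiff ℝ 1 (sys h n) := by
    refine contDiff_fst.prodMk (contDiff_pi.2 fun i => ?_)
    split_ifs
    · exact (contDiff_apply ℝ ℝ i).comp contDiff_snd
    · exact ((contDiff_apply ℝ ℝ i).comp contDiff_snd).sub ((contDiff_ext 0).comp contDiff_snd)
    · exact contDiff_elAt hs i
  set L := fderiv ℝ (sys h n) p with hLdef
  have hstrict : HasStrictFDerivAt (sys h n) L p := hcd.contDiffAt.hasStrictFDerivAt one_ne_zero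
  have hsin : 0 < sin (π * m / n) := by
    have : (0 : ℝ) < n := by exact_mod_cast hm.trans hmn
    refine sin_pos_of_pos_of_lt_pi (by positivity) ?_
    rw [div_lt_iff₀ this]
    exact mul_lt_mul_of_pos_left (by exact_mod_cast hmn) pi_pos
  have hinj : Function.Injective L.toLinearMap := by
    rw [← LinearMap.ker_eq_bot, LinearMap.ker_eq_bot']
    rintro ⟨s, V⟩ hv
    have hs0 : s = 0 := by
      have e : HasFDerivAt (fun q => (sys h n q).1)
          ((ContinuousLinearMap.fst ℝ ℝ (Fin (n + 1) → ℝ)).comp L) p :=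
        ((ContinuousLinearMap.fst ℝ ℝ (Fin (n + 1) → ℝ)).hasFDerivAt (x := sys h n p)).comp p
          hstrict.hasFDerivAt
      have e2 : HasFDerivAt (fun q => (sys h n q).1) (ContinuousLinearMap.fst ℝ ℝ (Fin (n + 1) → ℝ)) p :=
        hasFDerivAt_fst
      have := congrArg (fun T : ℝ × (Fin (n + 1) → ℝ) →L[ℝ] ℝ => T (s, V)) (e.unique e2)
      simpa [show L (s, V) = 0 from hv] using this.symm
    subst hs0
    set i0 : Fin (n + 1) := ⟨0, n.succ_pos⟩
    set D : Fin (n + 1) → ℝ := fun i => if (i : ℕ) = 0 then V i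
      else if (i : ℕ) = n then V i - ext n V 0
      else sin (π * m / n) / 2 *
        ((ext n V (i + 1) - ext n V i) - (ext n V i - ext n V (i - 1))) with hD
    have hline : HasDerivAt (fun s : ℝ => sys h n (p + s • ((0 : ℝ), V))) ((0 : ℝ), D) 0 := by
      simp only [sys, hp, Prod.smul_mk, smul_zero, Prod.mk_add_mk, add_zero]
      refine (hasDerivAt_const _ _).prodMk (hasDerivAt_pi.2 fun i => ?_)
      simp only [hD]
      rcases eq_or_ne (i : ℕ) 0 with hi0 | hi0
      · simpa [hi0] using ((hasDerivAt_id (0 : ℝ)).mul_const (V i)).const_add (star n m τ i)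
      rcases eq_or_ne (i : ℕ) n with hin | hin
      · simp only [if_neg hi0, if_pos hin, ext, dif_pos n.succ_pos, Pi.add_apply, Pi.smul_apply,
          smul_eq_mul]
        exact ((((hasDerivAt_id (0 : ℝ)).mul_const (V i)).const_add _).sub
          (((hasDerivAt_id (0 : ℝ)).mul_const (V i0)).const_add _)).congr_deriv (by simp [i0])
      · simp only [if_neg hi0, if_neg hin]
        exact el_line h0 V τ (Nat.pos_of_ne_zero hi0) (by have := i.isLt; omega)
    have hD0 : D = 0 := by
      have := fderiv_eq_of_line hstrict.hasFDerivAt.differentiableAt hline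
      rw [← hLdef, show L ((0 : ℝ), V) = 0 from hv] at this
      exact (congrArg Prod.snd this).symm
    have hV0 : ext n V 0 = 0 := by
      simpa [hD, ext, i0] using congrFun hD0 i0
    have hVn : ext n V n = 0 := by
      have := congrFun hD0 ⟨n, n.lt_succ_self⟩
      simp only [hD, if_neg (show n ≠ 0 by omega), if_true, Pi.zero_apply, hV0, sub_zero] at this
      simpa [ext] using this
    have hdiff : ∀ j < n, ext n V (j + 1) - ext n V j = ext n V 1 - ext n V 0 := by
      intro j
      induction j with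
      | zero => exact fun _ => rfl
      | succ j ih =>
        intro hj
        have := congrFun hD0 ⟨j + 1, by omega⟩
        simp only [hD, if_neg j.succ_ne_zero, if_neg (show j + 1 ≠ n by omega), Pi.zero_apply,
          mul_eq_zero, Nat.add_sub_cancel] at this
        rcases this with this | this
        · exfalso; linarith
        · linarith [ih (by omega)]
    have hlin : ∀ j ≤ n, ext n V j = j * ext n V 1 := fun j => by
      induction j with
      | zero => simp [hV0]
      | succ j ih =>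
        intro hj
        push_cast
        linear_combination ih (by omega) + hdiff j hj + hV0 * (-1)
    have hV1 : ext n V 1 = 0 := by
      have := hlin n le_rfl
      rw [hVn, zero_eq_mul] at this
      exact this.resolve_left (by exact_mod_cast (show n ≠ 0 by omega))
    refine Prod.ext rfl (funext fun i => ?_)
    have := hlin i (by have := i.isLt; omega)
    rw [hV1, mul_zero] at this
    simpa [ext, i.isLt] using this
  set e := (LinearEquiv.ofInjectiveEndo L.toLinearMap hinj).toContinuousLinearEquiv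
  have hstrict' : HasStrictFDerivAt (sys h n)
      (e : ℝ × (Fin (n + 1) → ℝ) →L[ℝ] ℝ × (Fin (n + 1) → ℝ)) p := by
    rwa [show (e : ℝ × (Fin (n + 1) → ℝ) →L[ℝ] ℝ × (Fin (n + 1) → ℝ)) = L from
      ContinuousLinearMap.ext fun q => rfl]
  set g := hstrict'.localInverse (sys h n) e p
  have hg := hstrict'.to_localInverse
  have hYp : Tendsto (fun t => (t, Y t)) (𝓝 (0 : ℝ)) (𝓝 p) := tendsto_id.prodMk_nhds hY
  set target : ℝ → ℝ × (Fin (n + 1) → ℝ) := fun t =>
    (t, fun i => if (i : ℕ) = 0 then Y t i else if (i : ℕ) = n then 2 * π * m else 0) with htar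
  have hsysY : Tendsto (fun t => sys h n (t, Y t)) (𝓝 0) (𝓝 (sys h n p)) :=
    (hcd.continuous.tendsto p).comp hYp
  have hdiffO : (fun t => sys h n (t, Y t) - target t) =O[𝓝 0] fun t => t ^ k := by
    refine IsBigO.prod_left (by simp [sys, htar]; exact isBigO_zero _ _) (isBigO_pi.2 fun i => ?_)
    simp only [sys, htar, Pi.sub_apply]
    rcases eq_or_ne (i : ℕ) 0 with hi0 | hi0
    · simp [hi0, isBigO_zero]
    rcases eq_or_ne (i : ℕ) n with hin | hin
    · simp only [if_neg hi0, if_pos hin]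
      have : ∀ t, Y t i - ext n (Y t) 0 - 2 * π * m = 0 := fun t => by
        have := hend t
        rw [show Y t i = ext n (Y t) n by simp [ext, ← hin]]
        linarith
      simp [this, isBigO_zero]
    · refine (hres i (Nat.pos_of_ne_zero hi0) (by have := i.isLt; omega)).congr_left fun t => ?_
      simp only [if_neg hi0, if_neg hin, sub_zero]
  have htar0 : Tendsto target (𝓝 0) (𝓝 (sys h n p)) := by
    have hp0 : sys h n p = ((0 : ℝ), fun i : Fin (n + 1) => if (i : ℕ) = 0 then star n m τ i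
        else if (i : ℕ) = n then 2 * π * m else 0) := by
      refine Prod.ext rfl (funext fun i => ?_)
      simp only [sys, hp]
      rcases eq_or_ne (i : ℕ) 0 with hi0 | hi0
      · simp [hi0]
      rcases eq_or_ne (i : ℕ) n with hin | hin
      · simp only [if_neg hi0, if_pos hin, ext, dif_pos n.succ_pos, star, Nat.cast_zero,
          mul_zero, add_zero]
        rw [hin]
        have : (n : ℝ) ≠ 0 := by exact_mod_cast (show n ≠ 0 by omega)
        field_simp
        ring
      · simp only [if_neg hi0, if_neg hin, elAt, el_disc h0]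
        have hi := i.isLt
        simp only [ext, dif_pos (show (i : ℕ) - 1 < n + 1 by omega), dif_pos hi,
          dif_pos (show (i : ℕ) + 1 < n + 1 by omega), star]
        rw [Nat.cast_sub (Nat.one_le_iff_ne_zero.2 hi0)]
        push_cast
        ring_nf
    rw [hp0]
    refine tendsto_id.prodMk_nhds (tendsto_pi_nhds.2 fun i => ?_)
    split_ifs
    · exact (continuous_apply i).continuousAt.tendsto.comp hY
    · exact tendsto_const_nhds
    · exact tendsto_const_nhds
  refine ⟨fun t => (g (target t)).2, ?_, ?_, ?_⟩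
  · have := (hg.hasFDerivAt.continuousAt.tendsto.comp htar0)
    rw [hstrict'.localInverse_apply_image] at this
    exact (continuous_snd.tendsto p).comp this
  · have h1 := ((hg.isBigO_sub).comp_tendsto (hsysY.prodMk_nhds htar0))
    have h2 : (fun t => (t, Y t) - g (target t)) =O[𝓝 0] fun t => t ^ k := by
      refine IsBigO.trans (h1.congr' ?_ EventuallyEq.rfl) hdiffO
      filter_upwards [hYp.eventually hstrict'.eventually_left_inverse] with t ht
      simp only [Function.comp_apply]
      rw [ht]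
    exact isBigO_snd_prod.trans h2
  · filter_upwards [htar0.eventually hstrict'.eventually_right_inverse] with t ht
    have ht' : sys h n (g (target t)) = target t := ht
    set q := g (target t) with hq
    have h1 : q.1 = t := by simpa [sys, htar] using congrArg Prod.fst ht'
    have h2 := fun i => congrFun (congrArg Prod.snd ht') i
    refine ⟨?_, fun j hj hjn => ?_⟩
    · have := h2 ⟨n, n.lt_succ_self⟩
      simp only [sys, htar, if_neg (show n ≠ 0 by omega), if_true] at this
      simp only [ext, dif_pos n.lt_succ_self] at this ⊢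
      linarith
    · have := h2 ⟨j, by omega⟩
      simp only [sys, htar, if_neg hj.ne', if_neg hjn.ne, h1] at this
      exact this

/-- Configurations near the regular one have chords of angle near `π m / n`. -/
theorem gap_eventually (hmn : m < n) (hm : 0 < m) {τ : ℝ} {X : ℝ → Fin (n + 1) → ℝ}
    (hX : Tendsto X (𝓝 0) (𝓝 fun i => star n m τ i)) {η : ℝ} (hη : π * m / n < η) :
    ∀ᶠ t in 𝓝 0, (∀ j < n, 0 < ext n (X t) (j + 1) - ext n (X t) j ∧
      ext n (X t) (j + 1) - ext n (X t) j < 2 * π) ∧ ext n (X t) 1 - ext n (X t) 0 < 2 * η := by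
  have hn : (0 : ℝ) < n := by exact_mod_cast hm.trans hmn
  have hα : 0 < π * m / n ∧ π * m / n < π := ⟨by positivity, by
    rw [div_lt_iff₀ hn]; exact mul_lt_mul_of_pos_left (by exact_mod_cast hmn) pi_pos⟩
  have hlim : ∀ j < n, Tendsto (fun t => ext n (X t) (j + 1) - ext n (X t) j) (𝓝 0)
      (𝓝 (2 * (π * m / n))) := fun j hj => by
    have e := (tendsto_pi_nhds.1 hX ⟨j + 1, by omega⟩).sub (tendsto_pi_nhds.1 hX ⟨j, by omega⟩)
    simp only [ext, dif_pos (show j + 1 < n + 1 by omega), dif_pos (show j < n + 1 by omega)]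
    convert e using 2
    simp only [star]
    push_cast
    ring
  refine Eventually.and ?_ ((hlim 0 (hm.trans hmn)).eventually_lt_const (by linarith))
  have : ∀ j ∈ range n, ∀ᶠ t in 𝓝 0, 0 < ext n (X t) (j + 1) - ext n (X t) j ∧
      ext n (X t) (j + 1) - ext n (X t) j < 2 * π := fun j hj =>
    ((hlim j (mem_range.1 hj)).eventually_const_lt (by linarith [hα.1])).and
      ((hlim j (mem_range.1 hj)).eventually_lt_const (by linarith [hα.2]))
  filter_upwards [(eventually_all_finset (range n)).2 this] with t ht j hj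
  exact ht j (mem_range.2 hj)

variable (hs : ContDiff ℝ (⊤ : ℕ∞) fun q : ℝ × ℝ => h q.1 q.2) (h0 : ∀ ψ, h 0 ψ = 1)
  {η : ℝ} (hev : ∀ᶠ t in 𝓝 0, IsTable (h t) ∧ CurvesBelow (h t) η) (hm : 0 < m) (hmn : m < n)
  (hη : π * m / n < η) {k : ℕ}
include hs h0 hev hm hmn hη

/-- The first variations of an almost critical configuration nearly sum to zero. -/
theorem sum_el_small {τ : ℝ} {Y : ℝ → Fin (n + 1) → ℝ}
    (hY : Tendsto Y (𝓝 0) (𝓝 fun i => star n m τ i))
    (hend : ∀ t, ext n (Y t) n = ext n (Y t) 0 + 2 * π * m)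
    (hres : ∀ j, 0 < j → j < n → (fun t => elAt (h t) (ext n (Y t)) j) =O[𝓝 0] fun t => t ^ k) :
    (fun t => elZero (h t) n m (ext n (Y t)) + ∑ j ∈ Ico 1 n, elAt (h t) (ext n (Y t)) j)
      =o[𝓝 0] fun t => t ^ k := by
  obtain ⟨X, hXl, hXY, hXc⟩ := exists_critical hs h0 hm hmn τ hY hend hres
  set G : ℝ × (Fin (n + 1) → ℝ) → ℝ := fun p =>
    elZero (h p.1) n m (ext n p.2) + ∑ j ∈ Ico 1 n, elAt (h p.1) (ext n p.2) j with hG
  set p : ℝ × (Fin (n + 1) → ℝ) := (0, fun i => star n m τ i)
  have hcd : ContDiff ℝ 1 G :=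
    (contDiff_elZero hs).add (ContDiff.sum fun j _ => contDiff_elAt hs j)
  have hstr : HasStrictFDerivAt G (fderiv ℝ G p) p :=
    hcd.contDiffAt.hasStrictFDerivAt one_ne_zero
  have hn : (n : ℝ) ≠ 0 := by exact_mod_cast (show n ≠ 0 by omega)
  have hker : ∀ V : Fin (n + 1) → ℝ, ext n V n = ext n V 0 → fderiv ℝ G p ((0 : ℝ), V) = 0 := by
    intro V hV
    have hline : HasDerivAt (fun s : ℝ => G (p + s • ((0 : ℝ), V)))
        (sin (π * m / n) / 2 * ((ext n V 1 - ext n V 0) - (ext n V 0 - ext n V (n - 1)))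
          + ∑ j ∈ Ico 1 n, sin (π * m / n) / 2 *
            ((ext n V (j + 1) - ext n V j) - (ext n V j - ext n V (j - 1)))) 0 := by
      simp only [hG, p, Prod.smul_mk, smul_zero, Prod.mk_add_mk, add_zero]
      refine HasDerivAt.add ?_ (HasDerivAt.fun_sum fun j hj => ?_)
      · simp only [elZero, ext, dif_pos (show n - 1 < n + 1 by omega), dif_pos n.succ_pos,
          dif_pos (show 1 < n + 1 by omega), Pi.add_apply, Pi.smul_apply, smul_eq_mul, star]
        have := el_disc_deriv (h := h 0) h0 (α := π * m / n)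
          (a := τ + 2 * (π * m / n) * ((n - 1 : ℕ) : ℝ) - 2 * π * m)
          (b := τ + 2 * (π * m / n) * ((0 : ℕ) : ℝ)) (c := τ + 2 * (π * m / n) * ((1 : ℕ) : ℝ))
          (δa := V ⟨n - 1, by omega⟩) (δb := V ⟨0, n.succ_pos⟩) (δc := V ⟨1, by omega⟩)
          (by rw [Nat.cast_sub (show 1 ≤ n by omega)]; push_cast; field_simp; ring)
          (by push_cast; ring)
        refine this.congr_of_eventuallyEq (Eventually.of_forall fun s => ?_)
        ring_nf
      · rw [mem_Ico] at hj
        exact el_line h0 V τ (by omega) hj.2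
    rw [fderiv_eq_of_line hstr.hasFDerivAt.differentiableAt hline]
    have hT : ∀ j ∈ Ico 1 n, sin (π * m / n) / 2 *
        ((ext n V (j + 1) - ext n V j) - (ext n V j - ext n V (j - 1))) =
        (fun i => sin (π * m / n) / 2 * (ext n V i - ext n V (i - 1))) (j + 1)
          - (fun i => sin (π * m / n) / 2 * (ext n V i - ext n V (i - 1))) j := fun j _ => by
      simp only [Nat.add_sub_cancel]; ring
    rw [sum_congr rfl hT, sum_Ico_eq_sum_range]
    simp only [add_comm 1]
    rw [sum_range_sub (fun i => sin (π * m / n) / 2 * (ext n V (i + 1) - ext n V (i + 1 - 1)))]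
    simp only [zero_add, show n - 1 + 1 = n by omega, hV]
    ring
  have hpair : Tendsto (fun t : ℝ => ((t, Y t), (t, X t))) (𝓝 0) (𝓝 (p, p)) :=
    (tendsto_id.prodMk_nhds hY).prodMk_nhds (tendsto_id.prodMk_nhds hXl)
  have ho := (hasStrictFDerivAt_iff_isLittleO.1 hstr).comp_tendsto hpair
  have hbig : (fun t : ℝ => ((t, Y t) : ℝ × (Fin (n + 1) → ℝ)) - (t, X t)) =O[𝓝 0] fun t => t ^ k := by
    refine IsBigO.prod_left (by simp [isBigO_zero]) ?_
    simpa using hXY
  refine (ho.trans_isBigO hbig).congr' ?_ EventuallyEq.rfl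
  filter_upwards [hXc, gap_eventually hmn hm hXl hη, hev] with t ht hgap hht
  obtain ⟨hend', hcrit⟩ := ht
  obtain ⟨hz, -⟩ := critical_on_curve hht.1 hht.2 (hm.trans hmn) hend' hgap.1 hgap.2 hcrit
  have hGX : G (t, X t) = 0 := by
    simp only [hG, hz, zero_add]
    exact sum_eq_zero fun j hj => hcrit j (by rw [mem_Ico] at hj; omega) (mem_Ico.1 hj).2
  simp only [Function.comp_apply, hGX, sub_zero, Prod.mk_sub_mk, sub_self]
  rw [hker (Y t - X t) ?_, sub_zero]
  have e1 := hend t
  simp only [ext, dif_pos n.lt_succ_self, dif_pos n.succ_pos] at e1 hend' ⊢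
  simp only [Pi.sub_apply]
  linarith

/-- Almost critical configurations have almost the same action. -/
theorem action_near {τ τ' : ℝ} {Y Y' : ℝ → Fin (n + 1) → ℝ}
    (hY : Tendsto Y (𝓝 0) (𝓝 fun i => star n m τ i))
    (hY' : Tendsto Y' (𝓝 0) (𝓝 fun i => star n m τ' i))
    (hend : ∀ t, ext n (Y t) n = ext n (Y t) 0 + 2 * π * m)
    (hend' : ∀ t, ext n (Y' t) n = ext n (Y' t) 0 + 2 * π * m)
    (hres : ∀ j, 0 < j → j < n → (fun t => elAt (h t) (ext n (Y t)) j) =O[𝓝 0] fun t => t ^ k)
    (hres' : ∀ j, 0 < j → j < n → (fun t => elAt (h t) (ext n (Y' t)) j) =O[𝓝 0] fun t => t ^ k) :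
    (fun t => actSum (h t) n (ext n (Y t)) - actSum (h t) n (ext n (Y' t)))
      =O[𝓝 0] fun t => t ^ k := by
  set A : ℝ × (Fin (n + 1) → ℝ) → ℝ := fun p => actSum (h p.1) n (ext n p.2) with hA
  have hact : ContDiff ℝ 1 fun q : ℝ × ℝ × ℝ => act (h q.1) q.2.1 q.2.2 := by
    have h1 : ContDiff ℝ 1 fun q : ℝ × ℝ => h q.1 q.2 := hs.of_le (by exact_mod_cast le_top)
    simp only [act]
    exact (contDiff_const.mul (h1.comp (contDiff_fst.prodMk (by fun_prop)))).mul
      (ContDiff.sin (by fun_prop))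
  have hcd : ContDiff ℝ 1 A := by
    simp only [hA, actSum]
    exact ContDiff.sum fun j _ => hact.comp (contDiff_fst.prodMk
      (((contDiff_ext j).comp contDiff_snd).prodMk ((contDiff_ext (j + 1)).comp contDiff_snd)))
  have near : ∀ {σ : ℝ} {Z : ℝ → Fin (n + 1) → ℝ}, Tendsto Z (𝓝 0) (𝓝 fun i => star n m σ i) →
      (∀ t, ext n (Z t) n = ext n (Z t) 0 + 2 * π * m) →
      (∀ j, 0 < j → j < n → (fun t => elAt (h t) (ext n (Z t)) j) =O[𝓝 0] fun t => t ^ k) →
      ∃ W : ℝ → Fin (n + 1) → ℝ, ((fun t => A (t, Z t) - A (t, W t)) =O[𝓝 0] fun t => t ^ k) ∧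
        Tendsto W (𝓝 0) (𝓝 fun i => star n m σ i) ∧ ∀ᶠ t in 𝓝 0,
          ext n (W t) n = ext n (W t) 0 + 2 * π * m ∧
            ∀ j, 0 < j → j < n → elAt (h t) (ext n (W t)) j = 0 := by
    intro σ Z hZ he hr
    obtain ⟨W, hW, hZW, hWc⟩ := exists_critical hs h0 hm hmn σ hZ he hr
    refine ⟨W, ?_, hW, hWc⟩
    have h1 := (hcd.contDiffAt.hasStrictFDerivAt (x := ((0 : ℝ), fun i : Fin (n + 1) => star n m σ i))
      one_ne_zero).isBigO_sub.comp_tendsto
        ((tendsto_id.prodMk_nhds hZ).prodMk_nhds (tendsto_id.prodMk_nhds hW))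
    refine h1.trans (IsBigO.prod_left (by simp [isBigO_zero]) ?_)
    simpa using hZW
  obtain ⟨X, hX1, hXl, hXc⟩ := near hY hend hres
  obtain ⟨X', hX1', hXl', hXc'⟩ := near hY' hend' hres'
  refine (hX1.sub hX1').congr' ?_ EventuallyEq.rfl
  filter_upwards [hXc, hXc', gap_eventually hmn hm hXl hη, gap_eventually hmn hm hXl' hη, hev]
    with t ht ht' hg hg' hht
  obtain ⟨-, hle⟩ := critical_on_curve hht.1 hht.2 (hm.trans hmn) ht.1 hg.1 hg.2 ht.2
  obtain ⟨-, hle'⟩ := critical_on_curve hht.1 hht.2 (hm.trans hmn) ht'.1 hg'.1 hg'.2 ht'.2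
  have : A (t, X t) = A (t, X' t) :=
    le_antisymm (hle' _ ht.1 hg.1) (hle _ ht'.1 hg'.1)
  simp only [hA] at this ⊢
  linarith

end

end Vale.Agent.P097.Rigid
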