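import Vale.Agent.P097.Rigid.Jets
import Vale.Agent.P097.Rigid.Geom

/-!
# The equations and the action along a perturbed regular configuration

The chords are `σ + 2 * u σ t` with `σ` in a regular configuration of half step `α`.
-/

namespace Vale.Agent.P097.Rigid

open Finset PowerSeries Filter Topology Asymptotics

noncomputable section

/-- The first variation of the action as a formal series. -/
def elA (F : Jet) (x : ℂˣ) (w : Jet) : Jet :=
  restA F x w - Sh (x : ℂ) • (dA x w + dA x⁻¹ w)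

theorem coeff_elA (F : Jet) (x : ℂˣ) (w : Jet) (k : ℕ) (a : ℤ) :
    (coeff k (elA F x w)).coeff a =
      (coeff k (restA F x w)).coeff a - lap x a * (coeff k w).coeff a := by
  have e : ∀ y : ℂˣ, (((y ^ 2) ^ a : ℂˣ) : ℂ) = ((y ^ a : ℂˣ) : ℂ) ^ 2 := fun y => by
    rw [← Units.val_pow_eq_pow_val, ← zpow_natCast, ← zpow_natCast, ← zpow_mul, ← zpow_mul,
      mul_comm]
  have e1 : ((x ^ a : ℂˣ) : ℂ) * ((x⁻¹ ^ a : ℂˣ) : ℂ) = 1 := by
    rw [← Units.val_mul, inv_zpow, mul_inv_cancel, Units.val_one]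
  simp only [elA, dA, map_sub, map_add, PowerSeries.coeff_smul, coeff_shS,
    AddMonoidAlgebra.coeff_sub, AddMonoidAlgebra.coeff_add, AddMonoidAlgebra.coeff_smul,
    Finsupp.coe_sub, Finsupp.coe_add, Finsupp.coe_smul, Pi.sub_apply, Pi.add_apply, Pi.smul_apply,
    smul_eq_mul, coeff_shT, e, lap]
  linear_combination (-2 * Sh (x : ℂ) * (coeff k w).coeff a) * e1

theorem hasDerivAt_evT (p : Trig) (ψ : ℝ) :
    HasDerivAt (fun s => evT s p) (Complex.I * evT ψ (scale (fun a => (a : ℂ)) p)) ψ := by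
  induction p using AddMonoidAlgebra.induction_linear with
  | zero => simpa [scale] using hasDerivAt_const ψ (0 : ℂ)
  | add p q hp hq =>
    have e : scale (fun a => (a : ℂ)) (p + q)
        = scale (fun a => (a : ℂ)) p + scale (fun a => (a : ℂ)) q := by
      refine AddMonoidAlgebra.coeff_injective (Finsupp.ext fun a => ?_)
      simp [coeff_scale, mul_add]
    simp only [map_add, e, mul_add]
    exact hp.add hq
  | single a r =>
    rw [show AddMonoidAlgebra.single a r = mode a r from rfl]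
    have e : scale (fun a => (a : ℂ)) (mode a r) = mode a ((a : ℂ) * r) := by
      refine AddMonoidAlgebra.coeff_injective (Finsupp.ext fun b => ?_)
      rcases eq_or_ne a b with rfl | hb
      · simp [coeff_scale, mode, AddMonoidAlgebra.coeff_single, -LaurentPolynomial.single_eq_C_mul_T]
      · simp [coeff_scale, mode, AddMonoidAlgebra.coeff_single, hb,
          -LaurentPolynomial.single_eq_C_mul_T]
    simp only [e, evT_mode]
    exact (((hasDerivAt_id ψ).ofReal_comp.mul_const Complex.I).const_mul (a : ℂ)).cexp.const_mul r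
      |>.congr_deriv (by simp; ring)

theorem continuous_evT (p : Trig) : Continuous fun s => evT s p :=
  continuous_iff_continuousAt.2 fun ψ => (hasDerivAt_evT p ψ).continuousAt

namespace Appr

variable {N : ℕ} {y : ℂˣ} {β : ℝ} {w T : Jet} {u v : ℝ → ℝ → ℝ}

theorem comp (hy : (y : ℂ) = Complex.exp (β * Complex.I))
    (h : Appr N T fun τ t => (v τ t : ℂ) * Complex.I) (hN : 0 < N) (hT : coeff 0 T = 0) (F : Jet) :
    Appr N (comp F y T) fun τ t => pol N (τ + β + v τ t) F t := by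
  classical
  set S : Jet := ∑ k ∈ range N, ∑ b ∈ (coeff k F).coeff.support,
    PowerSeries.C (mode b ((coeff k F).coeff b * ((y ^ b : ℂˣ) : ℂ))) * X ^ k * ser (expC (b : ℂ)) T
    with hS
  have hb : Below N S (Rigid.comp F y T) := below_of_coeff fun K hK => by
    simp only [hS, Rigid.comp, coeff_mk, map_sum, mul_assoc, coeff_C_mul, coeff_X_pow_mul', mul_ite,
      mul_zero, Finsupp.sum]
    rw [← sum_subset (range_subset_range.2 (show K + 1 ≤ N by omega)) fun k _ hk => ?_]
    · refine sum_congr rfl fun k hk => sum_congr rfl fun b _ => ?_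
      rw [if_pos (by rw [mem_range] at hk; omega)]
    · rw [mem_range] at hk
      exact sum_eq_zero fun b _ => if_neg (by omega)
  have hmon : ∀ k < N, ∀ p : Trig, Appr N (PowerSeries.C p * X ^ k)
      fun τ t => (t : ℂ) ^ k * evT τ p := fun k hk p =>
    (Appr.self N _).congr_fun fun τ t => by
      rw [pol_eq, sum_eq_single k (fun i _ hi => by simp [coeff_C_mul, coeff_X_pow, hi])
        fun h => absurd (mem_range.2 hk) h]
      simp [coeff_C_mul, coeff_X_pow]
  refine ((finsum _ fun k hk => finsum _ fun b _ =>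
    (hmon k (mem_range.1 hk) _).mul (h.exp hN hT _)).below hb).congr_fun fun τ t => ?_
  rw [pol_eq]
  refine sum_congr rfl fun k _ => ?_
  rw [evT_apply, Finsupp.sum, mul_sum]
  refine sum_congr rfl fun b _ => ?_
  rw [evT_mode, Units.val_zpow_eq_zpow_val, hy, ← Complex.exp_int_mul]
  have : Complex.exp (b * ((τ + β + v τ t : ℝ) * Complex.I)) = Complex.exp (b * (β * Complex.I))
      * Complex.exp (b * ((τ : ℂ) * Complex.I)) * Complex.exp (b * ((v τ t : ℂ) * Complex.I)) := by
    rw [← Complex.exp_add, ← Complex.exp_add]; push_cast; ring_nf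
  rw [this]
  ring

theorem half (hy : (y : ℂ) = Complex.exp (β * Complex.I))
    (h : Appr N w fun τ t => (u τ t : ℂ) * Complex.I) :
    Appr N (dA y w) (fun τ t => ((u (τ + 2 * β) t - u τ t : ℝ) : ℂ) * Complex.I) ∧
      Appr N (tA y w) fun τ t => ((u (τ + 2 * β) t + u τ t : ℝ) : ℂ) * Complex.I := by
  have h2 : ((y ^ 2 : ℂˣ) : ℂ) = Complex.exp ((2 * β : ℝ) * Complex.I) := by
    rw [Units.val_pow_eq_pow_val, hy, ← Complex.exp_nat_mul]; push_cast; ring_nf
  exact ⟨((h.shift h2).sub h).congr_fun fun τ t => by push_cast; ring,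
    ((h.shift h2).add h).congr_fun fun τ t => by push_cast; ring⟩

theorem trigA (hy : (y : ℂ) = Complex.exp (β * Complex.I))
    (h : Appr N w fun τ t => (u τ t : ℂ) * Complex.I) (hN : 0 < N) (hw : coeff 0 w = 0) :
    Appr N (csA y w) (fun τ t => (Real.cos (β + (u (τ + 2 * β) t - u τ t)) : ℂ)) ∧
      Appr N (snA y w)
        fun τ t => (Real.sin (β + (u (τ + 2 * β) t - u τ t)) : ℂ) * Complex.I := by
  have h0 : coeff 0 (dA y w) = 0 := by rw [dA, map_sub, coeff_shS, hw, map_zero, sub_zero]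
  have hd := (half hy h).1
  have eS : Sh (y : ℂ) = Complex.sinh (β * Complex.I) := by
    rw [Sh, Complex.sinh, hy, Complex.exp_neg]
  have eC : Ch (y : ℂ) = Complex.cosh (β * Complex.I) := by
    rw [Ch, Complex.cosh, hy, Complex.exp_neg]
  have hc := hd.cosh hN h0
  have hs := hd.sinh hN h0
  exact ⟨((hc.smul _).add (hs.smul _)).congr_fun fun τ t => by
      rw [eS, eC, ← Complex.cosh_add, ← add_mul, ← Complex.ofReal_add, Complex.cosh_mul_I,
        Complex.ofReal_cos],
    ((hc.smul _).add (hs.smul _)).congr_fun fun τ t => by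
      rw [eS, eC, ← Complex.sinh_add, ← add_mul, ← Complex.ofReal_add, Complex.sinh_mul_I,
        Complex.ofReal_sin]⟩

end Appr

variable {h : ℝ → ℝ → ℝ} {N : ℕ} {F w : Jet} {x : ℂˣ} {α : ℝ} {u : ℝ → ℝ → ℝ}

/-- The values of the polynomial model of a deformation. -/
def mdl (N : ℕ) (F : Jet) (t ψ : ℝ) : ℂ := 1 + pol N ψ F t

/-- The derivative of the polynomial model. -/
def mdl' (N : ℕ) (F : Jet) (t ψ : ℝ) : ℂ := Complex.I * pol N ψ (dJ F) t

/-- The first variation for complex values `H`, `H'` of the support function and its derivative. -/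
def elC (H H' : ℝ → ℂ) (a b c : ℝ) : ℂ :=
  (H ((a + b) / 2) * (Real.cos ((b - a) / 2) : ℂ) + H' ((a + b) / 2) * (Real.sin ((b - a) / 2) : ℂ))
    - (H ((b + c) / 2) * (Real.cos ((c - b) / 2) : ℂ)
      - H' ((b + c) / 2) * (Real.sin ((c - b) / 2) : ℂ))

theorem el_eq_elC (g : ℝ → ℝ) (a b c : ℝ) :
    ((el g a b c : ℝ) : ℂ) = elC (fun ψ => (g ψ : ℂ)) (fun ψ => ((deriv g ψ : ℝ) : ℂ)) a b c := by
  simp only [el, lineP, elC, show b - (a + b) / 2 = (b - a) / 2 by ring,
    show b - (b + c) / 2 = -((c - b) / 2) by ring, Real.cos_neg, Real.sin_neg]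
  push_cast
  ring

theorem appr_el (hx : (x : ℂ) = Complex.exp (α * Complex.I))
    (h : Appr N w fun τ t => (u τ t : ℂ) * Complex.I) (hN : 0 < N) (hw : coeff 0 w = 0) :
    Appr N (elA F x w) fun τ t => elC (mdl N F t) (mdl' N F t)
      (τ - 2 * α + 2 * u (τ - 2 * α) t) (τ + 2 * u τ t) (τ + 2 * α + 2 * u (τ + 2 * α) t) := by
  have hx' : ((x⁻¹ : ℂˣ) : ℂ) = Complex.exp (((-α : ℝ) : ℂ) * Complex.I) := by
    rw [Units.val_inv_eq_inv_val, hx, ← Complex.exp_neg]; push_cast; ring_nf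
  have h0 : ∀ y : ℂˣ, coeff 0 (tA y w) = 0 := fun y => by
    rw [tA, map_add, coeff_shS, hw, map_zero, add_zero]
  obtain ⟨c1, s1⟩ := Appr.trigA hx h hN hw
  obtain ⟨c2, s2⟩ := Appr.trigA hx' h hN hw
  have F1 := fun G : Jet => Appr.comp hx (Appr.half hx h).2 hN (h0 x) G
  have F2 := fun G : Jet => Appr.comp hx' (Appr.half hx' h).2 hN (h0 x⁻¹) G
  have key := ((((Appr.one N).add (F2 F)).mul c2).sub ((F2 (dJ F)).mul s2)).sub
    ((((Appr.one N).add (F1 F)).mul c1).sub ((F1 (dJ F)).mul s1))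
  have e : elA F x w = ((1 + comp F x⁻¹ (tA x⁻¹ w)) * csA x⁻¹ w
      - comp (dJ F) x⁻¹ (tA x⁻¹ w) * snA x⁻¹ w)
      - ((1 + comp F x (tA x w)) * csA x w - comp (dJ F) x (tA x w) * snA x w) := by
    simp only [elA, restA, csA, Units.val_inv_eq_inv_val, Sh_inv, Ch_inv, Algebra.smul_def, map_neg]
    ring
  rw [e]
  refine key.congr_fun fun τ t => ?_
  simp only [elC, mdl, mdl', show τ + 2 * -α = τ - 2 * α by ring]
  rw [show (τ - 2 * α + 2 * u (τ - 2 * α) t + (τ + 2 * u τ t)) / 2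
      = τ + -α + (u (τ - 2 * α) t + u τ t) by ring,
    show (τ + 2 * u τ t + (τ + 2 * α + 2 * u (τ + 2 * α) t)) / 2
      = τ + α + (u (τ + 2 * α) t + u τ t) by ring,
    show (τ + 2 * u τ t - (τ - 2 * α + 2 * u (τ - 2 * α) t)) / 2
      = -(-α + (u (τ - 2 * α) t - u τ t)) by ring,
    show (τ + 2 * α + 2 * u (τ + 2 * α) t - (τ + 2 * u τ t)) / 2
      = α + (u (τ + 2 * α) t - u τ t) by ring, Real.cos_neg, Real.sin_neg]
  push_cast
  ring

theorem appr_act (hx : (x : ℂ) = Complex.exp (α * Complex.I))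
    (h : Appr N w fun τ t => (u τ t : ℂ) * Complex.I) (hN : 0 < N) (hw : coeff 0 w = 0) :
    Appr N ((-2 * Complex.I) • (actA F x w + Sh (x : ℂ) • (1 : Jet))) fun τ t =>
      2 * mdl N F t (((τ + 2 * u τ t) + (τ + 2 * α + 2 * u (τ + 2 * α) t)) / 2) *
        (Real.sin (((τ + 2 * α + 2 * u (τ + 2 * α) t) - (τ + 2 * u τ t)) / 2) : ℂ) := by
  have h0 : coeff 0 (tA x w) = 0 := by rw [tA, map_add, coeff_shS, hw, map_zero, add_zero]
  obtain ⟨-, s1⟩ := Appr.trigA hx h hN hw
  have key := ((((Appr.one N).add (Appr.comp hx (Appr.half hx h).2 hN h0 F)).mul s1).smul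
    (-2 * Complex.I))
  have e : actA F x w + Sh (x : ℂ) • (1 : Jet) = (1 + comp F x (tA x w)) * snA x w := by
    have e1 : ser chC' (dA x w) + 1 = ser chC (dA x w) := by
      ext1 k
      simp only [ser, map_add, coeff_mk, sum_range_succ', PowerSeries.coeff_one, chC', chC]
      simp only [Nat.add_eq_zero_iff, one_ne_zero, and_false, if_false, map_zero, zero_mul,
        add_zero, if_true, Even.zero, Nat.factorial_zero, Nat.cast_one, inv_one, map_one, one_mul,
        pow_zero, PowerSeries.coeff_one]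
    simp only [actA, snA, ← e1, smul_add]
    simp only [Algebra.smul_def]
    ring
  rw [e]
  refine key.congr_fun fun τ t => ?_
  simp only [mdl]
  rw [show (τ + 2 * u τ t + (τ + 2 * α + 2 * u (τ + 2 * α) t)) / 2
      = τ + α + (u (τ + 2 * α) t + u τ t) by ring,
    show (τ + 2 * α + 2 * u (τ + 2 * α) t - (τ + 2 * u τ t)) / 2
      = α + (u (τ + 2 * α) t - u τ t) by ring]
  have hI : Complex.I * Complex.I = -1 := Complex.I_mul_I
  linear_combination (-2 * (1 + pol N (τ + α + (u (τ + 2 * α) t + u τ t)) F t)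
    * (Real.sin (α + (u (τ + 2 * α) t - u τ t)) : ℂ)) * hI

/-! ### The deformation against the model -/

/-- The defect of the model at the order `N`. -/
def gap (h : ℝ → ℝ → ℝ) (N : ℕ) (F : Jet) (ψ : ℝ) : ℂ :=
  (jet h N ψ : ℂ) - evT ψ (coeff N F)

/-- The derivative of the defect. -/
def gap' (h : ℝ → ℝ → ℝ) (N : ℕ) (F : Jet) (ψ : ℝ) : ℂ :=
  ((deriv (jet h N) ψ : ℝ) : ℂ) - Complex.I * evT ψ (coeff N (dJ F))

/-- The jets below `N` are those of `F`, and the deformation starts at the disc. -/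
structure Known (h : ℝ → ℝ → ℝ) (N : ℕ) (F : Jet) : Prop where
  zero : coeff 0 F = 0
  pos : 0 < N
  disc : ∀ ψ, h 0 ψ = 1
  eq : ∀ k, 0 < k → k < N → ∀ ψ, (jet h k ψ : ℂ) = evT ψ (coeff k F)

theorem littleO_of_bigO_succ {g : ℝ → ℂ} (hg : g =O[𝓝 0] fun t : ℝ => t ^ (N + 1)) :
    g =o[𝓝 0] fun t : ℝ => t ^ N :=
  hg.trans_isLittleO (isLittleO_pow_pow N.lt_succ_self)

theorem expand_prod {f M c : ℝ → ℂ} {g₀ c₀ : ℂ}
    (hf : (fun t : ℝ => f t - M t - (t : ℂ) ^ N * g₀) =o[𝓝 0] fun t : ℝ => t ^ N)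
    (hc : Tendsto c (𝓝 0) (𝓝 c₀)) :
    (fun t : ℝ => f t * c t - M t * c t - (t : ℂ) ^ N * (g₀ * c₀)) =o[𝓝 0] fun t : ℝ => t ^ N := by
  have h1 : (fun t : ℝ => (f t - M t - (t : ℂ) ^ N * g₀) * c t) =o[𝓝 0] fun t : ℝ => t ^ N := by
    simpa using hf.mul_isBigO (hc.isBigO_one ℝ)
  have h2 : (fun t : ℝ => (t : ℂ) ^ N * g₀ * (c t - c₀)) =o[𝓝 0] fun t : ℝ => t ^ N := by
    simpa using (isBigO_cpow N g₀).mul_isLittleO
      ((isLittleO_one_iff ℝ).2 (tendsto_sub_nhds_zero_iff.2 hc))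
  exact (h1.add h2).congr_left fun t => by ring

variable (hs : ContDiff ℝ (⊤ : ℕ∞) fun q : ℝ × ℝ => h q.1 q.2) (hK : Known h N F)
include hs hK

theorem Known.deriv_jet {k : ℕ} (hk : k < N) (ψ : ℝ) :
    ((deriv (jet h k) ψ : ℝ) : ℂ) = Complex.I * evT ψ (coeff k (dJ F)) := by
  simp only [dJ, coeff_mk]
  rcases Nat.eq_zero_or_pos k with rfl | hk0
  · rw [show jet h 0 = fun _ => (1 : ℝ) from funext fun s => (jet_zero h s).trans (hK.disc s),
      deriv_const, hK.zero]
    simp [scale]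
  · have h1 := (((contDiff_jet hs k).differentiable (by simp)) ψ).hasDerivAt.ofReal_comp
    exact (h1.congr_of_eventuallyEq (Eventually.of_forall fun s => (hK.eq k hk0 hk s).symm)).unique
      (hasDerivAt_evT _ ψ)

/-- The deformation and its derivative along a convergent angle. -/
theorem Known.expand {p : ℝ → ℝ} {ψ₀ : ℝ} (hp : Tendsto p (𝓝 0) (𝓝 ψ₀)) :
    (fun t : ℝ => (h t (p t) : ℂ) - mdl (N + 1) F t (p t) - (t : ℂ) ^ N * gap h N F ψ₀)
      =o[𝓝 0] (fun t : ℝ => t ^ N) ∧
    (fun t : ℝ => ((deriv (h t) (p t) : ℝ) : ℂ) - mdl' (N + 1) F t (p t) - (t : ℂ) ^ N * gap' h N F ψ₀)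
      =o[𝓝 0] fun t : ℝ => t ^ N := by
  have hcon : ∀ g : ℝ → ℂ, Continuous g →
      (fun t : ℝ => (t : ℂ) ^ N * (g (p t) - g ψ₀)) =o[𝓝 0] fun t : ℝ => t ^ N := fun g hg => by
    simpa using (isBigO_cpow N 1).mul_isLittleO ((isLittleO_one_iff ℝ).2
      (tendsto_sub_nhds_zero_iff.2 ((hg.tendsto ψ₀).comp hp)))
  constructor
  · have hb := littleO_of_bigO_succ (N := N) (g := fun t => ((h t (p t)
        - ∑ k ∈ range (N + 1), t ^ k * jet h k (p t) : ℝ) : ℂ))
      (Complex.isBigO_ofReal_left.2 (tay_bigO hs (N + 1) hp))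
    have hg := hcon (gap h N F) ((Complex.continuous_ofReal.comp (contDiff_jet hs N).continuous).sub
      (continuous_evT _))
    refine (hb.add hg).congr_left fun t => ?_
    simp only [mdl, pol_eq, gap, Complex.ofReal_sub, Complex.ofReal_add, Complex.ofReal_sum, Complex.ofReal_mul,
      Complex.ofReal_pow, sum_range_succ]
    obtain ⟨M, hM⟩ : ∃ M, N = M + 1 := ⟨N - 1, by have := hK.pos; omega⟩
    have e : ∑ k ∈ range N, (t : ℂ) ^ k * (jet h k (p t) : ℂ)
        = 1 + ∑ k ∈ range N, (t : ℂ) ^ k * evT (p t) (coeff k F) := by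
      have e0 : (jet h 0 (p t) : ℂ) = 1 := by rw [jet_zero, hK.disc, Complex.ofReal_one]
      subst hM
      rw [sum_range_succ', sum_range_succ', e0, hK.zero, map_zero, mul_zero, add_zero, add_comm,
        sum_congr rfl fun k hk => by rw [hK.eq (k + 1) k.succ_pos (by rw [mem_range] at hk; omega)]]
      simp
    linear_combination -e
  · have hd : ∀ t ψ, deriv (h t) ψ = dψ (Function.uncurry h) (t, ψ) := fun t ψ =>
      (hasDerivAt_dψ (Q := Function.uncurry h) hs t ψ).deriv
    have hb := littleO_of_bigO_succ (N := N) (g := fun t => ((dψ (Function.uncurry h) (t, p t)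
        - ∑ k ∈ range (N + 1), t ^ k * tay (dψ (Function.uncurry h)) k (p t) : ℝ) : ℂ))
      (Complex.isBigO_ofReal_left.2 (tay_bigO (contDiff_dψ hs) (N + 1) hp))
    have hg := hcon (gap' h N F) ((Complex.continuous_ofReal.comp
      ((contDiff_jet hs N).continuous_deriv (by simp))).sub
      (continuous_const.mul (continuous_evT _)))
    refine (hb.add hg).congr_left fun t => ?_
    simp only [mdl', pol_eq, gap', hd, Complex.ofReal_sub, Complex.ofReal_add, Complex.ofReal_sum, Complex.ofReal_mul,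
      Complex.ofReal_pow, sum_range_succ, mul_add, mul_sum]
    rw [sum_congr rfl fun k hk => by
      rw [← deriv_tay (Q := Function.uncurry h) hs k (p t), ← jet,
        hK.deriv_jet hs (mem_range.1 hk) (p t)]]
    rw [← deriv_tay (Q := Function.uncurry h) hs N (p t), ← jet]
    simp only [mul_left_comm Complex.I]
    ring

/-- The first variation along the configuration, against the formal one. -/
theorem Known.el_expand (hx : (x : ℂ) = Complex.exp (α * Complex.I))
    (hw : Appr (N + 1) w fun τ t => (u τ t : ℂ) * Complex.I) (hw0 : coeff 0 w = 0) (τ : ℝ) :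
    (fun t : ℝ => ((el (h t) (τ - 2 * α + 2 * u (τ - 2 * α) t) (τ + 2 * u τ t)
        (τ + 2 * α + 2 * u (τ + 2 * α) t) : ℝ) : ℂ) - pol (N + 1) τ (elA F x w) t
      - (t : ℂ) ^ N * elC (gap h N F) (gap' h N F) (τ - 2 * α) τ (τ + 2 * α))
      =o[𝓝 0] fun t : ℝ => t ^ N := by
  set A : ℝ → ℝ := fun t => τ - 2 * α + 2 * u (τ - 2 * α) t
  set B : ℝ → ℝ := fun t => τ + 2 * u τ t
  set D : ℝ → ℝ := fun t => τ + 2 * α + 2 * u (τ + 2 * α) t
  have h0 : ∀ σ, Tendsto (fun t : ℝ => u σ t) (𝓝 0) (𝓝 0) := fun σ => by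
    have h1 := Complex.continuous_im.continuousAt.tendsto.comp
      ((hw.small N.succ_pos hw0 σ).trans_tendsto tendsto_id)
    simpa [Function.comp_def] using h1
  have hA : Tendsto A (𝓝 0) (𝓝 (τ - 2 * α)) := by
    simpa using ((h0 (τ - 2 * α)).const_mul 2).const_add (τ - 2 * α)
  have hB : Tendsto B (𝓝 0) (𝓝 τ) := by simpa using ((h0 τ).const_mul 2).const_add τ
  have hD : Tendsto D (𝓝 0) (𝓝 (τ + 2 * α)) := by
    simpa using ((h0 (τ + 2 * α)).const_mul 2).const_add (τ + 2 * α)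
  have hm1 := (hA.add hB).div_const 2
  have hm2 := (hB.add hD).div_const 2
  have hc1 := ((Complex.continuous_ofReal.comp Real.continuous_cos).tendsto _).comp
    ((hB.sub hA).div_const 2)
  have hs1 := ((Complex.continuous_ofReal.comp Real.continuous_sin).tendsto _).comp
    ((hB.sub hA).div_const 2)
  have hc2 := ((Complex.continuous_ofReal.comp Real.continuous_cos).tendsto _).comp
    ((hD.sub hB).div_const 2)
  have hs2 := ((Complex.continuous_ofReal.comp Real.continuous_sin).tendsto _).comp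
    ((hD.sub hB).div_const 2)
  have key := ((expand_prod (hK.expand hs hm1).1 hc1).add (expand_prod (hK.expand hs hm1).2 hs1)).sub
    ((expand_prod (hK.expand hs hm2).1 hc2).sub (expand_prod (hK.expand hs hm2).2 hs2))
  have happ := littleO_of_bigO_succ (appr_el (F := F) hx hw N.succ_pos hw0 τ)
  refine (key.add happ).congr_left fun t => ?_
  simp only [el_eq_elC, elC, Function.comp_apply, A, B, D]
  ring

end

end Vale.Agent.P097.Rigid
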