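import Vale.Agent.P097.Rigid.Expand

/-!
# Fourier coefficients of periodic functions of the normal angle
-/

namespace Vale.Agent.P097.Rigid

open Finset MeasureTheory intervalIntegral

noncomputable section

/-- The Fourier coefficient, times `2 π`. -/
def coef (g : ℝ → ℂ) (a : ℤ) : ℂ :=
  ∫ τ in (0 : ℝ)..2 * Real.pi, g τ * Complex.exp (-(a : ℂ) * ((τ : ℂ) * Complex.I))

variable {g g' : ℝ → ℂ} {a : ℤ}

theorem cont_kernel (a : ℤ) :
    Continuous fun τ : ℝ => Complex.exp (-(a : ℂ) * ((τ : ℂ) * Complex.I)) := by fun_prop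

theorem coef_add (hg : Continuous g) (hg' : Continuous g') :
    coef (fun τ => g τ + g' τ) a = coef g a + coef g' a := by
  simp only [coef, add_mul]
  exact integral_add ((hg.mul (cont_kernel a)).intervalIntegrable _ _)
    ((hg'.mul (cont_kernel a)).intervalIntegrable _ _)

theorem coef_const_mul (r : ℂ) (g : ℝ → ℂ) : coef (fun τ => r * g τ) a = r * coef g a := by
  simp only [coef, mul_assoc, intervalIntegral.integral_const_mul]

theorem coef_sub (hg : Continuous g) (hg' : Continuous g') :
    coef (fun τ => g τ - g' τ) a = coef g a - coef g' a := by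
  simp only [coef, sub_mul]
  exact integral_sub ((hg.mul (cont_kernel a)).intervalIntegrable _ _)
    ((hg'.mul (cont_kernel a)).intervalIntegrable _ _)

theorem coef_sum {ι : Type*} (s : Finset ι) {g : ι → ℝ → ℂ} (hg : ∀ i ∈ s, Continuous (g i)) :
    coef (fun τ => ∑ i ∈ s, g i τ) a = ∑ i ∈ s, coef (g i) a := by
  simp only [coef, sum_mul]
  exact intervalIntegral.integral_finsetSum fun i hi =>
    ((hg i hi).mul (cont_kernel a)).intervalIntegrable _ _

theorem coef_evT (p : Trig) (a : ℤ) :
    coef (fun τ => evT τ p) a = 2 * Real.pi * p.coeff a := by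
  induction p using AddMonoidAlgebra.induction_linear with
  | zero => simp [coef]
  | add p q hp hq =>
    simp only [map_add]
    rw [coef_add (continuous_evT p) (continuous_evT q), hp, hq]
    simp [mul_add]
  | single b r =>
    rw [show AddMonoidAlgebra.single b r = mode b r from rfl]
    simp only [evT_mode]
    rw [coef_const_mul]
    rcases eq_or_ne b a with rfl | hb
    · simp [coef, ← Complex.exp_add, mode, AddMonoidAlgebra.coeff_single,
        -LaurentPolynomial.single_eq_C_mul_T]
      ring
    · have hne : ((b : ℂ) - a) * Complex.I ≠ 0 :=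
        mul_ne_zero (sub_ne_zero.2 (by exact_mod_cast hb)) Complex.I_ne_zero
      have e : ∀ τ : ℝ, Complex.exp (b * ((τ : ℂ) * Complex.I))
          * Complex.exp (-(a : ℂ) * ((τ : ℂ) * Complex.I))
          = Complex.exp (((b : ℂ) - a) * Complex.I * τ) := fun τ => by
        rw [← Complex.exp_add]; ring_nf
      have h1 : Complex.exp (((b : ℂ) - a) * Complex.I * ((2 * Real.pi : ℝ) : ℂ)) = 1 := by
        rw [← Complex.exp_int_mul_two_pi_mul_I (b - a)]
        push_cast
        ring_nf
      simp only [coef, e, integral_exp_mul_complex hne, h1]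
      simp [mode, AddMonoidAlgebra.coeff_single, hb, -LaurentPolynomial.single_eq_C_mul_T]

theorem kernel_periodic (a : ℤ) :
    Function.Periodic (fun τ : ℝ => Complex.exp (-(a : ℂ) * ((τ : ℂ) * Complex.I))) (2 * Real.pi) :=
  fun τ => by
    simp only
    rw [show -(a : ℂ) * (((τ + 2 * Real.pi : ℝ) : ℂ) * Complex.I)
        = -(a : ℂ) * ((τ : ℂ) * Complex.I) + ((-a : ℤ) : ℂ) * (2 * Real.pi * Complex.I) by
      push_cast; ring, Complex.exp_add, Complex.exp_int_mul_two_pi_mul_I, mul_one]

theorem coef_shift (hp : Function.Periodic g (2 * Real.pi)) (c : ℝ) :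
    coef (fun τ => g (τ + c)) a = Complex.exp ((a : ℂ) * ((c : ℂ) * Complex.I)) * coef g a := by
  set f : ℝ → ℂ := fun τ => g τ * Complex.exp (-(a : ℂ) * ((τ : ℂ) * Complex.I)) with hf
  have hper : Function.Periodic f (2 * Real.pi) := hp.mul (kernel_periodic a)
  have e : ∀ τ : ℝ, g (τ + c) * Complex.exp (-(a : ℂ) * ((τ : ℂ) * Complex.I))
      = Complex.exp ((a : ℂ) * ((c : ℂ) * Complex.I)) * f (τ + c) := fun τ => by
    simp only [hf]
    rw [mul_left_comm (Complex.exp _), ← Complex.exp_add]
    push_cast
    ring_nf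
  simp only [coef, e, intervalIntegral.integral_const_mul, intervalIntegral.integral_comp_add_right, ← hf]
  rw [zero_add, add_comm (2 * Real.pi) c, hper.intervalIntegral_add_eq c 0, zero_add]

theorem coef_deriv (hd : ∀ τ, HasDerivAt g (g' τ) τ) (hg' : Continuous g')
    (hp : Function.Periodic g (2 * Real.pi)) :
    coef g' a = (a : ℂ) * Complex.I * coef g a := by
  set e : ℝ → ℂ := fun τ => Complex.exp (-(a : ℂ) * ((τ : ℂ) * Complex.I)) with he
  have hde : ∀ τ : ℝ, HasDerivAt e (-(a : ℂ) * Complex.I * e τ) τ := fun τ =>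
    (((hasDerivAt_id τ).ofReal_comp.mul_const Complex.I).const_mul (-(a : ℂ))).cexp.congr_deriv
      (by simp [he]; ring)
  have hc : Continuous e := cont_kernel a
  have hg : Continuous g := continuous_iff_continuousAt.2 fun τ => (hd τ).continuousAt
  have h := integral_deriv_mul_eq_sub (a := (0 : ℝ)) (b := 2 * Real.pi)
    (fun τ _ => hd τ) (fun τ _ => hde τ) (hg'.intervalIntegrable _ _)
    ((continuous_const.mul hc).intervalIntegrable _ _)
  rw [intervalIntegral.integral_add (f := fun τ => g' τ * e τ)
    (g := fun τ => g τ * (-(a : ℂ) * Complex.I * e τ)) ((hg'.mul hc).intervalIntegrable _ _)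
    ((hg.mul (continuous_const.mul hc)).intervalIntegrable _ _)] at h
  have h0 : g (2 * Real.pi) * e (2 * Real.pi) - g 0 * e 0 = 0 := by
    have := (hp.mul (kernel_periodic a)) 0
    simp only [Pi.mul_apply, zero_add] at this
    exact sub_eq_zero.2 this
  have h2 : ∫ τ in (0 : ℝ)..2 * Real.pi, g τ * (-(a : ℂ) * Complex.I * e τ)
      = -(a : ℂ) * Complex.I * coef g a := by
    rw [coef, ← intervalIntegral.integral_const_mul]
    exact integral_congr fun τ _ => by simp only [he]; ring
  rw [h0, h2] at h
  simp only [coef] at h ⊢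
  linear_combination h

/-- A periodic function with finitely many modes is a trigonometric polynomial. -/
theorem trig_of_coef (hg : Continuous g) (hp : Function.Periodic g (2 * Real.pi)) (S : Finset ℤ)
    (h : ∀ a ∉ S, coef g a = 0) :
    ∃ p : Trig, (∀ τ, g τ = evT τ p) ∧ ∀ a ∉ S, p.coeff a = 0 := by
  classical
  have hpi : Fact (0 < 2 * Real.pi) := ⟨Real.two_pi_pos⟩
  set f : C(AddCircle (2 * Real.pi), ℂ) := ⟨hp.lift, hg.quotient_liftOn' _⟩ with hf
  have hfg : ∀ τ : ℝ, f τ = g τ := fun τ => hp.lift_coe τ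
  have hco : ∀ a, fourierCoeff f a = (1 / (2 * Real.pi) : ℝ) * coef g a := fun a => by
    rw [fourierCoeff_eq_intervalIntegral _ a 0, zero_add, Complex.real_smul, coef]
    congr 1
    refine integral_congr fun τ _ => ?_
    simp only [hfg, fourier_coe_apply, smul_eq_mul]
    rw [mul_comm]
    congr 2
    push_cast
    field_simp
  have h0 : ∀ a ∉ S, fourierCoeff f a = 0 := fun a ha => by rw [hco, h a ha, mul_zero]
  refine ⟨∑ a ∈ S, mode a (fourierCoeff f a), fun τ => ?_, fun a ha => ?_⟩
  · have hs := has_pointwise_sum_fourier_series_of_summable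
      (summable_of_hasFiniteSupport (S.finite_toSet.subset fun a ha => by
        by_contra hc
        exact ha (h0 a hc))) (τ : AddCircle (2 * Real.pi))
    rw [← hfg τ, ← hs.tsum_eq, tsum_eq_sum fun a ha => by rw [h0 a ha, zero_smul], map_sum]
    refine sum_congr rfl fun a _ => ?_
    rw [evT_mode, fourier_coe_apply, smul_eq_mul]
    congr 2
    push_cast
    field_simp
  · simp only [mode, AddMonoidAlgebra.coeff_sum, Finsupp.finsetSum_apply,
      AddMonoidAlgebra.coeff_single, Finsupp.single_apply]
    exact sum_eq_zero fun b hb => if_neg fun e : b = a => ha (e ▸ hb)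

end

end Vale.Agent.P097.Rigid
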