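import Vale.Agent.P097.Rigid.Appr

/-!
# The jets of a smooth deformation

The Taylor polynomials in the parameter approximate the functions and their first derivatives in
the other variable, locally uniformly in that variable.
-/

namespace Vale.Agent.P097.Rigid

open Finset Filter Topology Asymptotics

noncomputable section

/-- The derivative in the parameter. -/
def dt (Q : ℝ × ℝ → ℝ) : ℝ × ℝ → ℝ := fun q => fderiv ℝ Q q (1, 0)

/-- The derivative in the normal angle. -/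
def dψ (Q : ℝ × ℝ → ℝ) : ℝ × ℝ → ℝ := fun q => fderiv ℝ Q q (0, 1)

/-- The `k`th Taylor coefficient in the parameter. -/
def tay (Q : ℝ × ℝ → ℝ) (k : ℕ) (ψ : ℝ) : ℝ := dt^[k] Q (0, ψ) / k.factorial

/-- The jets of a deformation. -/
def jet (h : ℝ → ℝ → ℝ) (k : ℕ) : ℝ → ℝ := tay (Function.uncurry h) k

variable {Q : ℝ × ℝ → ℝ}

theorem contDiff_dt (hQ : ContDiff ℝ (⊤ : ℕ∞) Q) : ContDiff ℝ (⊤ : ℕ∞) (dt Q) :=
  (hQ.fderiv_right (m := (⊤ : ℕ∞)) (by simp)).clm_apply contDiff_const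

theorem contDiff_dψ (hQ : ContDiff ℝ (⊤ : ℕ∞) Q) : ContDiff ℝ (⊤ : ℕ∞) (dψ Q) :=
  (hQ.fderiv_right (m := (⊤ : ℕ∞)) (by simp)).clm_apply contDiff_const

theorem contDiff_iter (hQ : ContDiff ℝ (⊤ : ℕ∞) Q) : ∀ k, ContDiff ℝ (⊤ : ℕ∞) (dt^[k] Q)
  | 0 => hQ
  | k + 1 => by rw [Function.iterate_succ_apply']; exact contDiff_dt (contDiff_iter hQ k)

theorem hasDerivAt_dt (hQ : ContDiff ℝ (⊤ : ℕ∞) Q) (t ψ : ℝ) :
    HasDerivAt (fun s => Q (s, ψ)) (dt Q (t, ψ)) t :=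
  ((hQ.differentiable (by simp)) (t, ψ)).hasFDerivAt.comp_hasDerivAt t
    ((hasDerivAt_id t).prodMk (hasDerivAt_const t ψ))

theorem hasDerivAt_dψ (hQ : ContDiff ℝ (⊤ : ℕ∞) Q) (t ψ : ℝ) :
    HasDerivAt (fun s => Q (t, s)) (dψ Q (t, ψ)) ψ :=
  ((hQ.differentiable (by simp)) (t, ψ)).hasFDerivAt.comp_hasDerivAt ψ
    ((hasDerivAt_const ψ t).prodMk (hasDerivAt_id ψ))

theorem dt_dψ (hQ : ContDiff ℝ (⊤ : ℕ∞) Q) : dt (dψ Q) = dψ (dt Q) := by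
  funext q
  have hd : DifferentiableAt ℝ (fderiv ℝ Q) q :=
    ((hQ.fderiv_right (m := (⊤ : ℕ∞)) (by simp)).differentiable (by simp)) q
  have e : ∀ u v : ℝ × ℝ,
      fderiv ℝ (fun p => fderiv ℝ Q p u) q v = fderiv ℝ (fderiv ℝ Q) q v u := fun u v => by
    rw [fderiv_clm_apply hd (differentiableAt_const u)]
    simp
  change fderiv ℝ (fun p => fderiv ℝ Q p (0, 1)) q (1, 0)
    = fderiv ℝ (fun p => fderiv ℝ Q p (1, 0)) q (0, 1)
  rw [e, e]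
  exact hQ.contDiffAt.isSymmSndFDerivAt (by simp; exact WithTop.coe_le_coe.2 le_top) _ _

theorem iter_dψ (hQ : ContDiff ℝ (⊤ : ℕ∞) Q) : ∀ k, dt^[k] (dψ Q) = dψ (dt^[k] Q)
  | 0 => rfl
  | k + 1 => by
    rw [Function.iterate_succ_apply', Function.iterate_succ_apply', iter_dψ hQ k,
      dt_dψ (contDiff_iter hQ k)]

theorem tay_periodic (hQ : ContDiff ℝ (⊤ : ℕ∞) Q) {c : ℝ}
    (hp : ∀ᶠ t in 𝓝 0, ∀ ψ, Q (t, ψ + c) = Q (t, ψ)) (k : ℕ) (ψ : ℝ) :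
    tay Q k (ψ + c) = tay Q k ψ := by
  suffices ∀ᶠ t in 𝓝 0, ∀ ψ, dt^[k] Q (t, ψ + c) = dt^[k] Q (t, ψ) by
    rw [tay, tay, this.self_of_nhds]
  induction k with
  | zero => exact hp
  | succ k ih =>
    filter_upwards [ih.eventually_nhds] with t ht ψ
    rw [Function.iterate_succ_apply']
    exact (hasDerivAt_dt (contDiff_iter hQ k) t (ψ + c)).unique
      ((hasDerivAt_dt (contDiff_iter hQ k) t ψ).congr_of_eventuallyEq (ht.mono fun s hs => hs ψ))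

theorem contDiff_tay (hQ : ContDiff ℝ (⊤ : ℕ∞) Q) (k : ℕ) : ContDiff ℝ (⊤ : ℕ∞) (tay Q k) :=
  ((contDiff_iter hQ k).comp (contDiff_const.prodMk contDiff_id)).div_const _

theorem deriv_tay (hQ : ContDiff ℝ (⊤ : ℕ∞) Q) (k : ℕ) (ψ : ℝ) :
    deriv (tay Q k) ψ = tay (dψ Q) k ψ := by
  rw [tay, iter_dψ hQ k]
  exact ((hasDerivAt_dψ (contDiff_iter hQ k) 0 ψ).div_const _).deriv

theorem tay_bound (K : ℕ) : ∀ Q : ℝ × ℝ → ℝ, ContDiff ℝ (⊤ : ℕ∞) Q → ∀ ψ₀ : ℝ, ∃ C δ : ℝ, 0 < δ ∧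
    ∀ t ψ : ℝ, |t| ≤ δ → |ψ - ψ₀| ≤ δ →
      |Q (t, ψ) - ∑ k ∈ range K, t ^ k * tay Q k ψ| ≤ C * |t| ^ K := by
  induction K with
  | zero =>
    intro Q hQ ψ₀
    obtain ⟨C, hC⟩ := (isCompact_closedBall ((0 : ℝ), ψ₀) 1).exists_bound_of_continuousOn
      hQ.continuous.continuousOn
    refine ⟨C, 1, one_pos, fun t ψ ht hψ => ?_⟩
    simpa using hC (t, ψ) (by
      simpa [Metric.mem_closedBall, Prod.dist_eq, Real.dist_eq] using And.intro ht hψ)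
  | succ K ih =>
    intro Q hQ ψ₀
    obtain ⟨C, δ, hδ, hC⟩ := ih (dt Q) (contDiff_dt hQ) ψ₀
    refine ⟨C, δ, hδ, fun t ψ ht hψ => ?_⟩
    have hC0 : ∀ s ∈ Set.uIcc 0 t, |s| ≤ |t| := fun s hs => by
      simpa using Set.abs_sub_left_of_mem_uIcc hs
    set φ : ℝ → ℝ := fun s => Q (s, ψ) - ∑ k ∈ range (K + 1), s ^ k * tay Q k ψ with hφ
    have e : ∀ k : ℕ, ((k + 1 : ℕ) : ℝ) * tay Q (k + 1) ψ = tay (dt Q) k ψ := fun k => by
      rw [tay, tay, Function.iterate_succ_apply, Nat.factorial_succ]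
      push_cast
      field_simp
    have hd : ∀ s, HasDerivAt φ (dt Q (s, ψ) - ∑ k ∈ range K, s ^ k * tay (dt Q) k ψ) s := fun s => by
      refine (hasDerivAt_dt hQ s ψ).sub ?_
      simp only [sum_range_succ', pow_zero, one_mul]
      have h1 := HasDerivAt.fun_sum (u := range K) fun k _ =>
        ((hasDerivAt_pow (k + 1) s).mul_const (tay Q (k + 1) ψ))
      refine (h1.add_const _).congr_deriv (sum_congr rfl fun k _ => ?_)
      rw [← e, Nat.add_sub_cancel]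
      ring
    have h0 : φ 0 = 0 := by
      simp [hφ, sum_range_succ', tay]
    have := (convex_uIcc (0 : ℝ) t).norm_image_sub_le_of_norm_hasDerivWithin_le
      (fun s _ => (hd s).hasDerivWithinAt) (C := C * |t| ^ K) (fun s hs => ?_)
      Set.left_mem_uIcc Set.right_mem_uIcc
    · rw [h0, sub_zero, sub_zero, Real.norm_eq_abs, Real.norm_eq_abs] at this
      rw [pow_succ, ← mul_assoc]
      exact this
    · rw [Real.norm_eq_abs]
      have hst := hC0 s hs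
      refine (hC s ψ (hst.trans ht) hψ).trans ?_
      rcases le_or_gt 0 C with hc | hc
      · exact mul_le_mul_of_nonneg_left (pow_le_pow_left₀ (abs_nonneg _) hst K) hc
      · have := hC δ ψ (abs_of_pos hδ).le hψ
        nlinarith [abs_nonneg (dt Q (δ, ψ) - ∑ k ∈ range K, δ ^ k * tay (dt Q) k ψ),
          pow_pos (abs_pos.2 hδ.ne') K]

/-- The Taylor expansion along a convergent angle. -/
theorem tay_bigO (hQ : ContDiff ℝ (⊤ : ℕ∞) Q) (K : ℕ) {p : ℝ → ℝ} {ψ₀ : ℝ}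
    (hp : Tendsto p (𝓝 0) (𝓝 ψ₀)) :
    (fun t => Q (t, p t) - ∑ k ∈ range K, t ^ k * tay Q k (p t)) =O[𝓝 0] fun t : ℝ => t ^ K := by
  obtain ⟨C, δ, hδ, hC⟩ := tay_bound K Q hQ ψ₀
  refine IsBigO.of_bound C ?_
  have h1 : ∀ᶠ t : ℝ in 𝓝 0, |t| ≤ δ :=
    (continuous_abs.tendsto' (0 : ℝ) 0 abs_zero).eventually_le_const hδ
  have h2 : ∀ᶠ t in 𝓝 0, |p t - ψ₀| ≤ δ :=
    (((continuous_abs.comp (continuous_sub_right ψ₀)).tendsto' ψ₀ 0 (by simp)).comp hp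
      ).eventually_le_const hδ
  filter_upwards [h1, h2] with t ht ht'
  simpa using hC t (p t) ht ht'

theorem contDiff_jet {h : ℝ → ℝ → ℝ} (hs : ContDiff ℝ (⊤ : ℕ∞) fun q : ℝ × ℝ => h q.1 q.2)
    (k : ℕ) : ContDiff ℝ (⊤ : ℕ∞) (jet h k) :=
  contDiff_tay hs k

theorem jet_zero (h : ℝ → ℝ → ℝ) (ψ : ℝ) : jet h 0 ψ = h 0 ψ := by simp [jet, tay]

theorem jet_periodic {h : ℝ → ℝ → ℝ} (hs : ContDiff ℝ (⊤ : ℕ∞) fun q : ℝ × ℝ => h q.1 q.2)
    {c : ℝ} (hp : ∀ᶠ t in 𝓝 0, Function.Periodic (h t) c) (k : ℕ) : Function.Periodic (jet h k) c :=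
  fun ψ => tay_periodic hs hp k ψ

end

end Vale.Agent.P097.Rigid
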