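import Vale.Agent.P097.Rigid.Action

/-!
# Infinitesimal rigidity of the disc

The jets are trigonometric polynomials, then their steepest modes would make a one sided periodic
problem, which has no solution.
-/

namespace Vale.Agent.P097.Rigid

open Finset PowerSeries Filter Topology ComplexConjugate

noncomputable section

variable {h : ℝ → ℝ → ℝ} {η : ℝ}

theorem continuous_gap (hs : ContDiff ℝ (⊤ : ℕ∞) fun q : ℝ × ℝ => h q.1 q.2) (N : ℕ) (F : Jet) :
    Continuous (gap h N F) ∧ Continuous (gap' h N F) ∧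
      ∀ ψ, HasDerivAt (gap h N F) (gap' h N F ψ) ψ := by
  refine ⟨(Complex.continuous_ofReal.comp (contDiff_jet hs N).continuous).sub (continuous_evT _),
    (Complex.continuous_ofReal.comp ((contDiff_jet hs N).continuous_deriv (by simp))).sub
      (continuous_const.mul (continuous_evT _)), fun ψ => ?_⟩
  have h1 := (((contDiff_jet hs N).differentiable (by simp)) ψ).hasDerivAt.ofReal_comp
  have h2 := hasDerivAt_evT (coeff N F) ψ
  rw [show scale (fun a => (a : ℂ)) (coeff N F) = coeff N (dJ F) by simp [dJ]] at h2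
  exact h1.sub h2

theorem evT_periodic (p : Trig) (τ : ℝ) : evT (τ + 2 * Real.pi) p = evT τ p := by
  simp only [evT_apply]
  refine Finsupp.sum_congr fun a _ => congrArg _ ?_
  rw [show (a : ℂ) * (((τ + 2 * Real.pi : ℝ) : ℂ) * Complex.I)
      = (a : ℂ) * ((τ : ℂ) * Complex.I) + (a : ℂ) * (2 * Real.pi * Complex.I) by
    push_cast; ring, Complex.exp_add, Complex.exp_int_mul_two_pi_mul_I, mul_one]

variable (hs : ContDiff ℝ (⊤ : ℕ∞) fun q : ℝ × ℝ => h q.1 q.2)
  (hev : ∀ᶠ t in 𝓝 0, IsTable (h t) ∧ CurvesBelow (h t) η)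
include hs hev

/-- A mode of the jet vanishes where the formal equation has none. -/
theorem jet_coef {N : ℕ} {F : Jet} (hK : Known h N F) {a : ℤ} {n : ℕ} (hn : 2 ≤ n)
    (ha : a = n ∨ a = -n) (hη : Real.pi / n < η)
    (hR : (coeff N (restA F (xr n 1) (wA F (xr n 1)))).coeff a = 0) :
    coef (gap h N F) a = 0 := by
  have hη' : Real.pi * (1 : ℕ) / n < η := by simpa using hη
  have hF : Flat N F (xr n 1) := flat_of_known hs hev one_pos (by omega) hη' N hK
  obtain ⟨hG, hD, hGD⟩ := continuous_gap hs N F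
  have hGp : Function.Periodic (gap h N F) (2 * Real.pi) := fun ψ => by
    simp only [gap, jet_periodic hs (hev.mono fun t ht => ht.1.periodic) N ψ]
    rw [evT_periodic (coeff N F) ψ]
  have hDp : Function.Periodic (gap' h N F) (2 * Real.pi) := fun ψ => by
    have h1 : HasDerivAt (fun s => gap h N F (s + 2 * Real.pi)) (gap' h N F (ψ + 2 * Real.pi)) ψ :=
      (hGD _).comp_add_const ψ (2 * Real.pi)
    simp only [hGp _] at h1
    exact h1.unique (hGD ψ)
  set R := coeff N (restA F (xr n 1) (wA F (xr n 1))) with hRdef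
  set α := Real.pi * (1 : ℕ) / n with hα
  set E : ℝ → ℂ := fun τ => evT τ R + ((Real.cos α : ℂ) * gap h N F (τ + -α)
    + (Real.sin α : ℂ) * gap' h N F (τ + -α) - ((Real.cos α : ℂ) * gap h N F (τ + α)
    - (Real.sin α : ℂ) * gap' h N F (τ + α))) with hE
  have hEe : ∀ τ, errAt h N F n 1 τ = E τ := fun τ => by
    simp only [hE, errAt, elC, ← hα, ← hRdef]
    rw [show (τ - 2 * α + τ) / 2 = τ + -α by ring, show (τ + (τ + 2 * α)) / 2 = τ + α by ring,
      show (τ - (τ - 2 * α)) / 2 = α by ring, show (τ + 2 * α - τ) / 2 = α by ring]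
    ring
  have cc : ∀ {g : ℝ → ℂ}, Continuous g → ∀ c, Continuous fun τ : ℝ => g (τ + c) :=
    fun hg c => hg.comp (continuous_add_const c)
  have hEc : Continuous E := by
    have := continuous_evT R
    have := cc hG α; have := cc hG (-α); have := cc hD α; have := cc hD (-α)
    simp only [hE]
    fun_prop
  have hEp : Function.Periodic E (2 * Real.pi) := fun τ => by
    simp only [hE]
    rw [evT_periodic R τ, add_right_comm τ (2 * Real.pi) α, add_right_comm τ (2 * Real.pi) (-α),
      hGp, hGp, hDp, hDp]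
  have hn0 : (n : ℝ) ≠ 0 := by exact_mod_cast (show n ≠ 0 by omega)
  have hexp : ∀ s : ℤ, Complex.exp ((a : ℂ) * (((s * α : ℝ) : ℂ) * Complex.I)) = (-1) ^ s := by
    intro s
    have hn1 : (n : ℂ) ≠ 0 := by exact_mod_cast (show n ≠ 0 by omega)
    rcases ha with rfl | rfl
    · rw [show ((n : ℤ) : ℂ) * (((s * α : ℝ) : ℂ) * Complex.I)
          = s * (Real.pi * Complex.I) by simp only [hα]; push_cast; field_simp,
        Complex.exp_int_mul, Complex.exp_pi_mul_I]
    · rw [show ((-(n : ℤ) : ℤ) : ℂ) * (((s * α : ℝ) : ℂ) * Complex.I)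
          = ((-s : ℤ) : ℂ) * (Real.pi * Complex.I) by simp only [hα]; push_cast; field_simp,
        Complex.exp_int_mul, Complex.exp_pi_mul_I, zpow_neg, ← inv_zpow, inv_neg, inv_one]
  have hsum : coef (fun τ => ∑ j ∈ range n, E (τ + 2 * α * j)) a = n * coef E a := by
    rw [coef_sum _ fun j _ => cc hEc _, sum_congr rfl fun (j : ℕ) _ => ?_, sum_const, card_range,
      nsmul_eq_mul]
    rw [coef_shift hEp, show (2 * α * j : ℝ) = ((2 * j : ℤ) : ℝ) * α by push_cast; ring, hexp,
      zpow_mul]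
    norm_num
  have hzero : coef (fun τ => ∑ j ∈ range n, E (τ + 2 * α * j)) a = 0 := by
    have e : (fun τ => ∑ j ∈ range n, E (τ + 2 * α * j)) = fun _ => (0 : ℂ) := funext fun τ => by
      rw [← err_sum hs hev one_pos (by omega) hη' hK hF τ]
      exact sum_congr rfl fun j _ => (hEe _).symm
    rw [e]; simp [coef]
  have hcoef : coef E a = -2 * (Real.sin α : ℂ) * ((a : ℂ) * Complex.I * coef (gap h N F) a) := by
    have h1 := hexp 1
    have h2 := hexp (-1)
    simp only [Int.cast_one, one_mul, zpow_one, Int.cast_neg, neg_mul, zpow_neg] at h1 h2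
    have k1 := cc hG α; have k2 := cc hG (-α); have k3 := cc hD α; have k4 := cc hD (-α)
    simp only [hE]
    rw [coef_add (continuous_evT R) (by fun_prop), coef_sub (by fun_prop) (by fun_prop),
      coef_add (by fun_prop) (by fun_prop), coef_sub (by fun_prop) (by fun_prop), coef_const_mul,
      coef_const_mul, coef_const_mul, coef_const_mul, coef_evT, hR, coef_shift hGp, coef_shift hGp,
      coef_shift hDp, coef_shift hDp, coef_deriv hGD hD hGp, h1, h2]
    ring
  have hsin : 0 < Real.sin α := by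
    refine Real.sin_pos_of_pos_of_lt_pi (by rw [hα]; positivity) ?_
    rw [hα, div_lt_iff₀ (by positivity)]
    exact mul_lt_mul_of_pos_left (by exact_mod_cast (show 1 < n by omega)) Real.pi_pos
  rw [hsum, hcoef] at hzero
  have hn1 : (n : ℂ) ≠ 0 := by exact_mod_cast (show n ≠ 0 by omega)
  have ha0 : (a : ℂ) ≠ 0 := by
    have : a ≠ 0 := by omega
    exact_mod_cast this
  simpa [hn1, ha0, Complex.I_ne_zero, hsin.ne', ← Complex.ofReal_sin] using hzero

/-- A mode steeper than all modes below its order vanishes. -/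
theorem mode_zero {F : Jet} (hall : ∀ N, 0 < N → Known h N F) {N : ℕ} (hN : 0 < N) {J k₀ : ℤ}
    (hsl : ∀ k < N, ∀ a, (coeff k F).coeff a ≠ 0 → a * k₀ ≤ J * k) {a : ℤ}
    (ha : J * N < a * k₀) {n : ℕ} (hn : 2 ≤ n) (han : a = n ∨ a = -n) (hη : Real.pi / n < η) :
    (coeff N F).coeff a = 0 := by
  set G : Jet := PowerSeries.mk fun k => if k < N then coeff k F else 0 with hG
  have hK := hall N hN
  have hKG : Known h N G :=
    ⟨by simpa [hG, hN] using hK.zero, hN, hK.disc, fun k h0 hk ψ => by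
      simpa [hG, hk] using hK.eq k h0 hk ψ⟩
  have hSl : Sl J k₀ G := fun k b hb => by
    simp only [hG, coeff_mk] at hb
    split_ifs at hb with hk
    · exact hsl k hk b hb
    · simp at hb
  have hR : (coeff N (restA G (xr n 1) (wA G (xr n 1)))).coeff a = 0 := by
    by_contra hne
    exact absurd (hSl.restA (Sl.wA hSl hKG.zero _) _ N a hne) (not_le.2 ha)
  have h1 := jet_coef hs hev hKG hn han hη hR
  have e : gap h N G = fun ψ => evT ψ (coeff N F) := funext fun ψ => by
    rw [gap, (hall (N + 1) N.succ_pos).eq N hN N.lt_succ_self ψ]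
    simp [hG]
  rw [e, coef_evT] at h1
  simpa [Real.pi_ne_zero] using h1

/-- The jets are trigonometric polynomials. -/
theorem exists_full (hη : 0 < η) (h0 : ∀ ψ, h 0 ψ = 1) :
    ∃ F : Jet, (∀ N, 0 < N → Known h N F) := by
  obtain ⟨D, hD, hDη⟩ : ∃ D : ℕ, 2 ≤ D ∧ Real.pi / D < η := by
    obtain ⟨D, hD⟩ := exists_nat_gt (Real.pi / η)
    refine ⟨D + 2, by omega, ?_⟩
    rw [div_lt_iff₀ hη] at hD
    rw [div_lt_iff₀ (by positivity)]
    push_cast
    nlinarith
  have key : ∀ N, 0 < N → ∃ p : Trig, (∀ ψ, (jet h N ψ : ℂ) = evT ψ p) ∧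
      ∀ a ∉ Finset.Icc (-(D * N : ℤ)) (D * N), p.coeff a = 0 := by
    intro N
    induction N using Nat.strong_induction_on with
    | _ N ih =>
      intro hN
      choose p hp hp' using ih
      set G : Jet := PowerSeries.mk fun k => if hk : 0 < k ∧ k < N then p k hk.2 hk.1 else 0 with hG
      have hKG : Known h N G := ⟨by simp [hG], hN, h0, fun k h0' hk ψ => by
        rw [hp k hk h0' ψ]; simp [hG, h0', hk]⟩
      have hSl : Sl (D : ℤ) 1 G ∧ Sl (D : ℤ) (-1) G := by
        constructor <;> intro k b hb <;> simp only [hG, coeff_mk] at hb <;>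
          split_ifs at hb with hk <;> first
            | (have := hp' k hk.2 hk.1 b; rw [Finset.mem_Icc] at this
               by_contra hc; exact hb (this (by omega)))
            | simp at hb
      have hco : ∀ a ∉ Finset.Icc (-(D * N : ℤ)) (D * N), coef (fun ψ => (jet h N ψ : ℂ)) a = 0 := by
        intro a ha
        rw [Finset.mem_Icc] at ha
        have hDN : D ≤ D * N := Nat.le_mul_of_pos_right D hN
        have hn : D ≤ a.natAbs := by
          have : (D : ℤ) ≤ D * N := by exact_mod_cast hDN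
          omega
        have hη' : Real.pi / (a.natAbs : ℝ) < η := by
          refine lt_of_le_of_lt (div_le_div_of_nonneg_left Real.pi_pos.le
            (by exact_mod_cast (show 0 < D by omega)) (by exact_mod_cast hn)) hDη
        have e : (fun ψ => (jet h N ψ : ℂ)) = gap h N G := funext fun ψ => by simp [gap, hG]
        rw [e]
        refine jet_coef hs hev hKG (hD.trans hn) (Int.natAbs_eq a) hη' ?_
        by_contra hne
        have h1 := hSl.1.restA (Sl.wA hSl.1 hKG.zero _) _ N a hne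
        have h2 := hSl.2.restA (Sl.wA hSl.2 hKG.zero _) _ N a hne
        omega
      obtain ⟨q, hq, hq'⟩ := trig_of_coef
        (Complex.continuous_ofReal.comp (contDiff_jet hs N).continuous)
        (fun ψ => by
          simp only [Function.comp_apply,
            jet_periodic hs (hev.mono fun t ht => ht.1.periodic) N ψ])
        (Finset.Icc (-(D * N : ℤ)) (D * N)) hco
      exact ⟨q, hq, hq'⟩
  choose p hp hp' using key
  refine ⟨PowerSeries.mk fun k => if hk : 0 < k then p k hk else 0, fun N hN =>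
    ⟨by simp, hN, h0, fun k hk _ ψ => ?_⟩⟩
  rw [hp k hk ψ]
  simp [hk]

omit hs hev in
theorem full_conj {F : Jet} (hall : ∀ N, 0 < N → Known h N F) (k : ℕ) (a : ℤ) :
    (coeff k F).coeff (-a) = conj ((coeff k F).coeff a) := by
  rcases Nat.eq_zero_or_pos k with rfl | hk
  · simp [(hall 1 one_pos).zero]
  have e : bar (coeff k F) = coeff k F := evT_ext fun τ => by
    rw [evT_bar, ← (hall (k + 1) k.succ_pos).eq k hk k.lt_succ_self τ, Complex.conj_ofReal]
  have := congrArg (fun p : Trig => p.coeff (-a)) e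
  simp only [coeff_bar, neg_neg] at this
  exact this.symm

/-- No mode is steeper than a given one if that one is positive and the steeper ones exceed two. -/
theorem no_steep (hη : 0 < η) {F : Jet} (hall : ∀ N, 0 < N → Known h N F) {K₁ : ℕ} (hK₁ : 0 < K₁)
    {a₁ : ℤ} (ha₁ : 0 < a₁) (hne : (coeff K₁ F).coeff a₁ ≠ 0)
    (h3 : ∀ (k : ℕ) (a : ℤ), 0 < k → (coeff k F).coeff a ≠ 0 → a₁ * k ≤ a * K₁ → 3 ≤ a) :
    False := by
  classical
  obtain ⟨D, hD, hDη⟩ : ∃ D : ℕ, 2 ≤ D ∧ ∀ n : ℕ, D ≤ n → Real.pi / n < η := by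
    obtain ⟨D, hD⟩ := exists_nat_gt (Real.pi / η)
    refine ⟨D + 2, by omega, fun n hn => ?_⟩
    rw [div_lt_iff₀ hη] at hD
    have : ((D : ℝ) + 2) ≤ n := by exact_mod_cast hn
    rw [div_lt_iff₀ (by linarith [show (0 : ℝ) ≤ D from Nat.cast_nonneg D])]
    nlinarith
  have hF0 : coeff 0 F = 0 := (hall 1 one_pos).zero
  set Q := D * K₁
  have hKQ : K₁ ≤ Q := Nat.le_mul_of_pos_left K₁ (by omega)
  set P : Finset (ℕ × ℤ) :=
    (Finset.Icc 1 Q).biUnion fun k => (coeff k F).coeff.support.image (Prod.mk k) with hP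
  have hmem : ∀ k a, (k, a) ∈ P ↔ (1 ≤ k ∧ k ≤ Q) ∧ (coeff k F).coeff a ≠ 0 := fun k a => by
    simp [hP, Finsupp.mem_support_iff]
  obtain ⟨⟨k', a'⟩, hk', hmax⟩ := P.exists_max_image (fun q => (q.2 : ℚ) / q.1)
    ⟨(K₁, a₁), (hmem _ _).2 ⟨⟨hK₁, hKQ⟩, hne⟩⟩
  obtain ⟨⟨hk'1, hk'Q⟩, hk'ne⟩ := (hmem _ _).1 hk'
  have hratio : ∀ k a, (k, a) ∈ P → a * (k' : ℤ) ≤ a' * k := fun k a hka => by
    have h1 := hmax _ hka
    have hk : (0 : ℚ) < k := by exact_mod_cast ((hmem _ _).1 hka).1.1
    simp only at h1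
    rw [div_le_div_iff₀ hk (by exact_mod_cast hk'1)] at h1
    exact_mod_cast h1
  have hex : ∃ k : ℕ, 0 < k ∧ ∃ a : ℤ, (coeff k F).coeff a ≠ 0 ∧ a * (k' : ℤ) = a' * k :=
    ⟨k', hk'1, a', hk'ne, rfl⟩
  set k₀ := Nat.find hex with hk₀
  obtain ⟨hk₀pos, J, hJne, hJ⟩ := Nat.find_spec hex
  rw [← hk₀] at hk₀pos hJne hJ
  have hk₀' : k₀ ≤ k' := Nat.find_min' hex ⟨hk'1, a', hk'ne, rfl⟩
  have hlow : a₁ * k₀ ≤ J * K₁ := by
    have h1 := hratio K₁ a₁ ((hmem _ _).2 ⟨⟨hK₁, hKQ⟩, hne⟩)
    have h2 : (k' : ℤ) * (a₁ * k₀) ≤ k' * (J * K₁) := by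
      have := mul_le_mul_of_nonneg_right h1 (show (0 : ℤ) ≤ k₀ by positivity)
      calc (k' : ℤ) * (a₁ * k₀) = a₁ * k' * k₀ := by ring
        _ ≤ a' * K₁ * k₀ := this
        _ = a' * k₀ * K₁ := by ring
        _ = J * k' * K₁ := by rw [hJ]
        _ = k' * (J * K₁) := by ring
    exact le_of_mul_le_mul_left h2 (by exact_mod_cast hk'1)
  have hJ3 : 3 ≤ J := h3 k₀ J hk₀pos hJne hlow
  obtain ⟨J, rfl⟩ := Int.eq_ofNat_of_zero_le (show 0 ≤ J by omega)
  have hSl : Sl (J : ℤ) k₀ F := by
    intro k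
    induction k using Nat.strong_induction_on with
    | _ k ih =>
      intro a hka
      rcases Nat.eq_zero_or_pos k with rfl | hk
      · simp [hF0] at hka
      rcases le_or_gt k Q with hkQ | hkQ
      · have h1 := hratio k a ((hmem _ _).2 ⟨⟨hk, hkQ⟩, hka⟩)
        have h2 : (k' : ℤ) * (a * k₀) ≤ k' * ((J : ℤ) * k) := by
          have := mul_le_mul_of_nonneg_right h1 (show (0 : ℤ) ≤ k₀ by positivity)
          calc (k' : ℤ) * (a * k₀) = a * k' * k₀ := by ring
            _ ≤ a' * k * k₀ := this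
            _ = a' * k₀ * k := by ring
            _ = J * k' * k := by rw [hJ]
            _ = k' * ((J : ℤ) * k) := by ring
        exact le_of_mul_le_mul_left h2 (by exact_mod_cast hk'1)
      by_contra hlt
      push Not at hlt
      have h1 : a₁ * k < a * K₁ := by
        refine lt_of_mul_lt_mul_right ?_ (show (0 : ℤ) ≤ k₀ by positivity)
        calc a₁ * k * k₀ = a₁ * k₀ * k := by ring
          _ ≤ J * K₁ * k := mul_le_mul_of_nonneg_right hlow (by positivity)
          _ = J * k * K₁ := by ring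
          _ < a * k₀ * K₁ := mul_lt_mul_of_pos_right hlt (by exact_mod_cast hK₁)
          _ = a * K₁ * k₀ := by ring
      have h2 : (k : ℤ) < a * K₁ := lt_of_le_of_lt (le_mul_of_one_le_left (by positivity) ha₁) h1
      have h3 : (D : ℤ) < a := by
        refine lt_of_mul_lt_mul_right (lt_trans ?_ h2) (show (0 : ℤ) ≤ K₁ by positivity)
        exact_mod_cast hkQ
      obtain ⟨n, rfl⟩ := Int.eq_ofNat_of_zero_le (show 0 ≤ a by omega)
      exact hka (mode_zero hs hev hall hk ih hlt (n := n) (by omega) (Or.inl rfl)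
        (hDη n (by omega)))
  have hJ' : (3 : ℕ) ≤ J := by exact_mod_cast hJ3
  have hzero : ∀ b < J, coeff b (lead J k₀ F) = 0 := fun b hb => by
    by_contra hb0
    by_cases hd : ∃ k, b * k₀ = J * k
    · obtain ⟨k, hk⟩ := hd
      rw [lead_coeff (by omega) hk] at hb0
      have hkk : k < k₀ := by
        by_contra hc
        push Not at hc
        have h1 : J * k₀ ≤ b * k₀ := hk ▸ Nat.mul_le_mul_left J hc
        have := Nat.le_of_mul_le_mul_right h1 hk₀pos
        omega
      have hkpos : 0 < k := Nat.pos_of_ne_zero fun e => by subst e; simp [hF0] at hb0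
      refine Nat.find_min hex hkk ⟨hkpos, b, hb0, ?_⟩
      have e : (b : ℤ) * k₀ = J * k := by exact_mod_cast hk
      refine mul_right_cancel₀ (show (k₀ : ℤ) ≠ 0 by omega) ?_
      linear_combination (k' : ℤ) * e + (k : ℤ) * hJ
    · push Not at hd
      exact hb0 (lead_coeff_eq_zero hd)
  refine no_orbits hJ' hzero (by rw [lead_coeff (by omega) rfl]; exact hJne)
    (D * (2 * J + 1)) fun n hn m hm => ?_
  have hm2 : m ≤ 2 * J + 1 := by omega
  have hm0 : 0 < m := by omega
  have hDm : D * m ≤ n := (Nat.mul_le_mul_left D hm2).trans hn.le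
  have hmn : m < n := by
    have : 2 * m ≤ D * m := Nat.mul_le_mul_right m hD
    omega
  have hηm : Real.pi * m / n < η := by
    refine lt_of_le_of_lt ?_ (hDη D le_rfl)
    have hn' : (0 : ℝ) < n := by exact_mod_cast (show 0 < n by omega)
    rw [div_le_div_iff₀ hn' (by exact_mod_cast (show 0 < D by omega)), mul_assoc]
    exact mul_le_mul_of_nonneg_left (by rw [mul_comm]; exact_mod_cast hDm) Real.pi_pos.le
  obtain ⟨h1, h2⟩ := orbit_lead (n := n) (by omega) hk₀pos hSl hF0 hzero (xr n m)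
    (fun K a hl =>
      ((flat_of_known hs hev hm0 hmn hηm (K + 1) (hall _ K.succ_pos)) K K.lt_succ_self).2 a hl)
    fun K => action_modes hs hev hm0 hmn hηm hall K (by omega) (by
      rw [show (2 * (n : ℤ)) = ((2 * n : ℕ) : ℤ) by push_cast; ring, zpow_natCast,
        xr_pow (by omega)])
  exact ⟨_, h1, xr_eq_rot n m ▸ h2⟩

/-- Every jet of order `k` has its modes within `2 k`. -/
theorem degree_le (hη : 0 < η) {F : Jet} (hall : ∀ N, 0 < N → Known h N F) (k : ℕ) (a : ℤ)
    (ha : (coeff k F).coeff a ≠ 0) : a.natAbs ≤ 2 * k := by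
  rcases Nat.eq_zero_or_pos k with rfl | hk
  · simp [(hall 1 one_pos).zero] at ha
  by_contra hlt
  push Not at hlt
  have ha' : (coeff k F).coeff (a.natAbs : ℤ) ≠ 0 := by
    rcases Int.natAbs_eq a with e | e <;> rw [e] at ha
    · exact ha
    · rwa [full_conj hall, map_ne_zero] at ha
  refine no_steep hs hev hη hall hk (a₁ := a.natAbs) (by omega) ha' fun l b hl _ hle => ?_
  have h1 : 2 * (k : ℤ) * l < b * k := by
    refine lt_of_lt_of_le ?_ hle
    exact mul_lt_mul_of_pos_right (by exact_mod_cast hlt) (by exact_mod_cast hl)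
  have h2 : 2 * (l : ℤ) < b := by
    refine lt_of_mul_lt_mul_right (lt_of_eq_of_lt (by ring) h1) (show (0 : ℤ) ≤ k by positivity)
  omega

/-- With a symmetry of order at least three there is no mode at all. -/
theorem symmetric_const (hη : 0 < η) {F : Jet} (hall : ∀ N, 0 < N → Known h N F) {s : ℕ}
    (hs3 : 3 ≤ s) (hper : ∀ᶠ t in 𝓝 0, Function.Periodic (h t) (2 * Real.pi / s)) (k : ℕ) (a : ℤ)
    (ha : (coeff k F).coeff a ≠ 0) : a = 0 := by
  by_contra ha0
  have hdiv : ∀ (l : ℕ) (b : ℤ), (coeff l F).coeff b ≠ 0 → (s : ℤ) ∣ b := fun l b hb => by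
    rcases Nat.eq_zero_or_pos l with rfl | hl
    · simp [(hall 1 one_pos).zero] at hb
    set y : ℂˣ := Units.mk0 (Complex.exp (((2 * Real.pi / s : ℝ) : ℂ) * Complex.I))
      (Complex.exp_ne_zero _) with hy
    have e : shT y (coeff l F) = coeff l F := evT_ext fun τ => by
      have h1 : evT τ (shT y (coeff l F)) = evT (τ + 2 * Real.pi / s) (coeff l F) := by
        simp only [evT_apply (τ + 2 * Real.pi / s)]
        rw [shT, AddMonoidAlgebra.lift_apply, map_finsuppSum]
        refine Finsupp.sum_congr fun c _ => ?_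
        simp only [map_smul, smul_eq_mul, MonoidHom.coe_mk, OneHom.coe_mk, toAdd_ofAdd, evT_mode,
          Units.val_zpow_eq_zpow_val, hy, Units.val_mk0, ← Complex.exp_int_mul, ← Complex.exp_add]
        congr 2
        push_cast
        ring
      rw [h1, ← (hall (l + 1) l.succ_pos).eq l hl l.lt_succ_self,
        jet_periodic hs hper l τ, (hall (l + 1) l.succ_pos).eq l hl l.lt_succ_self]
    have h2 := congrArg (fun p : Trig => p.coeff b) e
    simp only [coeff_shT, mul_eq_right₀ hb] at h2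
    rw [hy, Units.val_zpow_eq_zpow_val, Units.val_mk0, ← Complex.exp_int_mul,
      Complex.exp_eq_one_iff] at h2
    obtain ⟨c, hc⟩ := h2
    refine ⟨c, ?_⟩
    have hs0 : (s : ℂ) ≠ 0 := by exact_mod_cast (show s ≠ 0 by omega)
    push_cast at hc
    field_simp at hc
    exact_mod_cast hc
  have hk : 0 < k := Nat.pos_of_ne_zero fun e => by
    subst e; simp [(hall 1 one_pos).zero] at ha
  have ha' : (coeff k F).coeff (a.natAbs : ℤ) ≠ 0 := by
    rcases Int.natAbs_eq a with e | e <;> rw [e] at ha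
    · exact ha
    · rwa [full_conj hall, map_ne_zero] at ha
  refine no_steep hs hev hη hall hk (a₁ := a.natAbs) (by omega) ha' fun l b hl hb hle => ?_
  have hb0 : 0 < b := by
    refine pos_of_mul_pos_left (lt_of_lt_of_le ?_ hle) (show (0 : ℤ) ≤ k by positivity)
    exact mul_pos (by omega) (by exact_mod_cast hl)
  have := Int.le_of_dvd hb0 (hdiv l b hb)
  omega

end

end Vale.Agent.P097.Rigid
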