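import Vale.Agent.P097.Rigid.Chiral

/-!
# Deformations as series of trigonometric polynomials

A coefficient of a formal deformation is a finitely supported family of modes. The first non-zero
terms along the steepest slope form a power series in one variable, where `no_orbits` applies.
-/

namespace Vale.Agent.P097.Rigid

open Finset PowerSeries

noncomputable section

/-- Trigonometric polynomials, by modes. -/
abbrev Trig : Type := AddMonoidAlgebra ℂ ℤ

/-- The single mode `a`. -/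
def mode (a : ℤ) (r : ℂ) : Trig := AddMonoidAlgebra.single a r

/-- The values of a trigonometric polynomial. -/
def evT (τ : ℝ) : Trig →ₐ[ℂ] ℂ :=
  AddMonoidAlgebra.lift ℂ ℂ ℤ
    { toFun := fun a => Complex.exp (a.toAdd * ((τ : ℂ) * Complex.I))
      map_one' := by simp
      map_mul' := fun a b => by rw [toAdd_mul, Int.cast_add, add_mul, Complex.exp_add] }

/-- The shift which multiplies the mode `a` by `x ^ a`. -/
def shT (x : ℂˣ) : Trig →ₐ[ℂ] Trig :=
  AddMonoidAlgebra.lift ℂ Trig ℤ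
    { toFun := fun a => mode a.toAdd ((x ^ a.toAdd : ℂˣ) : ℂ)
      map_one' := by
        rw [toAdd_one, zpow_zero, Units.val_one, mode, AddMonoidAlgebra.one_def]
      map_mul' := fun a b => by
        rw [toAdd_mul, zpow_add, Units.val_mul, mode, mode, mode,
          AddMonoidAlgebra.single_mul_single] }

/-- The mode `a` multiplied by `g a`. -/
def scale (g : ℤ → ℂ) (f : Trig) : Trig := f.coeff.sum fun a r => mode a (g a * r)

theorem coeff_scale (g : ℤ → ℂ) (f : Trig) (a : ℤ) : (scale g f).coeff a = g a * f.coeff a := by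
  classical
  simp only [scale, mode, Finsupp.sum, AddMonoidAlgebra.coeff_sum, Finsupp.finsetSum_apply,
    AddMonoidAlgebra.coeff_single, Finsupp.single_apply]
  rw [sum_ite_eq' f.coeff.support a fun b => g b * f.coeff b]
  split_ifs with h
  · rfl
  · rw [Finsupp.notMem_support_iff.1 h, mul_zero]

theorem coeff_shT (x : ℂˣ) (f : Trig) (a : ℤ) :
    (shT x f).coeff a = ((x ^ a : ℂˣ) : ℂ) * f.coeff a := by
  have e : shT x f = scale (fun b => ((x ^ b : ℂˣ) : ℂ)) f := by
    rw [shT, AddMonoidAlgebra.lift_apply, scale]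
    refine Finsupp.sum_congr fun b _ => ?_
    simp only [mode, AddMonoidAlgebra.smul_single, smul_eq_mul, MonoidHom.coe_mk, OneHom.coe_mk,
      toAdd_ofAdd]
    rw [mul_comm]
  rw [e, coeff_scale]

/-- The formal series. -/
abbrev Jet : Type := PowerSeries Trig

/-- The shift of a formal series. -/
def shS (x : ℂˣ) : Jet →ₐ[ℂ] Jet := PowerSeries.mapAlgHom (shT x)

theorem coeff_shS (x : ℂˣ) (f : Jet) (k : ℕ) : coeff k (shS x f) = shT x (coeff k f) :=
  PowerSeries.coeff_map _ k f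

/-- `F` composed with the shifted argument: `∑ F b * x ^ b * z ^ b * exp (b T)`. -/
def comp (F : Jet) (x : ℂˣ) (T : Jet) : Jet :=
  PowerSeries.mk fun K => ∑ k ∈ range (K + 1), (coeff k F).coeff.sum fun b r =>
    mode b (r * ((x ^ b : ℂˣ) : ℂ)) * coeff (K - k) (ser (expC (b : ℂ)) T)

/-- The derivative over `I`, mode by mode. -/
def dJ (F : Jet) : Jet := PowerSeries.mk fun k => scale (fun a => (a : ℂ)) (coeff k F)

/-- The displacement difference across a chord. -/
def dA (x : ℂˣ) (w : Jet) : Jet := shS (x ^ 2) w - w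

/-- The displacement sum across a chord. -/
def tA (x : ℂˣ) (w : Jet) : Jet := shS (x ^ 2) w + w

/-- The sine of half the next chord times `I`; the previous chord is at `x⁻¹`, with a minus sign. -/
def snA (x : ℂˣ) (w : Jet) : Jet :=
  Sh (x : ℂ) • ser chC (dA x w) + Ch (x : ℂ) • (dA x w + ser shC' (dA x w))

/-- The cosine of half the next chord; the previous chord is at `x⁻¹`. -/
def csA (x : ℂˣ) (w : Jet) : Jet :=
  Ch (x : ℂ) • ser chC (dA x w) + Sh (x : ℂ) • (dA x w + ser shC' (dA x w))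

/-- The equation less its part linear in the displacement. -/
def restA (F : Jet) (x : ℂˣ) (w : Jet) : Jet :=
  (-Ch (x : ℂ)) • (ser chC (dA x w) - ser chC (dA x⁻¹ w))
    - Sh (x : ℂ) • (ser shC' (dA x w) + ser shC' (dA x⁻¹ w))
    + ((comp (dJ F) x (tA x w) * snA x w - comp (dJ F) x⁻¹ (tA x⁻¹ w) * snA x⁻¹ w)
      - (comp F x (tA x w) * csA x w - comp F x⁻¹ (tA x⁻¹ w) * csA x⁻¹ w))

/-- The action less that of the disc. -/
def actA (F : Jet) (x : ℂˣ) (w : Jet) : Jet :=
  Sh (x : ℂ) • ser chC' (dA x w) + Ch (x : ℂ) • (dA x w + ser shC' (dA x w))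
    + comp F x (tA x w) * snA x w

/-- The second difference of the mode `a`. -/
def lap (x : ℂˣ) (a : ℤ) : ℂ :=
  Sh (x : ℂ) * (((x ^ a : ℂˣ) : ℂ) - ((x⁻¹ ^ a : ℂˣ) : ℂ)) ^ 2

/-- The displacement solving the equation order by order. -/
def wTerm (F : Jet) (x : ℂˣ) (k : ℕ) : Trig :=
  scale (fun a => (lap x a)⁻¹)
    (coeff k (restA F x (PowerSeries.mk fun i => if _h : i < k then wTerm F x i else 0)))
termination_by k

/-- The formal periodic orbit. -/
def wA (F : Jet) (x : ℂˣ) : Jet := PowerSeries.mk (wTerm F x)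

/-! ### Agreement below an order -/

/-- Agreement below the order `k`. -/
def Below (k : ℕ) (f g : Jet) : Prop := (PowerSeries.X : Jet) ^ k ∣ f - g

theorem Below.coeff {k i : ℕ} {f g : Jet} (h : Below k f g) (hi : i < k) :
    PowerSeries.coeff i f = PowerSeries.coeff i g := by
  rw [← sub_eq_zero, ← map_sub]
  exact X_pow_dvd_iff.1 h i hi

theorem below_of_coeff {k : ℕ} {f g : Jet}
    (h : ∀ i < k, PowerSeries.coeff i f = PowerSeries.coeff i g) : Below k f g :=
  X_pow_dvd_iff.2 fun i hi => by rw [map_sub, h i hi, sub_self]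

theorem Below.add {k : ℕ} {f g f' g' : Jet} (h : Below k f g) (h' : Below k f' g') :
    Below k (f + f') (g + g') := by
  rw [Below, show f + f' - (g + g') = (f - g) + (f' - g') by ring]
  exact dvd_add h h'

theorem Below.sub {k : ℕ} {f g f' g' : Jet} (h : Below k f g) (h' : Below k f' g') :
    Below k (f - f') (g - g') := by
  rw [Below, show f - f' - (g - g') = (f - g) - (f' - g') by ring]
  exact dvd_sub h h'

theorem Below.smul {k : ℕ} {f g : Jet} (h : Below k f g) (r : ℂ) : Below k (r • f) (r • g) := by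
  rw [Below, ← smul_sub, Algebra.smul_def]
  exact h.mul_left _

theorem Below.shS {k : ℕ} {f g : Jet} (h : Below k f g) (x : ℂˣ) :
    Below k (shS x f) (shS x g) :=
  below_of_coeff fun i hi => by rw [coeff_shS, coeff_shS, h.coeff hi]

theorem ser_below {k : ℕ} {f g : Jet} (h : Below k f g) (c : ℕ → ℂ) :
    Below k (ser c f) (ser c g) :=
  below_of_coeff fun i hi => by
    simp only [ser, coeff_mk]
    refine sum_congr rfl fun j _ => ?_
    rw [(show Below k (f ^ j) (g ^ j) from h.trans (sub_dvd_pow_sub_pow f g j)).coeff hi]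

theorem ser_below_succ {k : ℕ} {f g : Jet} (h : Below k f g) (hf : coeff 0 f = 0)
    (hg : coeff 0 g = 0) {c : ℕ → ℂ} (hc : c 1 = 0) : Below (k + 1) (ser c f) (ser c g) :=
  below_of_coeff fun i hi => by
    simp only [ser, coeff_mk]
    refine sum_congr rfl fun j _ => ?_
    rcases eq_or_ne j 1 with rfl | hj
    · simp [hc]
    congr 1
    refine (show Below (k + 1) (f ^ j) (g ^ j) from ?_).coeff hi
    rcases Nat.eq_zero_or_pos j with rfl | hj0
    · simp [Below]
    rw [Below, pow_succ, ← (Commute.all f g).geom_sum₂_mul, mul_comm]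
    refine mul_dvd_mul ?_ h
    refine dvd_sum fun l hl => ?_
    rw [mem_range] at hl
    rcases Nat.eq_zero_or_pos l with rfl | hl0
    · exact dvd_mul_of_dvd_right (dvd_pow (X_dvd_iff.2 (by simpa using hg)) (by omega)) _
    · exact dvd_mul_of_dvd_left (dvd_pow (X_dvd_iff.2 (by simpa using hf)) hl0.ne') _

theorem mul_below_succ {k : ℕ} {A B A' B' : Jet} (hA : Below (k + 1) A A')
    (hB : Below k B B') (hA0 : coeff 0 A' = 0) : Below (k + 1) (A * B) (A' * B') := by
  rw [Below, show A * B - A' * B' = (A - A') * B + A' * (B - B') by ring]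
  refine dvd_add (dvd_mul_of_dvd_left hA _) ?_
  rw [pow_succ, mul_comm]
  exact mul_dvd_mul (X_dvd_iff.2 (by simpa using hA0)) hB

theorem coeff_zero_comp {F : Jet} (hF : coeff 0 F = 0) (x : ℂˣ) (T : Jet) :
    coeff 0 (comp F x T) = 0 := by
  simp [comp, hF, AddMonoidAlgebra.coeff_zero]

theorem comp_below {F : Jet} (hF : coeff 0 F = 0) (x : ℂˣ) {k : ℕ} {T T' : Jet}
    (h : Below k T T') : Below (k + 1) (comp F x T) (comp F x T') :=
  below_of_coeff fun K hK => by
    simp only [comp, coeff_mk]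
    refine sum_congr rfl fun l hl => ?_
    rcases Nat.eq_zero_or_pos l with rfl | hl0
    · simp [hF, AddMonoidAlgebra.coeff_zero]
    refine Finsupp.sum_congr fun b _ => ?_
    rw [mem_range] at hl
    rw [(ser_below h (expC (b : ℂ))).coeff (show K - l < k by omega)]

theorem coeff_zero_dJ {F : Jet} (hF : coeff 0 F = 0) : coeff 0 (dJ F) = 0 := by
  simp [dJ, hF, scale, AddMonoidAlgebra.coeff_zero]

theorem coeff_zero_restA {F : Jet} (hF : coeff 0 F = 0) (x : ℂˣ) {w : Jet} (hw : coeff 0 w = 0) :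
    coeff 0 (restA F x w) = 0 := by
  have h0 : ∀ y : ℂˣ, coeff 0 (dA y w) = 0 := fun y => by
    rw [dA, map_sub, coeff_shS, hw, map_zero, sub_zero]
  simp [-coeff_zero_eq_constantCoeff, restA, coeff_mul, coeff_zero_comp hF,
    coeff_zero_comp (coeff_zero_dJ hF), coeff_zero_ser, shC']

/-- The equation at order `k` only sees the displacement below `k`. -/
theorem restA_congr {F : Jet} (hF : coeff 0 F = 0) (x : ℂˣ) {k : ℕ} {w w' : Jet}
    (h : Below k w w') (hw : coeff 0 w = 0) (hw' : coeff 0 w' = 0) :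
    Below (k + 1) (restA F x w) (restA F x w') := by
  have hd : ∀ y : ℂˣ, Below k (dA y w) (dA y w') := fun y => (h.shS _).sub h
  have ht : ∀ y : ℂˣ, Below k (tA y w) (tA y w') := fun y => (h.shS _).add h
  have h0 : ∀ (y : ℂˣ) {u : Jet}, coeff 0 u = 0 → coeff 0 (dA y u) = 0 := fun y u hu => by
    rw [dA, map_sub, coeff_shS, hu, map_zero, sub_zero]
  have hch : ∀ y : ℂˣ, Below (k + 1) (ser chC (dA y w)) (ser chC (dA y w')) := fun y =>
    ser_below_succ (hd y) (h0 y hw) (h0 y hw') (by simp [chC])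
  have hsh : ∀ y : ℂˣ, Below (k + 1) (ser shC' (dA y w)) (ser shC' (dA y w')) := fun y =>
    ser_below_succ (hd y) (h0 y hw) (h0 y hw') (by simp [shC'])
  have hsn : ∀ y : ℂˣ, Below k (snA y w) (snA y w') := fun y =>
    ((ser_below (hd y) _).smul _).add (((hd y).add (ser_below (hd y) _)).smul _)
  have hcs : ∀ y : ℂˣ, Below k (csA y w) (csA y w') := fun y =>
    ((ser_below (hd y) _).smul _).add (((hd y).add (ser_below (hd y) _)).smul _)
  have hm : ∀ {G : Jet}, coeff 0 G = 0 → ∀ (y : ℂˣ) {B B' : Jet}, Below k B B' →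
      Below (k + 1) (comp G y (tA y w) * B) (comp G y (tA y w') * B') := fun hG y _ _ hB =>
    mul_below_succ (comp_below hG y (ht y)) hB (coeff_zero_comp hG y _)
  exact ((((hch x).sub (hch x⁻¹)).smul _).sub (((hsh x).add (hsh x⁻¹)).smul _)).add
    (((hm (coeff_zero_dJ hF) x (hsn x)).sub (hm (coeff_zero_dJ hF) x⁻¹ (hsn x⁻¹))).sub
      ((hm hF x (hcs x)).sub (hm hF x⁻¹ (hcs x⁻¹))))

theorem wA_zero {F : Jet} (hF : coeff 0 F = 0) (x : ℂˣ) : coeff 0 (wA F x) = 0 := by
  rw [wA, coeff_mk, wTerm]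
  have e : (PowerSeries.mk fun i => if _h : i < 0 then wTerm F x i else 0) = (0 : Jet) := by
    ext i; simp
  have : coeff 0 (restA F x (0 : Jet)) = 0 := by
    have hd : ∀ y : ℂˣ, dA y (0 : Jet) = 0 := fun y => by simp [dA]
    simp [-coeff_zero_eq_constantCoeff, restA, hd, coeff_zero_ser, coeff_mul, coeff_zero_comp hF,
      coeff_zero_comp (coeff_zero_dJ hF), shC']
  rw [e, this]
  simp [scale, AddMonoidAlgebra.coeff_zero]

theorem coeff_wA {F : Jet} (hF : coeff 0 F = 0) (x : ℂˣ) (k : ℕ) :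
    coeff k (wA F x) = scale (fun a => (lap x a)⁻¹) (coeff k (restA F x (wA F x))) := by
  rcases Nat.eq_zero_or_pos k with rfl | hk
  · have e : coeff 0 (restA F x (wA F x)) = 0 := by
      have h0 : ∀ y : ℂˣ, coeff 0 (dA y (wA F x)) = 0 := fun y => by
        rw [dA, map_sub, coeff_shS, wA_zero hF, map_zero, sub_zero]
      simp [-coeff_zero_eq_constantCoeff, restA, coeff_mul, coeff_zero_comp hF,
        coeff_zero_comp (coeff_zero_dJ hF), coeff_zero_ser, shC']
    rw [wA_zero hF, e]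
    simp [scale, AddMonoidAlgebra.coeff_zero]
  · have h : Below k (PowerSeries.mk fun i => if _h : i < k then wTerm F x i else 0) (wA F x) :=
      below_of_coeff fun i hi => by simp [wA, hi]
    rw [wA, coeff_mk, wTerm, ← wA,
      (restA_congr hF x h (by simpa [hk, wA] using wA_zero hF x) (wA_zero hF x)).coeff k.lt_succ_self]

/-! ### Slopes -/

/-- Every mode `a` at order `k` has `a * k₀ ≤ J * k`. -/
def Sl (J k₀ : ℤ) (f : Jet) : Prop :=
  ∀ (k : ℕ) (a : ℤ), (coeff k f).coeff a ≠ 0 → a * k₀ ≤ J * k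

namespace Sl

variable {J k₀ : ℤ} {f g : Jet}

theorem zero : Sl J k₀ 0 := fun k a h => absurd (by simp [AddMonoidAlgebra.coeff_zero]) h

theorem one : Sl J k₀ 1 := fun k a h => by
  rw [PowerSeries.coeff_one] at h
  split_ifs at h with hk
  · have ha : a = 0 := by
      by_contra hne
      exact h (by rw [AddMonoidAlgebra.one_def, AddMonoidAlgebra.coeff_single, Finsupp.single_apply,
        if_neg (Ne.symm hne)])
    simp [ha, hk]
  · simp [AddMonoidAlgebra.coeff_zero] at h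

theorem add (hf : Sl J k₀ f) (hg : Sl J k₀ g) : Sl J k₀ (f + g) := fun k a h => by
  by_cases h1 : (PowerSeries.coeff k f).coeff a = 0
  · exact hg k a fun h2 => h (by simp [AddMonoidAlgebra.coeff_add, h1, h2])
  · exact hf k a h1

theorem smul (hf : Sl J k₀ f) (r : ℂ) : Sl J k₀ (r • f) := fun k a h =>
  hf k a fun h1 => h (by simp [AddMonoidAlgebra.coeff_smul, h1])

theorem neg (hf : Sl J k₀ f) : Sl J k₀ (-f) := by simpa using hf.smul (-1)

theorem sub (hf : Sl J k₀ f) (hg : Sl J k₀ g) : Sl J k₀ (f - g) := sub_eq_add_neg f g ▸ hf.add hg.neg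

theorem shS (hf : Sl J k₀ f) (x : ℂˣ) : Sl J k₀ (shS x f) := fun k a h => hf k a fun h1 => h (by
  rw [coeff_shS, coeff_shT, h1, mul_zero])

theorem mul (hf : Sl J k₀ f) (hg : Sl J k₀ g) : Sl J k₀ (f * g) := fun k a h => by
  classical
  rw [PowerSeries.coeff_mul, AddMonoidAlgebra.coeff_sum, Finsupp.finsetSum_apply] at h
  obtain ⟨⟨i, j⟩, hij, h1⟩ := exists_ne_zero_of_sum_ne_zero h
  rw [AddMonoidAlgebra.coeff_mul] at h1
  simp only [Finsupp.sum] at h1
  obtain ⟨b, -, h2⟩ := exists_ne_zero_of_sum_ne_zero h1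
  obtain ⟨c, -, h3⟩ := exists_ne_zero_of_sum_ne_zero h2
  rw [HasAntidiagonal.mem_antidiagonal] at hij
  split_ifs at h3 with hbc
  · subst hbc hij
    have e1 := hf i b fun e => h3 (by simp [e])
    have e2 := hg j c fun e => h3 (by simp [e])
    push_cast
    linarith
  · exact absurd rfl h3

theorem pow (hf : Sl J k₀ f) : ∀ j : ℕ, Sl J k₀ (f ^ j)
  | 0 => by simpa using one
  | j + 1 => by rw [pow_succ]; exact (Sl.pow hf j).mul hf

theorem ser (hf : Sl J k₀ f) (c : ℕ → ℂ) : Sl J k₀ (ser c f) := fun k a h => by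
  rw [Rigid.ser, coeff_mk, AddMonoidAlgebra.coeff_sum, Finsupp.finsetSum_apply] at h
  obtain ⟨j, -, hj⟩ := exists_ne_zero_of_sum_ne_zero h
  refine hf.pow j k a fun e => hj ?_
  rw [← Algebra.smul_def]
  simp [AddMonoidAlgebra.coeff_smul, e]

theorem comp {F T : Jet} (hF : Sl J k₀ F) (hT : Sl J k₀ T) (x : ℂˣ) : Sl J k₀ (comp F x T) :=
  fun K a h => by
  classical
  rw [Rigid.comp, coeff_mk, AddMonoidAlgebra.coeff_sum, Finsupp.finsetSum_apply] at h
  obtain ⟨k, hk, h1⟩ := exists_ne_zero_of_sum_ne_zero h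
  rw [Finsupp.sum, AddMonoidAlgebra.coeff_sum, Finsupp.finsetSum_apply] at h1
  obtain ⟨b, hb, h2⟩ := exists_ne_zero_of_sum_ne_zero h1
  rw [mode, AddMonoidAlgebra.coeff_single_mul_eq_mul_coeff (a - b) fun c _ => ⟨fun e => by omega,
    fun e => by omega⟩] at h2
  have e1 := hF k b (Finsupp.mem_support_iff.1 hb)
  have e2 := hT.ser (expC (b : ℂ)) (K - k) (a - b) fun e => h2 (by simp [e])
  rw [mem_range] at hk
  rw [Nat.cast_sub (by omega)] at e2
  linarith

theorem dJ (hf : Sl J k₀ f) : Sl J k₀ (dJ f) := fun k a h => hf k a fun h1 => h (by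
  simp [Rigid.dJ, coeff_scale, h1])

theorem dA (hf : Sl J k₀ f) (x : ℂˣ) : Sl J k₀ (dA x f) := (hf.shS _).sub hf

theorem tA (hf : Sl J k₀ f) (x : ℂˣ) : Sl J k₀ (tA x f) := (hf.shS _).add hf

theorem snA (hf : Sl J k₀ f) (x : ℂˣ) : Sl J k₀ (snA x f) :=
  (((hf.dA x).ser _).smul _).add (((hf.dA x).add ((hf.dA x).ser _)).smul _)

theorem csA (hf : Sl J k₀ f) (x : ℂˣ) : Sl J k₀ (csA x f) :=
  (((hf.dA x).ser _).smul _).add (((hf.dA x).add ((hf.dA x).ser _)).smul _)

theorem restA {F : Jet} (hF : Sl J k₀ F) (hf : Sl J k₀ f) (x : ℂˣ) : Sl J k₀ (restA F x f) :=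
  (((((hf.dA x).ser _).sub ((hf.dA _).ser _)).smul _).sub
    ((((hf.dA x).ser _).add ((hf.dA _).ser _)).smul _)).add
    ((((hF.dJ.comp (hf.tA x) x).mul (hf.snA x)).sub
      ((hF.dJ.comp (hf.tA _) _).mul (hf.snA _))).sub
      (((hF.comp (hf.tA x) x).mul (hf.csA x)).sub ((hF.comp (hf.tA _) _).mul (hf.csA _))))

theorem actA {F : Jet} (hF : Sl J k₀ F) (hf : Sl J k₀ f) (x : ℂˣ) : Sl J k₀ (actA F x f) :=
  ((((hf.dA x).ser _).smul _).add (((hf.dA x).add ((hf.dA x).ser _)).smul _)).add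
    ((hF.comp (hf.tA x) x).mul (hf.snA x))

theorem wA {F : Jet} (hF : Sl J k₀ F) (hF0 : PowerSeries.coeff 0 F = 0) (x : ℂˣ) :
    Sl J k₀ (wA F x) := by
  suffices ∀ k, ∀ i < k, ∀ a, (PowerSeries.coeff i (Rigid.wA F x)).coeff a ≠ 0 →
      a * k₀ ≤ J * i from fun i a h => this (i + 1) i i.lt_succ_self a h
  intro k
  induction k with
  | zero => exact fun i hi => absurd hi i.not_lt_zero
  | succ k ih =>
    intro i hi a h
    rcases Nat.lt_succ_iff_lt_or_eq.1 hi with hik | rfl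
    · exact ih i hik a h
    set w' : Jet := PowerSeries.mk fun l => if l < i then PowerSeries.coeff l (Rigid.wA F x) else 0
    have hw' : Sl J k₀ w' := fun l b hb => by
      simp only [w', coeff_mk] at hb
      split_ifs at hb with hl
      · exact ih l hl b hb
      · simp [AddMonoidAlgebra.coeff_zero] at hb
    have hB : Below i w' (Rigid.wA F x) := below_of_coeff fun l hl => by simp [w', hl]
    rw [coeff_wA hF0, coeff_scale] at h
    rcases Nat.eq_zero_or_pos i with rfl | hi0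
    · rw [← coeff_scale (fun a => (lap x a)⁻¹), ← coeff_wA hF0, wA_zero hF0] at h
      simp [AddMonoidAlgebra.coeff_zero] at h
    refine hF.restA hw' x i a fun e => h ?_
    rw [← (restA_congr hF0 x hB (by simpa [w', hi0] using wA_zero hF0 x) (wA_zero hF0 x)).coeff
      i.lt_succ_self, e, mul_zero]

end Sl

/-! ### The steepest terms -/

/-- The series `∑ φ b * z ^ b * K b`. -/
def mix (φ : ℕ → ℂ) (K : ℕ → ℂ⟦X⟧) : ℂ⟦X⟧ :=
  PowerSeries.mk fun a => ∑ b ∈ range (a + 1), φ b * coeff (a - b) (K b)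

theorem mix_mul (φ : ℕ → ℂ) (K : ℕ → ℂ⟦X⟧) (g : ℂ⟦X⟧) :
    mix φ K * g = mix φ fun b => K b * g := by
  ext a
  have e : ∀ (L : ℕ → ℂ⟦X⟧) (c : ℕ), c ≤ a →
      coeff c (mix φ L) = coeff c (∑ b ∈ range (a + 1), C (φ b) * (X ^ b * L b)) := fun L c hc => by
    simp only [mix, coeff_mk, map_sum, coeff_C_mul, coeff_X_pow_mul', mul_ite, mul_zero]
    rw [← sum_filter]
    refine sum_congr ?_ fun _ _ => rfl
    ext b
    simp only [mem_filter, mem_range]
    omega
  rw [PowerSeries.coeff_mul, e (fun b => K b * g) a le_rfl]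
  rw [sum_congr rfl fun q hq => by rw [e K q.1 (by
    rw [HasAntidiagonal.mem_antidiagonal] at hq; omega)], ← PowerSeries.coeff_mul, sum_mul]
  exact congrArg _ (sum_congr rfl fun b _ => by ring)

theorem dp_inv (x : ℂ) (w : ℂ⟦X⟧) : dp x⁻¹ w = dm x w := rfl

theorem tp_inv (x : ℂ) (w : ℂ⟦X⟧) : tp x⁻¹ w = tm x w := rfl

theorem Sh_inv (x : ℂ) : Sh x⁻¹ = -Sh x := by simp only [Sh, inv_inv]; ring

theorem Ch_inv (x : ℂ) : Ch x⁻¹ = Ch x := by simp only [Ch, inv_inv]; ring

/-- The terms with `a * k₀ = J * k`, as a series in one variable. -/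
def lead (J k₀ : ℕ) (f : Jet) : ℂ⟦X⟧ :=
  PowerSeries.mk fun a => if J ∣ a * k₀ then (coeff (a * k₀ / J) f).coeff (a : ℤ) else 0

section lead

variable {J k₀ : ℕ} (hJ : 0 < J) (hk : 0 < k₀)

include hJ

theorem lead_coeff {f : Jet} {a k : ℕ} (h : a * k₀ = J * k) :
    coeff a (lead J k₀ f) = (coeff k f).coeff (a : ℤ) := by
  rw [lead, coeff_mk, if_pos ⟨k, h⟩, h, Nat.mul_div_cancel_left _ hJ]

omit hJ in
theorem lead_coeff_eq_zero {f : Jet} {a : ℕ} (h : ∀ k, a * k₀ ≠ J * k) :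
    coeff a (lead J k₀ f) = 0 := by
  rw [lead, coeff_mk, if_neg fun ⟨k, e⟩ => h k e]

omit hJ in
theorem lead_add (f g : Jet) : lead J k₀ (f + g) = lead J k₀ f + lead J k₀ g := by
  ext a
  simp only [lead, coeff_mk, map_add, AddMonoidAlgebra.coeff_add, Finsupp.add_apply]
  split_ifs <;> simp

omit hJ in
theorem lead_smul (r : ℂ) (f : Jet) : lead J k₀ (r • f) = C r * lead J k₀ f := by
  ext a
  simp only [lead, coeff_mk, coeff_C_mul]
  split_ifs <;> simp [AddMonoidAlgebra.coeff_smul]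

omit hJ in
theorem lead_sub (f g : Jet) : lead J k₀ (f - g) = lead J k₀ f - lead J k₀ g := by
  rw [sub_eq_add_neg, lead_add, show -g = (-1 : ℂ) • g by simp, lead_smul, map_neg, map_one]
  ring

omit hJ in
theorem lead_shS (x : ℂˣ) (f : Jet) : lead J k₀ (shS x f) = rescale (x : ℂ) (lead J k₀ f) := by
  ext a
  simp only [lead, coeff_mk, coeff_rescale, coeff_shS, coeff_shT]
  split_ifs <;> simp [zpow_natCast]

include hk

theorem lead_one : lead J k₀ (1 : Jet) = 1 := by
  ext a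
  rcases Nat.eq_zero_or_pos a with rfl | ha
  · rw [lead_coeff hJ (k := 0) (by simp)]
    rw [PowerSeries.coeff_one, if_pos rfl, PowerSeries.coeff_one, if_pos rfl,
      AddMonoidAlgebra.one_def, AddMonoidAlgebra.coeff_single, Finsupp.single_apply,
      if_pos (by simp)]
  · simp only [lead, coeff_mk, PowerSeries.coeff_one, if_neg ha.ne']
    split_ifs with h1 h2
    · have := Nat.div_mul_cancel h1
      rw [h2, zero_mul] at this
      exact absurd this (Nat.mul_pos ha hk).ne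
    · simp [AddMonoidAlgebra.coeff_zero]
    · rfl

theorem lead_mul {f g : Jet} (hf : Sl J k₀ f) (hg : Sl J k₀ g) :
    lead J k₀ (f * g) = lead J k₀ f * lead J k₀ g := by
  classical
  ext a
  by_cases hdiv : ∃ K, a * k₀ = J * K
  swap
  · push Not at hdiv
    rw [lead_coeff_eq_zero hdiv, PowerSeries.coeff_mul]
    refine (sum_eq_zero fun q hq => ?_).symm
    obtain ⟨b, c⟩ := q
    rw [HasAntidiagonal.mem_antidiagonal] at hq
    by_cases h1 : ∃ k, b * k₀ = J * k
    · obtain ⟨k, hk1⟩ := h1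
      rw [lead_coeff_eq_zero (a := c) fun l hl => hdiv (k + l) (by rw [← hq, mul_add, add_mul, hk1, hl]),
        mul_zero]
    · push Not at h1
      rw [lead_coeff_eq_zero h1, zero_mul]
  obtain ⟨K, hK⟩ := hdiv
  rw [lead_coeff hJ hK, PowerSeries.coeff_mul, AddMonoidAlgebra.coeff_sum, Finsupp.finsetSum_apply,
    PowerSeries.coeff_mul]
  have expand : ∀ q ∈ HasAntidiagonal.antidiagonal K,
      (coeff q.1 f * coeff q.2 g).coeff (a : ℤ) =
        ∑ b ∈ (coeff q.1 f).coeff.support,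
          (coeff q.1 f).coeff b * (coeff q.2 g).coeff ((a : ℤ) - b) := by
    intro q _
    rw [AddMonoidAlgebra.coeff_mul]
    simp only [Finsupp.sum]
    refine sum_congr rfl fun b _ => ?_
    rw [sum_eq_single ((a : ℤ) - b)]
    · simp
    · intro c _ hc
      rw [if_neg (by omega)]
    · intro h
      rw [Finsupp.notMem_support_iff.1 h]
      simp
  rw [sum_congr rfl expand,
    sum_sigma' (HasAntidiagonal.antidiagonal K) (fun q => (coeff q.1 f).coeff.support)]
  have slope : ∀ s : Σ _ : ℕ × ℕ, ℤ, s.1 ∈ HasAntidiagonal.antidiagonal K →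
      (coeff s.1.1 f).coeff s.2 * (coeff s.1.2 g).coeff ((a : ℤ) - s.2) ≠ 0 →
      0 ≤ s.2 ∧ s.2 ≤ a ∧ s.2 * k₀ = J * s.1.1 := by
    rintro ⟨⟨i, j⟩, b⟩ hij h
    rw [HasAntidiagonal.mem_antidiagonal] at hij
    have e1 := hf i b fun e => h (by simp [e])
    have e2 := hg j ((a : ℤ) - b) fun e => h (by simp [e])
    have e3 : ((a : ℤ) * k₀) = J * (i + j) := by rw [← hij] at hK; exact_mod_cast hK
    have hk' : (0 : ℤ) < k₀ := by exact_mod_cast hk
    have e4 : b * k₀ = J * i := by linarith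
    refine ⟨?_, ?_, e4⟩
    · by_contra hneg
      push Not at hneg
      nlinarith [mul_nonneg (Int.natCast_nonneg J) (Int.natCast_nonneg i)]
    · by_contra hbig
      push Not at hbig
      nlinarith [mul_nonneg (Int.natCast_nonneg J) (Int.natCast_nonneg j)]
  refine sum_bij_ne_zero (fun s _ _ => (s.2.toNat, a - s.2.toNat)) (fun s hs h => ?_)
    (fun s hs h s' hs' h' e => ?_) (fun q hq h => ?_) (fun s hs h => ?_)
  · obtain ⟨hb0, hb1, -⟩ := slope s (mem_sigma.1 hs).1 h
    rw [HasAntidiagonal.mem_antidiagonal]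
    omega
  · obtain ⟨hb0, hb1, hb2⟩ := slope s (mem_sigma.1 hs).1 h
    obtain ⟨hb0', hb1', hb2'⟩ := slope s' (mem_sigma.1 hs').1 h'
    obtain ⟨⟨i, j⟩, b⟩ := s
    obtain ⟨⟨i', j'⟩, b'⟩ := s'
    simp only [Prod.mk.injEq] at e hb0 hb1 hb2 hb0' hb1' hb2'
    obtain rfl : b = b' := by omega
    have hi : i = i' := by
      have : (J : ℤ) * i = J * i' := hb2.symm.trans hb2'
      exact_mod_cast mul_left_cancel₀ (by exact_mod_cast hJ.ne') this
    have hq := HasAntidiagonal.mem_antidiagonal.1 (mem_sigma.1 hs).1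
    have hq' := HasAntidiagonal.mem_antidiagonal.1 (mem_sigma.1 hs').1
    simp only at hq hq'
    obtain rfl : j = j' := by omega
    rw [hi]
  · obtain ⟨b, c⟩ := q
    rw [HasAntidiagonal.mem_antidiagonal] at hq
    obtain ⟨i, hi⟩ : ∃ i, b * k₀ = J * i := by
      by_contra hn; push Not at hn; exact h (by simp [lead_coeff_eq_zero hn])
    obtain ⟨j, hj⟩ : ∃ j, c * k₀ = J * j := by
      by_contra hn; push Not at hn; exact h (by simp [lead_coeff_eq_zero hn])
    have hij : i + j = K := Nat.eq_of_mul_eq_mul_left hJ (by rw [mul_add, ← hi, ← hj, ← add_mul, hq, hK])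
    rw [lead_coeff hJ hi, lead_coeff hJ hj] at h
    refine ⟨⟨(i, j), (b : ℤ)⟩, mem_sigma.2 ⟨HasAntidiagonal.mem_antidiagonal.2 hij, ?_⟩, ?_, ?_⟩
    · exact Finsupp.mem_support_iff.2 (left_ne_zero_of_mul h)
    · rwa [show (a : ℤ) - (b : ℤ) = c by omega]
    · simp only [Int.toNat_natCast, Prod.mk.injEq, true_and]
      omega
  · obtain ⟨hb0, hb1, hb2⟩ := slope s (mem_sigma.1 hs).1 h
    obtain ⟨⟨i, j⟩, b⟩ := s
    have hij := HasAntidiagonal.mem_antidiagonal.1 (mem_sigma.1 hs).1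
    simp only at hij hb0 hb1 hb2 ⊢
    obtain ⟨b, rfl⟩ := Int.eq_ofNat_of_zero_le hb0
    have e1 : b * k₀ = J * i := by exact_mod_cast hb2
    have e2 : (a - b) * k₀ = J * j := by
      rw [Nat.sub_mul, hK, ← hij, e1, mul_add, Nat.add_sub_cancel_left]
    rw [Int.toNat_natCast, lead_coeff hJ e1, lead_coeff hJ e2, Nat.cast_sub (by omega)]

theorem lead_pow {f : Jet} (hf : Sl J k₀ f) : ∀ j : ℕ, lead J k₀ (f ^ j) = lead J k₀ f ^ j
  | 0 => by simpa using lead_one hJ hk
  | j + 1 => by rw [pow_succ, pow_succ, lead_mul hJ hk (hf.pow j) hf, lead_pow hf j]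

theorem lead_ser {f : Jet} (hf : Sl J k₀ f) (hf0 : coeff 0 f = 0) (c : ℕ → ℂ) :
    lead J k₀ (ser c f) = ser c (lead J k₀ f) := by
  ext a
  have hL0 : ∀ i < 1, coeff i (lead J k₀ f) = 0 := fun i hi => by
    obtain rfl : i = 0 := by omega
    rw [lead_coeff hJ (k := 0) (by simp), hf0]; rfl
  simp only [ser, coeff_mk, Algebra.algebraMap_self, RingHom.id_apply, ← lead_pow hJ hk hf]
  by_cases hdiv : ∃ K, a * k₀ = J * K
  swap
  · push Not at hdiv
    rw [lead_coeff_eq_zero hdiv]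
    exact (sum_eq_zero fun j _ => by rw [lead_coeff_eq_zero hdiv, mul_zero]).symm
  obtain ⟨K, hK⟩ := hdiv
  simp only [lead_coeff hJ hK, coeff_mk, AddMonoidAlgebra.coeff_sum, Finsupp.finsetSum_apply]
  have hz : ∀ j, K < j ∨ a < j → (coeff K (f ^ j)).coeff (a : ℤ) = 0 := by
    rintro j (hj | hj)
    · rw [coeff_pow_eq_zero (J := 1) (fun i hi => by rw [show i = 0 by omega]; exact hf0) (by omega)]
      rfl
    · have := coeff_pow_eq_zero (J := 1) hL0 (show a < 1 * j by omega)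
      rwa [← lead_pow hJ hk hf, lead_coeff hJ hK] at this
  simp only [← Algebra.smul_def, AddMonoidAlgebra.coeff_smul, Finsupp.smul_apply, smul_eq_mul]
  rw [sum_subset (range_subset_range.2 (show K + 1 ≤ a + K + 1 by omega)) fun j _ hj => ?_,
    sum_subset (range_subset_range.2 (show a + 1 ≤ a + K + 1 by omega)) fun j _ hj => ?_]
  · rw [hz j (Or.inr (by simpa using hj)), mul_zero]
  · rw [hz j (Or.inl (by simpa using hj)), mul_zero]

theorem lead_comp {F T : Jet} (hF : Sl J k₀ F) (hT : Sl J k₀ T) (hT0 : coeff 0 T = 0) (x : ℂˣ) :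
    lead J k₀ (comp F x T) = mix (fun b => coeff b (lead J k₀ F))
      fun b => C ((x : ℂ) ^ b) * ser (expC (b : ℂ)) (lead J k₀ T) := by
  classical
  ext a
  have hE : ∀ b : ℕ, ser (expC (b : ℂ)) (lead J k₀ T) = lead J k₀ (ser (expC (b : ℂ)) T) :=
    fun b => (lead_ser hJ hk hT hT0 _).symm
  simp only [mix, coeff_mk, coeff_C_mul, hE]
  by_cases hdiv : ∃ K, a * k₀ = J * K
  swap
  · push Not at hdiv
    rw [lead_coeff_eq_zero hdiv]
    refine (sum_eq_zero fun b hb => ?_).symm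
    rw [mem_range] at hb
    by_cases h1 : ∃ k, b * k₀ = J * k
    · obtain ⟨k, hk1⟩ := h1
      rw [lead_coeff_eq_zero (a := a - b) fun l hl => hdiv (k + l) (by
        rw [mul_add, ← hk1, ← hl, ← add_mul, Nat.add_sub_cancel' (by omega)]), mul_zero, mul_zero]
    · push Not at h1
      rw [lead_coeff_eq_zero h1, zero_mul]
  obtain ⟨K, hK⟩ := hdiv
  rw [lead_coeff hJ hK, comp, coeff_mk, AddMonoidAlgebra.coeff_sum, Finsupp.finsetSum_apply]
  have expand : ∀ k ∈ range (K + 1),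
      ((coeff k F).coeff.sum fun b r => mode b (r * ((x ^ b : ℂˣ) : ℂ)) *
        coeff (K - k) (ser (expC (b : ℂ)) T)).coeff (a : ℤ) =
        ∑ b ∈ (coeff k F).coeff.support, (coeff k F).coeff b * ((x ^ b : ℂˣ) : ℂ) *
          (coeff (K - k) (ser (expC (b : ℂ)) T)).coeff ((a : ℤ) - b) := by
    intro k _
    rw [Finsupp.sum, AddMonoidAlgebra.coeff_sum, Finsupp.finsetSum_apply]
    refine sum_congr rfl fun b _ => ?_
    rw [mode, AddMonoidAlgebra.coeff_single_mul_eq_mul_coeff ((a : ℤ) - b) fun c _ =>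
      ⟨fun e => by omega, fun e => by omega⟩]
  rw [sum_congr rfl expand, sum_sigma' (range (K + 1)) fun k => (coeff k F).coeff.support]
  have hk' : (0 : ℤ) < k₀ := by exact_mod_cast hk
  have e3 : (a : ℤ) * k₀ = J * K := by exact_mod_cast hK
  have slope : ∀ s : Σ _ : ℕ, ℤ, s.1 ∈ range (K + 1) →
      (coeff s.1 F).coeff s.2 * ((x ^ s.2 : ℂˣ) : ℂ) *
        (coeff (K - s.1) (ser (expC (s.2 : ℂ)) T)).coeff ((a : ℤ) - s.2) ≠ 0 →
      0 ≤ s.2 ∧ s.2 ≤ a ∧ s.2 * k₀ = J * s.1 := by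
    rintro ⟨i, b⟩ hi h
    simp only [mem_range] at hi h
    have e1 := hF i b fun e => h (by simp [e])
    have e2 := hT.ser (expC (b : ℂ)) (K - i) ((a : ℤ) - b) fun e => h (by simp [e])
    rw [Nat.cast_sub (by omega)] at e2
    have e4 : b * k₀ = J * i := by linarith
    refine ⟨?_, ?_, e4⟩
    · by_contra hneg
      push Not at hneg
      nlinarith [mul_nonneg (Int.natCast_nonneg J) (Int.natCast_nonneg i)]
    · by_contra hbig
      push Not at hbig
      nlinarith [mul_le_mul_of_nonneg_left (show (i : ℤ) ≤ K by exact_mod_cast Nat.lt_succ_iff.1 hi)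
        (Int.natCast_nonneg J)]
  refine sum_bij_ne_zero (fun s _ _ => s.2.toNat) (fun s hs h => ?_)
    (fun s hs h s' hs' h' e => ?_) (fun b hb h => ?_) (fun s hs h => ?_)
  · obtain ⟨hb0, hb1, -⟩ := slope s (mem_sigma.1 hs).1 h
    rw [mem_range]
    omega
  · obtain ⟨hb0, hb1, hb2⟩ := slope s (mem_sigma.1 hs).1 h
    obtain ⟨hb0', hb1', hb2'⟩ := slope s' (mem_sigma.1 hs').1 h'
    obtain ⟨i, b⟩ := s
    obtain ⟨i', b'⟩ := s'
    simp only at e hb0 hb2 hb0' hb2'
    obtain rfl : b = b' := by omega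
    have : (J : ℤ) * i = J * i' := hb2.symm.trans hb2'
    obtain rfl : i = i' := by
      exact_mod_cast mul_left_cancel₀ (by exact_mod_cast hJ.ne') this
    rfl
  · rw [mem_range] at hb
    obtain ⟨i, hi⟩ : ∃ i, b * k₀ = J * i := by
      by_contra hn; push Not at hn; exact h (by simp [lead_coeff_eq_zero hn])
    have hiK : i ≤ K := Nat.le_of_mul_le_mul_left
      (by rw [← hi, ← hK]; exact Nat.mul_le_mul_right _ (by omega)) hJ
    have hji : (a - b) * k₀ = J * (K - i) := by rw [Nat.sub_mul, Nat.mul_sub, hK, hi]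
    rw [lead_coeff hJ hi, lead_coeff hJ hji, Nat.cast_sub (by omega)] at h
    refine ⟨⟨i, (b : ℤ)⟩, mem_sigma.2 ⟨mem_range.2 (show i < K + 1 by omega),
      Finsupp.mem_support_iff.2 (left_ne_zero_of_mul h)⟩, ?_, Int.toNat_natCast b⟩
    simpa [mul_assoc] using h
  · obtain ⟨hb0, hb1, hb2⟩ := slope s (mem_sigma.1 hs).1 h
    obtain ⟨i, b⟩ := s
    simp only at hb0 hb1 hb2 ⊢
    obtain ⟨b, rfl⟩ := Int.eq_ofNat_of_zero_le hb0
    have e1 : b * k₀ = J * i := by exact_mod_cast hb2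
    have e2 : (a - b) * k₀ = J * (K - i) := by rw [Nat.sub_mul, Nat.mul_sub, hK, e1]
    rw [Int.toNat_natCast, lead_coeff hJ e1, lead_coeff hJ e2, Nat.cast_sub (by omega)]
    simp [mul_assoc]

omit hJ hk in
theorem lead_dJ (F : Jet) (a : ℕ) :
    coeff a (lead J k₀ (dJ F)) = (a : ℂ) * coeff a (lead J k₀ F) := by
  simp only [lead, dJ, coeff_mk, coeff_scale]
  split_ifs <;> simp

omit hJ hk in
theorem lead_dA (x : ℂˣ) (w : Jet) : lead J k₀ (dA x w) = dp (x : ℂ) (lead J k₀ w) := by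
  simp [dA, dp, lead_sub, lead_shS]

omit hJ hk in
theorem lead_tA (x : ℂˣ) (w : Jet) : lead J k₀ (tA x w) = tp (x : ℂ) (lead J k₀ w) := by
  simp [tA, tp, lead_add, lead_shS]

variable {F w : Jet} (hF : Sl J k₀ F) (hw : Sl J k₀ w) (hw0 : coeff 0 w = 0)
include hF hw hw0

omit hJ hk hF hw in
theorem coeff_zero_dA (y : ℂˣ) : coeff 0 (dA y w) = 0 ∧ coeff 0 (tA y w) = 0 :=
  ⟨by rw [dA, map_sub, coeff_shS, hw0, map_zero, sub_zero],
    by rw [tA, map_add, coeff_shS, hw0, map_zero, add_zero]⟩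

omit hF in
theorem lead_snA (x : ℂˣ) :
    lead J k₀ (snA x w) = snp (x : ℂ) (dp (x : ℂ) (lead J k₀ w)) ∧
      lead J k₀ (csA x w) = csp (x : ℂ) (dp (x : ℂ) (lead J k₀ w)) := by
  have e := (coeff_zero_dA hw0 x).1
  constructor <;>
    simp only [snA, csA, snp, csp, lead_add, lead_smul, lead_ser hJ hk (hw.dA x) e, lead_dA]

omit hF in
theorem lead_snA_inv (x : ℂˣ) :
    lead J k₀ (snA x⁻¹ w) = -snm (x : ℂ) (dm (x : ℂ) (lead J k₀ w)) ∧
      lead J k₀ (csA x⁻¹ w) = csm (x : ℂ) (dm (x : ℂ) (lead J k₀ w)) := by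
  obtain ⟨h1, h2⟩ := lead_snA hJ hk hw hw0 x⁻¹
  rw [h1, h2, Units.val_inv_eq_inv_val, dp_inv]
  simp only [snp, snm, csp, csm, Sh_inv, Ch_inv, map_neg]
  constructor <;> ring

theorem lead_restA (x : ℂˣ) (a : ℕ) : coeff a (lead J k₀ (restA F x w)) =
    eqn (fun b => coeff b (lead J k₀ F)) (x : ℂ) (lead J k₀ w) a := by
  have hd := fun y => (coeff_zero_dA hw0 y).1
  have ht := fun y => (coeff_zero_dA hw0 y).2
  simp only [restA, lead_add, lead_sub, lead_smul, lead_ser hJ hk (hw.dA _) (hd _),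
    lead_mul hJ hk (hF.dJ.comp (hw.tA _) _) (hw.snA _),
    lead_mul hJ hk (hF.comp (hw.tA _) _) (hw.csA _),
    lead_comp hJ hk hF.dJ (hw.tA _) (ht _), lead_comp hJ hk hF (hw.tA _) (ht _),
    (lead_snA hJ hk hw hw0 x).1, (lead_snA hJ hk hw hw0 x).2,
    (lead_snA_inv hJ hk hw hw0 x).1, (lead_snA_inv hJ hk hw hw0 x).2,
    lead_dA, lead_tA, lead_dJ F, mul_neg, neg_mul, mix_mul, map_add, map_sub, map_neg,
    Units.val_inv_eq_inv_val, dp_inv, tp_inv, coeff_C_mul, eqn, sub_neg_eq_add]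
  simp only [mix, coeff_mk, ← sum_sub_distrib, ← sum_add_distrib]
  refine congrArg₂ _ (by ring) (sum_congr rfl fun b _ => ?_)
  simp only [kerE, map_add, map_sub, coeff_C_mul, mul_assoc]
  ring

theorem lead_actA (x : ℂˣ) (a : ℕ) : coeff a (lead J k₀ (actA F x w)) =
    action (fun b => coeff b (lead J k₀ F)) (x : ℂ) (lead J k₀ w) a := by
  have hd := fun y => (coeff_zero_dA hw0 y).1
  have ht := fun y => (coeff_zero_dA hw0 y).2
  simp only [actA, lead_add, lead_smul, lead_ser hJ hk (hw.dA _) (hd _),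
    lead_mul hJ hk (hF.comp (hw.tA _) _) (hw.snA _), lead_comp hJ hk hF (hw.tA _) (ht _),
    (lead_snA hJ hk hw hw0 x).1, lead_dA, lead_tA, mix_mul, map_add, coeff_C_mul, action, kerL]
  simp only [mix, coeff_mk, coeff_C_mul, mul_assoc]

end lead

/-- The leading terms of a formal orbit with vanishing action mode are an orbit. -/
theorem orbit_lead {J k₀ n : ℕ} (hJ : 0 < J) (hk : 0 < k₀) {F : Jet} (hF : Sl J k₀ F)
    (hF0 : coeff 0 F = 0) (hzero : ∀ b < J, coeff b (lead J k₀ F) = 0) (x : ℂˣ)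
    (hrest : ∀ K a, lap x a = 0 → (coeff K (restA F x (wA F x))).coeff a = 0)
    (hact : ∀ K, (coeff K (actA F x (wA F x))).coeff (n : ℤ) = 0) :
    (∀ a < J, coeff a (lead J k₀ (wA F x)) = 0) ∧
      Orbit (fun b => coeff b (lead J k₀ F)) n (x : ℂ) (lead J k₀ (wA F x)) := by
  have hw := Sl.wA hF hF0 x
  have hw0 := wA_zero hF0 x
  have hl0 : coeff 0 (lead J k₀ (wA F x)) = 0 := by
    rw [lead_coeff hJ (k := 0) (by simp), hw0]; rfl
  have hwa : ∀ a : ℕ, coeff a (lead J k₀ (wA F x)) = (lap x (a : ℤ))⁻¹ *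
      eqn (fun b => coeff b (lead J k₀ F)) (x : ℂ) (lead J k₀ (wA F x)) a := fun a => by
    rw [← lead_restA hJ hk hF hw hw0]
    by_cases h : ∃ K, a * k₀ = J * K
    · obtain ⟨K, hK⟩ := h
      rw [lead_coeff hJ hK, lead_coeff hJ hK, coeff_wA hF0, coeff_scale]
    · push Not at h
      rw [lead_coeff_eq_zero h, lead_coeff_eq_zero h, mul_zero]
  refine ⟨fun a => ?_, hl0, fun a _ => ?_, ?_⟩
  · induction a using Nat.strong_induction_on with
    | _ a ih =>
      intro haJ
      rcases Nat.eq_zero_or_pos a with rfl | ha0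
      · exact hl0
      have hd : ∀ i < a, coeff i (dp (x : ℂ) (lead J k₀ (wA F x))) = 0 ∧
          coeff i (dm (x : ℂ) (lead J k₀ (wA F x))) = 0 := fun i hi => by
        simp [dp, dm, ih i hi (by omega)]
      rw [hwa, eqn]
      simp only [map_add, map_sub, coeff_ser_first ha0 (fun i hi => (hd i hi).1),
        coeff_ser_first ha0 (fun i hi => (hd i hi).2)]
      rw [sum_eq_zero fun b hb => by rw [hzero b (by rw [mem_range] at hb; omega), zero_mul]]
      simp [chC, shC']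
  · rcases Nat.eq_zero_or_pos a with rfl | ha0
    · rw [hl0, mul_zero, ← lead_restA hJ hk hF hw hw0, lead_coeff hJ (k := 0) (by simp),
        coeff_zero_restA hF0 x hw0]
      rfl
    · have e : lap x (a : ℤ) = Sh (x : ℂ) * ((x : ℂ) ^ a - (x : ℂ)⁻¹ ^ a) ^ 2 := by simp [lap]
      rw [hwa, ← e, ← mul_assoc]
      by_cases hl : lap x (a : ℤ) = 0
      · rw [hl, zero_mul, zero_mul, ← lead_restA hJ hk hF hw hw0]
        by_cases h : ∃ K, a * k₀ = J * K
        · obtain ⟨K, hK⟩ := h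
          rw [lead_coeff hJ hK, hrest K a hl]
        · push Not at h
          rw [lead_coeff_eq_zero h]
      · rw [mul_inv_cancel₀ hl, one_mul]
  · rw [← lead_actA hJ hk hF hw hw0]
    by_cases h : ∃ K, n * k₀ = J * K
    · obtain ⟨K, hK⟩ := h
      rw [lead_coeff hJ hK, hact K]
    · push Not at h
      rw [lead_coeff_eq_zero h]

end

end Vale.Agent.P097.Rigid
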