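import Vale.Agent.P097.Rigid.Val

/-!
# Substitution into scalar series, and gains at a place

`Gain` measures how far the coefficients stay below twice the number of blocks of length `J`.
-/

namespace Vale.Agent.P097.Rigid

open Finset PowerSeries

noncomputable section

variable {R : Type*} [CommRing R] [Algebra ℂ R]

/-- The series `∑ c k * f ^ k`, for `f` with constant term zero. -/
def ser (c : ℕ → ℂ) (f : R⟦X⟧) : R⟦X⟧ :=
  mk fun N => ∑ k ∈ range (N + 1), algebraMap ℂ R (c k) * coeff N (f ^ k)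

/-- The coefficients of `exp (b x)`. -/
def expC (b : ℂ) (k : ℕ) : ℂ := b ^ k / k.factorial

/-- The coefficients of the hyperbolic cosine. -/
def chC (k : ℕ) : ℂ := if Even k then (k.factorial : ℂ)⁻¹ else 0

/-- The coefficients of `cosh x - 1`. -/
def chC' (k : ℕ) : ℂ := if k = 0 then 0 else chC k

/-- The coefficients of `sinh x - x`. -/
def shC' (k : ℕ) : ℂ := if Odd k ∧ k ≠ 1 then (k.factorial : ℂ)⁻¹ else 0

theorem map_ser {S : Type*} [CommRing S] [Algebra ℂ S] (g : R →ₐ[ℂ] S) (c : ℕ → ℂ) (f : R⟦X⟧) :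
    PowerSeries.map g.toRingHom (ser c f) = ser c (PowerSeries.map g.toRingHom f) := by
  ext N
  simp only [coeff_map, ser, coeff_mk, map_sum, map_mul, ← map_pow]
  simp

theorem coeff_pow_eq_zero {S : Type*} [CommRing S] {J k N : ℕ} {f : S⟦X⟧}
    (hf : ∀ a < J, coeff a f = 0) (h : N < J * k) : coeff N (f ^ k) = 0 := by
  obtain ⟨g, rfl⟩ := X_pow_dvd_iff.2 hf
  rw [mul_pow, ← pow_mul, coeff_X_pow_mul', if_neg (by omega)]

theorem coeff_pow_top {S : Type*} [CommRing S] {J k : ℕ} {f : S⟦X⟧}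
    (hf : ∀ a < J, coeff a f = 0) : coeff (J * k) (f ^ k) = coeff J f ^ k := by
  obtain ⟨g, rfl⟩ := X_pow_dvd_iff.2 hf
  rw [mul_pow, ← pow_mul, coeff_X_pow_mul', if_pos le_rfl, coeff_X_pow_mul', if_pos le_rfl]
  simp

variable {Γ : Type*} [LinearOrderedCommGroupWithZero Γ] {p J : ℕ} {ζ : ℂ} {v : Valuation ℂ Γ}

/-- Twice the number of blocks of length `J` in `c`. -/
def blocks (J c : ℕ) : ℤ := 2 * ((c / J : ℕ) : ℤ)

theorem blocks_add_le (J b c : ℕ) : blocks J b + blocks J c ≤ blocks J (b + c) := by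
  have : b / J + c / J ≤ (b + c) / J := Nat.div_add_div_le_add_div
  unfold blocks
  omega

/-- Below `N`, the coefficient `c` has at most `blocks J c - k` poles. -/
def Gain (ζ : ℂ) (v : Valuation ℂ Γ) (J : ℕ) (k : ℤ) (N : ℕ) (f : ℂ⟦X⟧) : Prop :=
  ∀ c < N, Pole ζ v (blocks J c - k) (coeff c f)

namespace Gain

variable {i j : ℤ} {N : ℕ} {f g : ℂ⟦X⟧}

theorem add (hf : Gain ζ v J i N f) (hg : Gain ζ v J i N g) : Gain ζ v J i N (f + g) :=
  fun c hc => by rw [map_add]; exact Place.pole_add (hf c hc) (hg c hc)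

theorem neg (hf : Gain ζ v J i N f) : Gain ζ v J i N (-f) :=
  fun c hc => by rw [map_neg]; exact Place.pole_neg (hf c hc)

theorem sub (hf : Gain ζ v J i N f) (hg : Gain ζ v J i N g) : Gain ζ v J i N (f - g) :=
  sub_eq_add_neg f g ▸ hf.add hg.neg

theorem zero : Gain ζ v J i N 0 := fun c _ => by rw [map_zero]; exact Place.pole_zero _

theorem sum {ι : Type*} (s : Finset ι) {f : ι → ℂ⟦X⟧} (h : ∀ a ∈ s, Gain ζ v J i N (f a)) :
    Gain ζ v J i N (∑ a ∈ s, f a) :=
  Finset.sum_induction f (Gain ζ v J i N) (fun _ _ => add) zero h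

variable (P : Place p ζ v)
include P

theorem mono (hf : Gain ζ v J i N f) (h : j ≤ i) : Gain ζ v J j N f :=
  fun c hc => P.pole_mono (hf c hc) (by omega)

theorem smul {a : ℂ} (ha : Pole ζ v (-i) a) (hf : Gain ζ v J j N f) {k : ℤ} (h : k ≤ i + j) :
    Gain ζ v J k N (C a * f) :=
  fun c hc => by rw [coeff_C_mul]; exact P.pole_mul ha (hf c hc) (by omega)

theorem mul (hf : Gain ζ v J i N f) (hg : Gain ζ v J j N g) :
    Gain ζ v J (i + j) N (f * g) := fun c hc => by
  rw [coeff_mul]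
  refine Place.pole_sum _ fun q hq => ?_
  obtain ⟨a, b⟩ := q
  rw [HasAntidiagonal.mem_antidiagonal] at hq
  exact P.pole_mul (hf a (by omega)) (hg b (by omega))
    (by have := blocks_add_le J a b; rw [hq] at this; omega)

theorem mul_succ (hf : Gain ζ v J i N f) (hg : Gain ζ v J j N g) (hf0 : coeff 0 f = 0)
    (hg0 : coeff 0 g = 0) : Gain ζ v J (i + j) (N + 1) (f * g) := fun c hc => by
  rw [coeff_mul]
  refine Place.pole_sum _ fun q hq => ?_
  obtain ⟨a, b⟩ := q
  rw [HasAntidiagonal.mem_antidiagonal] at hq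
  rcases Nat.eq_zero_or_pos a with rfl | ha
  · rw [hf0, zero_mul]; exact Place.pole_zero _
  rcases Nat.eq_zero_or_pos b with rfl | hb
  · rw [hg0, mul_zero]; exact Place.pole_zero _
  exact P.pole_mul (hf a (by omega)) (hg b (by omega))
    (by have := blocks_add_le J a b; rw [hq] at this; omega)

theorem one : Gain ζ v J 0 N 1 := fun c _ => by
  rw [coeff_one]
  split_ifs with h
  · subst h
    exact P.pole_mono (Place.pole_of_le_one (by simp)) (by simp [blocks])
  · exact Place.pole_zero _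

theorem pow (hf : Gain ζ v J i N f) : ∀ k : ℕ, Gain ζ v J (k * i) N (f ^ k)
  | 0 => by simpa using one P
  | k + 1 => by
    rw [pow_succ]
    have := mul P (pow hf k) hf
    simpa [add_mul] using this

theorem pow_succ_bound (hf : Gain ζ v J i N f) (hf0 : coeff 0 f = 0) {k : ℕ} (hk : 2 ≤ k) :
    Gain ζ v J (k * i) (N + 1) (f ^ k) := by
  obtain ⟨l, rfl⟩ : ∃ l, k = l + 2 := ⟨k - 2, by omega⟩
  rw [show f ^ (l + 2) = f * f ^ (l + 1) by ring]
  have := hf.mul_succ P (pow P hf (l + 1)) hf0 (by simp [pow_succ, coeff_mul, hf0])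
  refine mono P this ?_
  push_cast
  linarith

/-- A series in `f` whose first `r` coefficients vanish gains `r` times as much. -/
theorem ser_of (hf : Gain ζ v J i N f) (hi : 0 ≤ i) (hJ : ∀ a < J, coeff a f = 0) {c : ℕ → ℂ}
    {r : ℕ} (hr : ∀ k < r, c k = 0) (hint : ∀ k, J * k < N → v (c k) ≤ 1) :
    Gain ζ v J (r * i) N (ser c f) := fun a ha => by
  rw [ser, coeff_mk]
  refine Place.pole_sum _ fun k _ => ?_
  simp only [Algebra.algebraMap_self, RingHom.id_apply]
  rcases lt_or_ge k r with hk | hk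
  · rw [hr k hk, zero_mul]; exact Place.pole_zero _
  rcases lt_or_ge a (J * k) with ha' | ha'
  · rw [coeff_pow_eq_zero hJ ha', mul_zero]; exact Place.pole_zero _
  refine P.pole_mul (Place.pole_of_le_one (hint k (by omega))) (pow P hf k a ha) ?_
  have : (r : ℤ) * i ≤ k * i := mul_le_mul_of_nonneg_right (by exact_mod_cast hk) hi
  omega

theorem ser_succ (hf : Gain ζ v J i N f) (hi : 0 ≤ i) (hJ : ∀ a < J, coeff a f = 0) (hJ0 : 0 < J)
    {c : ℕ → ℂ} {r : ℕ} (hr2 : 2 ≤ r) (hr : ∀ k < r, c k = 0)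
    (hint : ∀ k, J * k ≤ N → v (c k) ≤ 1) : Gain ζ v J (r * i) (N + 1) (ser c f) := fun a ha => by
  rw [ser, coeff_mk]
  refine Place.pole_sum _ fun k _ => ?_
  simp only [Algebra.algebraMap_self, RingHom.id_apply]
  rcases lt_or_ge k r with hk | hk
  · rw [hr k hk, zero_mul]; exact Place.pole_zero _
  rcases lt_or_ge a (J * k) with ha' | ha'
  · rw [coeff_pow_eq_zero hJ ha', mul_zero]; exact Place.pole_zero _
  refine P.pole_mul (Place.pole_of_le_one (hint k (by omega)))
    (pow_succ_bound P hf (hJ 0 hJ0) (by omega) a ha) ?_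
  have : (r : ℤ) * i ≤ k * i := mul_le_mul_of_nonneg_right (by exact_mod_cast hk) hi
  omega

/-- The difference of a series at two points gains as the difference of the points. -/
theorem ser_sub (hf : Gain ζ v J 0 N f) (hg : Gain ζ v J 0 N g) (hd : Gain ζ v J i N (f - g))
    (hJf : ∀ a < J, coeff a f = 0) (hJg : ∀ a < J, coeff a g = 0) {c : ℕ → ℂ}
    (hint : ∀ k, J * k < N → v (c k) ≤ 1) : Gain ζ v J i N (ser c f - ser c g) := fun a ha => by
  simp only [map_sub, ser, coeff_mk, ← sum_sub_distrib, ← mul_sub, Algebra.algebraMap_self,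
    RingHom.id_apply]
  refine Place.pole_sum _ fun k _ => ?_
  rcases lt_or_ge a (J * k) with ha' | ha'
  · rw [coeff_pow_eq_zero hJf ha', coeff_pow_eq_zero hJg ha', sub_self, mul_zero]
    exact Place.pole_zero _
  refine P.pole_mul (Place.pole_of_le_one (hint k (by omega))) ?_ (zero_add _).le
  rw [← map_sub, ← (Commute.all f g).geom_sum₂_mul]
  refine mono P (mul P (sum _ (i := 0) fun l _ => ?_) hd) (by simp) a ha
  have := mul P (pow P hf l) (pow P hg (k - 1 - l))
  simpa using this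

/-- For an even series also the sum of the points counts. -/
theorem ser_sub_even (hf : Gain ζ v J 0 N f) (hg : Gain ζ v J 0 N g)
    (hd : Gain ζ v J i N (f - g)) (hs : Gain ζ v J j N (f + g))
    (hJf : ∀ a < J, coeff a f = 0) (hJg : ∀ a < J, coeff a g = 0) (hJ0 : 0 < J) {c : ℕ → ℂ}
    (hodd : ∀ k, ¬ Even k → c k = 0) (hint : ∀ k, J * k ≤ N → v (c k) ≤ 1) :
    Gain ζ v J (i + j) (N + 1) (ser c f - ser c g) := fun a ha => by
  simp only [map_sub, ser, coeff_mk, ← sum_sub_distrib, ← mul_sub, Algebra.algebraMap_self,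
    RingHom.id_apply]
  refine Place.pole_sum _ fun k _ => ?_
  by_cases he : Even k
  swap
  · rw [hodd k he, zero_mul]; exact Place.pole_zero _
  rcases lt_or_ge a (J * k) with ha' | ha'
  · rw [coeff_pow_eq_zero hJf ha', coeff_pow_eq_zero hJg ha', sub_self, mul_zero]
    exact Place.pole_zero _
  refine P.pole_mul (Place.pole_of_le_one (hint k (by omega))) ?_ (zero_add _).le
  obtain ⟨l, rfl⟩ := he
  rw [← map_sub, show f ^ (l + l) - g ^ (l + l) = (f ^ 2) ^ l - (g ^ 2) ^ l by
    simp only [← pow_mul, two_mul], ← (Commute.all (f ^ 2) (g ^ 2)).geom_sum₂_mul,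
    show f ^ 2 - g ^ 2 = (f - g) * (f + g) by ring]
  have hf0 := hJf 0 hJ0
  have hg0 := hJg 0 hJ0
  have h2 : Gain ζ v J (i + j) (N + 1) ((f - g) * (f + g)) :=
    mul_succ P hd hs (by rw [map_sub, hf0, hg0, sub_self]) (by rw [map_add, hf0, hg0, add_zero])
  rw [coeff_mul]
  refine Place.pole_sum _ fun q hq => ?_
  obtain ⟨b, d⟩ := q
  rw [HasAntidiagonal.mem_antidiagonal] at hq
  rcases Nat.eq_zero_or_pos d with rfl | hd0
  · rw [show coeff 0 ((f - g) * (f + g)) = 0 by
      simp [coeff_mul, map_sub, map_add, hf0, hg0], mul_zero]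
    exact Place.pole_zero _
  have h1 : Gain ζ v J 0 N (∑ t ∈ range l, (f ^ 2) ^ t * (g ^ 2) ^ (l - 1 - t)) :=
    sum _ fun t _ => by
      simp only [← pow_mul]
      simpa using mul P (pow P hf (2 * t)) (pow P hg (2 * (l - 1 - t)))
  exact P.pole_mul (h1 b (by omega)) (h2 d (by omega))
    (by have := blocks_add_le J b d; rw [hq] at this; omega)

end Gain

end

end Vale.Agent.P097.Rigid
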