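import Vale.Agent.P097.Rigid.Fourier

/-!
# One order of the deformation

Below an order the formal periodic orbits are real and exact; at that order the first variations
sum to zero around the orbit, which determines the jet away from finitely many modes.
-/

namespace Vale.Agent.P097.Rigid

open Finset PowerSeries Filter Topology Asymptotics ComplexConjugate

noncomputable section

/-- The rotation by `π m / n`. -/
def xr (n m : ℕ) : ℂˣ :=
  Units.mk0 (Complex.exp (((Real.pi * m / n : ℝ) : ℂ) * Complex.I)) (Complex.exp_ne_zero _)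

theorem xr_pow {n : ℕ} (hn : n ≠ 0) (m : ℕ) : xr n m ^ (2 * n) = 1 := by
  apply Units.ext
  rw [Units.val_pow_eq_pow_val, xr, Units.val_mk0, ← Complex.exp_nat_mul, Units.val_one]
  have : (n : ℂ) ≠ 0 := by exact_mod_cast hn
  convert Complex.exp_int_mul_two_pi_mul_I (m : ℤ) using 2
  push_cast
  field_simp

theorem xr_eq_rot (n m : ℕ) : ((xr n m : ℂˣ) : ℂ) = rot n ^ m := by
  rw [xr, Units.val_mk0, rot, ← Complex.exp_nat_mul]
  push_cast
  ring_nf

/-- The displacement below the order `N`. -/
def wT (N : ℕ) (F : Jet) (x : ℂˣ) : Jet :=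
  PowerSeries.mk fun k => if k < N then coeff k (wA F x) else 0

/-- Half the displacement. -/
def disp (N : ℕ) (F : Jet) (x : ℂˣ) (τ t : ℝ) : ℝ := (pol (N + 1) τ (wT N F x) t).im

/-- The configuration. -/
def conf (N : ℕ) (F : Jet) (n m : ℕ) (τ t : ℝ) : Fin (n + 1) → ℝ :=
  fun i => star n m τ i + 2 * disp N F (xr n m) (star n m τ i) t

/-- The orbit is real and exact below the order `N`. -/
def Flat (N : ℕ) (F : Jet) (x : ℂˣ) : Prop :=
  ∀ k < N, bar (coeff k (wA F x)) = -coeff k (wA F x) ∧
    ∀ a, lap x a = 0 → (coeff k (restA F x (wA F x))).coeff a = 0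

/-- What the first variation is at the order `N`, at the chord `τ`. -/
def errAt (h : ℝ → ℝ → ℝ) (N : ℕ) (F : Jet) (n m : ℕ) (τ : ℝ) : ℂ :=
  evT τ (coeff N (restA F (xr n m) (wA F (xr n m))))
    + elC (gap h N F) (gap' h N F) (τ - 2 * (Real.pi * m / n)) τ (τ + 2 * (Real.pi * m / n))

theorem lap_conj {x : ℂˣ} {α : ℝ} (hx : (x : ℂ) = Complex.exp (α * Complex.I)) (a : ℤ) :
    conj (lap x (-a)) = -lap x a := by
  have e : conj (x : ℂ) = (x : ℂ)⁻¹ := by
    rw [hx, ← Complex.exp_conj, ← Complex.exp_neg]; simp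
  simp only [lap, Sh, Units.val_zpow_eq_zpow_val, map_mul, map_div₀,
    map_sub, map_pow, map_inv₀, map_zpow₀, e, inv_inv, inv_zpow', neg_neg, map_ofNat]
  ring

theorem star_eq (n m : ℕ) (τ : ℝ) (j : ℕ) : star n m τ j = τ + 2 * (Real.pi * m / n) * j := rfl

theorem evT_orbit (n m : ℕ) (τ : ℝ) (j : ℕ) (p : Trig) :
    evT τ (shT ((xr n m ^ 2) ^ j) p) = evT (star n m τ j) p := by
  induction p using AddMonoidAlgebra.induction_linear with
  | zero => simp
  | add p q hp hq => simp [hp, hq]
  | single a r =>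
    rw [show AddMonoidAlgebra.single a r = mode a r from rfl, shT]
    simp only [mode, AddMonoidAlgebra.lift_single, MonoidHom.coe_mk, OneHom.coe_mk, toAdd_ofAdd,
      map_smul, smul_eq_mul]
    rw [show AddMonoidAlgebra.single a ((((xr n m ^ 2) ^ j) ^ a : ℂˣ) : ℂ) = mode a _ from rfl,
      show AddMonoidAlgebra.single a r = mode a r from rfl, evT_mode, evT_mode,
      Units.val_zpow_eq_zpow_val, Units.val_pow_eq_pow_val, Units.val_pow_eq_pow_val, xr,
      Units.val_mk0, ← Complex.exp_nat_mul, ← Complex.exp_nat_mul, ← Complex.exp_int_mul,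
      ← Complex.exp_add]
    congr 2
    simp only [star_eq]
    push_cast
    ring

variable {h : ℝ → ℝ → ℝ} {η : ℝ} {N n m : ℕ} {F : Jet}
  (hs : ContDiff ℝ (⊤ : ℕ∞) fun q : ℝ × ℝ => h q.1 q.2)
  (hev : ∀ᶠ t in 𝓝 0, IsTable (h t) ∧ CurvesBelow (h t) η)
  (hm : 0 < m) (hmn : m < n) (hη : Real.pi * m / n < η)

theorem appr_wT (hF : Flat N F (xr n m)) :
    Appr (N + 1) (wT N F (xr n m)) fun τ t => (disp N F (xr n m) τ t : ℂ) * Complex.I := by
  refine (Appr.self _ _).congr_fun fun τ t => ?_
  have hc : conj (pol (N + 1) τ (wT N F (xr n m)) t) = -pol (N + 1) τ (wT N F (xr n m)) t := by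
    simp only [pol_eq, map_sum, map_mul, map_pow, Complex.conj_ofReal, ← evT_bar, ← sum_neg_distrib,
      wT, coeff_mk]
    refine sum_congr rfl fun k _ => ?_
    split_ifs with hk
    · rw [(hF k hk).1, map_neg, mul_neg]
    · simp [bar]
  apply Complex.ext
  · have := congrArg Complex.re hc
    simp [disp] at this ⊢
    linarith
  · simp [disp]

theorem disp_periodic (τ t : ℝ) (j : ℤ) :
    disp N F (xr n m) (τ + 2 * Real.pi * j) t = disp N F (xr n m) τ t := by
  simp only [disp, pol_eq, evT_apply]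
  congr 1
  refine sum_congr rfl fun k _ => congrArg _ (Finsupp.sum_congr fun a _ => congrArg _ ?_)
  rw [show (a : ℂ) * (((τ + 2 * Real.pi * j : ℝ) : ℂ) * Complex.I)
      = (a : ℂ) * ((τ : ℂ) * Complex.I) + ((a * j : ℤ) : ℂ) * (2 * Real.pi * Complex.I) by
    push_cast; ring, Complex.exp_add, Complex.exp_int_mul_two_pi_mul_I, mul_one]

theorem conf_end (hn : n ≠ 0) (τ t : ℝ) :
    ext n (conf N F n m τ t) n = ext n (conf N F n m τ t) 0 + 2 * Real.pi * m := by
  simp only [ext, dif_pos n.succ_pos, dif_pos n.lt_succ_self, conf]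
  have hn' : (n : ℝ) ≠ 0 := by exact_mod_cast hn
  have e : star n m τ n = star n m τ 0 + 2 * Real.pi * ((m : ℤ) : ℝ) := by
    simp only [star_eq]; push_cast; field_simp; ring
  rw [e, disp_periodic]
  push_cast
  ring

include hm hmn

theorem conf_el (g : ℝ → ℝ) (τ t : ℝ) :
    elZero g n m (ext n (conf N F n m τ t)) = el g
        (τ - 2 * (Real.pi * m / n)
          + 2 * disp N F (xr n m) (τ - 2 * (Real.pi * m / n)) t)
        (τ + 2 * disp N F (xr n m) τ t)
        (τ + 2 * (Real.pi * m / n) + 2 * disp N F (xr n m) (τ + 2 * (Real.pi * m / n)) t) ∧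
      ∀ j, 0 < j → j < n → elAt g (ext n (conf N F n m τ t)) j = el g
        (star n m τ j - 2 * (Real.pi * m / n)
          + 2 * disp N F (xr n m) (star n m τ j - 2 * (Real.pi * m / n)) t)
        (star n m τ j + 2 * disp N F (xr n m) (star n m τ j) t)
        (star n m τ j + 2 * (Real.pi * m / n)
          + 2 * disp N F (xr n m) (star n m τ j + 2 * (Real.pi * m / n)) t) := by
  have hn' : (n : ℝ) ≠ 0 := by exact_mod_cast (show n ≠ 0 by omega)
  refine ⟨?_, fun j hj hjn => ?_⟩
  · simp only [elZero, ext, conf, dif_pos (show n - 1 < n + 1 by omega), dif_pos n.succ_pos,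
      dif_pos (show 1 < n + 1 by omega)]
    have e : star n m τ (n - 1)
        = τ - 2 * (Real.pi * m / n) + 2 * Real.pi * ((m : ℤ) : ℝ) := by
      simp only [star_eq]; rw [Nat.cast_sub (show 1 ≤ n by omega)]; push_cast; field_simp; ring
    rw [e, disp_periodic, show star n m τ 0 = τ by simp [star_eq],
      show star n m τ 1 = τ + 2 * (Real.pi * m / n) by simp [star_eq]]
    congr 1
    push_cast
    ring
  · simp only [elAt, ext, conf, dif_pos (show j - 1 < n + 1 by omega),
      dif_pos (show j < n + 1 by omega), dif_pos (show j + 1 < n + 1 by omega)]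
    rw [show star n m τ (j - 1) = star n m τ j - 2 * (Real.pi * m / n) by
        simp only [star_eq]; rw [Nat.cast_sub (show 1 ≤ j by omega)]; push_cast; ring,
      show star n m τ (j + 1) = star n m τ j + 2 * (Real.pi * m / n) by
        simp only [star_eq]; push_cast; ring]

omit hm hmn in
theorem conf_lim (hK : Known h N F) (hF : Flat N F (xr n m)) (τ : ℝ) :
    Tendsto (fun t => conf N F n m τ t) (𝓝 0) (𝓝 fun i => star n m τ i) := by
  refine tendsto_pi_nhds.2 fun i => ?_
  have h0 : coeff 0 (wT N F (xr n m)) = 0 := by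
    rw [wT, coeff_mk, if_pos hK.pos, wA_zero hK.zero]
  have h1 := Complex.continuous_im.continuousAt.tendsto.comp
    (((appr_wT hF).small N.succ_pos h0 (star n m τ i)).trans_tendsto tendsto_id)
  simp [Function.comp_def] at h1
  simpa [conf] using (h1.const_mul 2).const_add (star n m τ i)

include hs

omit hm hmn in
/-- At the order `N` the first variation along the configuration. -/
theorem el_order (hK : Known h N F) (hF : Flat N F (xr n m)) (τ : ℝ) :
    (fun t : ℝ => ((el (h t)
        (τ - 2 * (Real.pi * m / n) + 2 * disp N F (xr n m) (τ - 2 * (Real.pi * m / n)) t)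
        (τ + 2 * disp N F (xr n m) τ t)
        (τ + 2 * (Real.pi * m / n) + 2 * disp N F (xr n m) (τ + 2 * (Real.pi * m / n)) t) : ℝ) : ℂ)
      - (t : ℂ) ^ N * errAt h N F n m τ) =o[𝓝 0] fun t : ℝ => t ^ N := by
  have h0 : coeff 0 (wT N F (xr n m)) = 0 := by
    rw [wT, coeff_mk, if_pos hK.pos, wA_zero hK.zero]
  have hb : Below (N + 1) (restA F (xr n m) (wT N F (xr n m)))
      (restA F (xr n m) (wA F (xr n m))) :=
    restA_congr hK.zero _ (below_of_coeff fun i hi => by simp [wT, hi]) h0 (wA_zero hK.zero _)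
  have hlow : ∀ k < N, coeff k (elA F (xr n m) (wT N F (xr n m))) = 0 := fun k hk => by
    refine AddMonoidAlgebra.coeff_injective (Finsupp.ext fun a => ?_)
    rw [coeff_elA, hb.coeff (Nat.lt_succ_of_lt hk), wT, coeff_mk, if_pos hk, coeff_wA hK.zero,
      coeff_scale, AddMonoidAlgebra.coeff_zero, Finsupp.zero_apply]
    by_cases hl : lap (xr n m) a = 0
    · rw [(hF k hk).2 a hl]; simp
    · rw [← mul_assoc, mul_inv_cancel₀ hl, one_mul, sub_self]
  have htop : coeff N (elA F (xr n m) (wT N F (xr n m)))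
      = coeff N (restA F (xr n m) (wA F (xr n m))) := by
    refine AddMonoidAlgebra.coeff_injective (Finsupp.ext fun a => ?_)
    rw [coeff_elA, hb.coeff N.lt_succ_self, wT, coeff_mk, if_neg (lt_irrefl N)]
    simp
  refine (hK.el_expand hs (x := xr n m) (α := Real.pi * m / n) rfl (appr_wT hF) h0 τ).congr_left fun t => ?_
  rw [pol_eq, sum_range_succ,
    sum_eq_zero fun k hk => by rw [hlow k (mem_range.1 hk), map_zero, mul_zero], htop, zero_add]
  simp only [errAt, mul_add]
  ring

theorem el_bigO (hK : Known h N F) (hF : Flat N F (xr n m)) (τ : ℝ) {j : ℕ} (hj : 0 < j)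
    (hjn : j < n) :
    (fun t => elAt (h t) (ext n (conf N F n m τ t)) j) =O[𝓝 0] fun t : ℝ => t ^ N := by
  have h1 := (el_order hs hK hF (star n m τ j)).isBigO.add
    (isBigO_cpow N (errAt h N F n m (star n m τ j)))
  refine Complex.isBigO_ofReal_left.1 (h1.congr_left fun t => ?_)
  rw [(conf_el hm hmn _ τ t).2 j hj hjn, sub_add_cancel]

include hev hη

omit hev hη hm hmn in
theorem err_real (hK : Known h N F) (hF : Flat N F (xr n m)) (τ : ℝ) :
    conj (errAt h N F n m τ) = errAt h N F n m τ := by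
  have h1 := el_order hs hK hF τ
  have h2 : (fun t : ℝ => conj ((((el (h t)
        (τ - 2 * (Real.pi * m / n) + 2 * disp N F (xr n m) (τ - 2 * (Real.pi * m / n)) t)
        (τ + 2 * disp N F (xr n m) τ t)
        (τ + 2 * (Real.pi * m / n) + 2 * disp N F (xr n m) (τ + 2 * (Real.pi * m / n)) t) : ℝ) : ℂ)
      - (t : ℂ) ^ N * errAt h N F n m τ))) =o[𝓝 0] fun t : ℝ => t ^ N :=
    IsLittleO.of_norm_left (h1.norm_left.congr_left fun t => (RCLike.norm_conj _).symm)
  refine sub_eq_zero.1 (eq_zero_of_littleO (K := N) ((h1.sub h2).congr_left fun t => ?_))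
  simp only [map_sub, map_mul, map_pow, Complex.conj_ofReal]
  ring

/-- Around the orbit the first variations sum to zero. -/
theorem err_sum (hK : Known h N F) (hF : Flat N F (xr n m)) (τ : ℝ) :
    ∑ j ∈ range n, errAt h N F n m (star n m τ j) = 0 := by
  have h1 := sum_el_small (Y := fun t => conf N F n m τ t) hs hK.disc hev hm hmn hη
    (conf_lim hK hF τ) (fun t => conf_end (by omega) τ t)
    fun j hj hjn => el_bigO hs hm hmn hK hF τ hj hjn
  have h2 := IsLittleO.sum fun j (_ : j ∈ range n) =>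
    el_order hs hK hF (star n m τ j)
  refine eq_zero_of_littleO (K := N) (((Complex.isLittleO_ofReal_left.2 h1).sub h2).congr_left
    fun t => ?_)
  obtain ⟨e0, ej⟩ := conf_el (N := N) (F := F) hm hmn (h t) τ t
  simp only [Finset.sum_apply, sum_sub_distrib, range_eq_Ico,
    sum_eq_sum_Ico_succ_bot (show 0 < n by omega)]
  rw [e0, show star n m τ 0 = τ by simp [star_eq],
    sum_congr rfl fun j hj => ej j (by rw [mem_Ico] at hj; omega) (mem_Ico.1 hj).2]
  push_cast
  rw [← mul_sum]
  ring

/-- Where the jet at the order is known the orbit goes on being real and exact. -/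
theorem flat_succ (hK : Known h (N + 1) F) (hN : 0 < N) (hF : Flat N F (xr n m)) :
    Flat (N + 1) F (xr n m) := by
  have hKN : Known h N F := ⟨hK.zero, hN, hK.disc, fun k h0 hk => hK.eq k h0 (by omega)⟩
  have hg : ∀ ψ, gap h N F ψ = 0 ∧ gap' h N F ψ = 0 := fun ψ =>
    ⟨sub_eq_zero.2 (hK.eq N hN N.lt_succ_self ψ), sub_eq_zero.2 (hK.deriv_jet hs N.lt_succ_self ψ)⟩
  set R := coeff N (restA F (xr n m) (wA F (xr n m))) with hR
  have he : ∀ τ, errAt h N F n m τ = evT τ R := fun τ => by
    simp [errAt, elC, hg, hR]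
  have hbar : bar R = R := evT_ext fun τ => by
    rw [evT_bar, ← he]; exact err_real hs hKN hF τ
  have hn : n ≠ 0 := by omega
  have hsum : ∑ j ∈ range n, shT ((xr n m ^ 2) ^ j) R = 0 := evT_ext fun τ => by
    simp only [map_sum, map_zero, evT_orbit, ← he]
    exact err_sum hs hev hm hmn hη hKN hF τ
  intro k hk
  rcases Nat.lt_succ_iff_lt_or_eq.1 hk with hk' | rfl
  · exact hF k hk'
  refine ⟨AddMonoidAlgebra.coeff_injective (Finsupp.ext fun a => ?_), fun a hl => ?_⟩
  · rw [coeff_bar, coeff_wA hK.zero]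
    simp only [AddMonoidAlgebra.coeff_neg, Finsupp.coe_neg, Pi.neg_apply, coeff_scale, map_mul,
      map_inv₀]
    rw [lap_conj rfl a, ← hR, ← coeff_bar, hbar, inv_neg, neg_mul]
  · by_cases hx : Sh ((xr n m : ℂˣ) : ℂ) = 0
    · exfalso
      have h1 : Sh ((xr n m : ℂˣ) : ℂ) = Complex.sinh (((Real.pi * m / n : ℝ) : ℂ) * Complex.I) := by
        rw [Sh, Complex.sinh, xr, Units.val_mk0, Complex.exp_neg]
      rw [h1, Complex.sinh_mul_I, mul_eq_zero, or_iff_left Complex.I_ne_zero, ← Complex.ofReal_sin,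
        Complex.ofReal_eq_zero] at hx
      have hn' : (0 : ℝ) < n := by exact_mod_cast (show 0 < n by omega)
      refine (Real.sin_pos_of_pos_of_lt_pi (by positivity) ?_).ne' hx
      rw [div_lt_iff₀ hn']
      exact mul_lt_mul_of_pos_left (by exact_mod_cast hmn) Real.pi_pos
    have hl' : xr n m ^ (2 * a) = 1 := by
      simp only [lap, mul_eq_zero, hx, false_or, sq_eq_zero_iff, sub_eq_zero, Units.val_inj,
        inv_zpow] at hl
      rw [two_mul, zpow_add]
      exact mul_eq_one_iff_eq_inv.2 hl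
    have := congrArg (fun p : Trig => p.coeff a) hsum
    simp only [sum_shift (xr_pow hn m), if_pos hl', AddMonoidAlgebra.coeff_zero,
      Finsupp.zero_apply] at this
    exact (mul_eq_zero.1 this).resolve_left (by exact_mod_cast hn)

theorem flat_of_known : ∀ M, Known h M F → Flat M F (xr n m) := by
  intro M
  induction M with
  | zero => exact fun hK => absurd hK.pos (lt_irrefl 0)
  | succ M ih =>
    intro hK
    rcases Nat.eq_zero_or_pos M with rfl | hM
    · intro k hk
      obtain rfl : k = 0 := by omega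
      rw [wA_zero hK.zero, coeff_zero_restA hK.zero _ (wA_zero hK.zero _)]
      exact ⟨by simp [bar], fun a _ => by simp⟩
    · exact flat_succ hs hev hm hmn hη hK hM
        (ih ⟨hK.zero, hM, hK.disc, fun k h0 hk => hK.eq k h0 (by omega)⟩)

end

end Vale.Agent.P097.Rigid
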