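import Mathlib

/-!
# A valuation with prime residue characteristic and the roots of unity

`Pole p ζ v k x` says that `x` has valuation at least that of `δ ^ (-k)`, `δ = ζ - 1`.
-/

namespace Vale.Agent.P097.Rigid

open Finset

theorem isJacobsonRing_int : IsJacobsonRing ℤ := by
  refine isJacobsonRing_iff_prime_eq.2 fun P hP => ?_
  rcases eq_or_ne P ⊥ with rfl | hne
  · refine le_antisymm (fun z hz => ?_) Ideal.le_jacobson
    have h := Int.isUnit_iff.1 (Ideal.mem_jacobson_bot.1 hz 3)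
    rw [Ideal.mem_bot]
    omega
  · have := hP.isMaximal hne
    exact Ideal.jacobson_eq_self_of_isMaximal

/-- Finitely many complex numbers are integral at some place of large residue characteristic,
where a given non-zero one among them is a unit. -/
theorem exists_place (s : Finset ℂ) {c : ℂ} (hc : c ≠ 0) (N : ℕ) :
    ∃ (p : ℕ) (V : ValuationSubring ℂ), p.Prime ∧ N < p ∧ (∀ a ∈ s, V.valuation a ≤ 1) ∧
      V.valuation c = 1 ∧ V.valuation (p : ℂ) < 1 := by
  classical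
  set t : Finset ℂ := s ∪ {c, c⁻¹, ((N.factorial : ℂ))⁻¹} with ht
  set A := Algebra.adjoin ℤ (t : Set ℂ) with hA
  have : Algebra.FiniteType ℤ A :=
    (Subalgebra.fg_iff_finiteType _).1 (Subalgebra.fg_adjoin_finset t)
  obtain ⟨M, hM⟩ := Ideal.exists_maximal A
  let := Ideal.Quotient.field M
  have : Algebra.FiniteType ℤ (A ⧸ M) :=
    Algebra.FiniteType.of_surjective (Ideal.Quotient.mkₐ ℤ M) (Ideal.Quotient.mkₐ_surjective ℤ M)
  have := isJacobsonRing_int
  have : Module.Finite ℤ (A ⧸ M) := finite_of_finite_type_of_isJacobsonRing ℤ (A ⧸ M)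
  have hmax : ((⊥ : Ideal (A ⧸ M)).comap (algebraMap ℤ (A ⧸ M))).IsMaximal := by
    have : (⊥ : Ideal (A ⧸ M)).IsMaximal := Ideal.bot_isMaximal
    exact Ideal.isMaximal_comap_of_isIntegral_of_isMaximal _
  set p := ringChar (A ⧸ M) with hp
  have hp0 : p ≠ 0 := by
    intro h0
    have : CharZero (A ⧸ M) := (CharP.ringChar_zero_iff_CharZero _).1 h0
    have e : (⊥ : Ideal (A ⧸ M)).comap (algebraMap ℤ (A ⧸ M)) = ⊥ := by
      ext z; simp
    exact (Ideal.bot_lt_of_maximal _ Int.not_isField).ne' e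
  have hpp : p.Prime := (CharP.char_is_prime_or_zero (A ⧸ M) p).resolve_right hp0
  have hmem : (p : A) ∈ M := by
    rw [← Ideal.Quotient.eq_zero_iff_mem, map_natCast]
    exact ringChar.Nat.cast_ringChar
  have hN : N < p := by
    by_contra hle
    push Not at hle
    obtain ⟨d, hd⟩ := Nat.dvd_factorial hpp.pos hle
    refine hM.ne_top (M.eq_top_of_isUnit_mem hmem (IsUnit.of_mul_eq_one
      ((d : A) * (⟨((N.factorial : ℂ))⁻¹, Algebra.subset_adjoin (by simp [ht])⟩ : A)) ?_))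
    apply Subtype.ext
    push_cast
    rw [← mul_assoc, ← Nat.cast_mul, ← hd]
    exact mul_inv_cancel₀ (by exact_mod_cast N.factorial_ne_zero)
  obtain ⟨V, hAV, hMV⟩ :=
    Ideal.image_subset_nonunits_valuationSubring (A := A.toSubring) M hM.ne_top
  have hle : ∀ a ∈ t, V.valuation a ≤ 1 := fun a ha =>
    (V.valuation_le_one_iff a).2 (hAV (Algebra.subset_adjoin ha))
  refine ⟨p, V, hpp, hN, fun a ha => hle a (by simp [ht, ha]), le_antisymm (hle c (by simp [ht])) ?_,
    V.mem_nonunits_iff.1 (hMV ⟨p, hmem, by simp⟩)⟩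
  have h1 := hle c⁻¹ (by simp [ht])
  rw [map_inv₀] at h1
  exact (inv_le_one₀ (zero_lt_iff.2 (by simpa using hc))).1 h1

variable {Γ : Type*} [LinearOrderedCommGroupWithZero Γ] {p : ℕ} {ζ : ℂ} {v : Valuation ℂ Γ}

/-- Residue characteristic `p`, and `ζ` a primitive `p`-th root of unity. -/
structure Place (p : ℕ) (ζ : ℂ) (v : Valuation ℂ Γ) : Prop where
  prime : p.Prime
  small : v (p : ℂ) < 1
  root : IsPrimitiveRoot ζ p

/-- Congruence modulo the maximal ideal, for integral numbers. -/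
def Cong (v : Valuation ℂ Γ) (a b : ℂ) : Prop := v (a - b) < 1

/-- At most `k` times a pole of the order of `1 / (ζ - 1)`. -/
def Pole (ζ : ℂ) (v : Valuation ℂ Γ) (k : ℤ) (x : ℂ) : Prop := v (x * (ζ - 1) ^ k) ≤ 1

namespace Place

variable (P : Place p ζ v)
include P

omit P in
theorem natCast_le (n : ℕ) : v (n : ℂ) ≤ 1 := by
  induction n with
  | zero => simp
  | succ n ih =>
    push_cast
    exact (v.map_add _ _).trans (max_le ih (by simp))

theorem natCast_eq_one {n : ℕ} (h : ¬ p ∣ n) : v (n : ℂ) = 1 := by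
  refine le_antisymm (natCast_le (v := v) n) (not_lt.1 fun hlt => ?_)
  obtain ⟨a, b, hab⟩ : IsCoprime (n : ℤ) (p : ℤ) :=
    Int.isCoprime_iff_nat_coprime.2 ((Nat.Prime.coprime_iff_not_dvd P.prime).2 h).symm
  have hint : ∀ z : ℤ, v (z : ℂ) ≤ 1 := fun z => by
    obtain ⟨m, rfl | rfl⟩ := z.eq_nat_or_neg <;> simp [Valuation.map_neg, natCast_le (v := v) m]
  have : v ((a : ℂ) * n + (b : ℂ) * p) < 1 := by
    refine (v.map_add _ _).trans_lt (max_lt ?_ ?_) <;> rw [map_mul]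
    · exact (mul_le_of_le_one_left' (hint a)).trans_lt hlt
    · exact (mul_le_of_le_one_left' (hint b)).trans_lt P.small
  rw [show (a : ℂ) * n + (b : ℂ) * p = ((a * (n : ℤ) + b * (p : ℤ) : ℤ) : ℂ) by push_cast; ring,
    hab, Int.cast_one, map_one] at this
  exact lt_irrefl _ this

omit P in
theorem root_eq_one {x : ℂ} {n : ℕ} (hn : 0 < n) (hx : x ^ n = 1) : v x = 1 := by
  have h := congrArg v hx
  rw [map_pow, map_one] at h
  exact (pow_eq_one_iff_of_nonneg zero_le hn.ne').1 h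

/-- Roots of unity of order prime to `p` are separated. -/
theorem sub_one_eq_one {x : ℂ} {n : ℕ} (hn : ¬ p ∣ n) (hx : x ^ n = 1) (h1 : x ≠ 1) :
    v (x - 1) = 1 := by
  have hn0 : 0 < n := Nat.pos_of_ne_zero fun h => hn (h ▸ dvd_zero p)
  have hx1 := root_eq_one (v := v) hn0 hx
  refine le_antisymm ((v.map_sub _ _).trans (max_le hx1.le (by simp))) (not_lt.1 fun hlt => ?_)
  have hpow : ∀ i : ℕ, v (x ^ i - 1) < 1 := fun i => by
    rw [← geom_sum_mul x i, map_mul]
    refine (mul_le_of_le_one_left' ?_).trans_lt hlt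
    exact v.map_sum_le fun j _ => by rw [map_pow, hx1, one_pow]
  have hgeo : ∑ i ∈ range n, x ^ i = 0 := by
    rw [geom_sum_eq h1, hx, sub_self, zero_div]
  have : v (∑ i ∈ range n, (x ^ i - 1)) < 1 := v.map_sum_lt one_ne_zero fun i _ => hpow i
  rw [sum_sub_distrib, hgeo, zero_sub, Valuation.map_neg, sum_const, card_range, nsmul_eq_mul,
    mul_one, P.natCast_eq_one hn] at this
  exact lt_irrefl _ this

theorem delta_ne : ζ - 1 ≠ 0 := sub_ne_zero.2 (P.root.ne_one P.prime.one_lt)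

theorem vdelta_ne : v (ζ - 1) ≠ 0 := by simpa using P.delta_ne

theorem vdelta_lt : v (ζ - 1) < 1 := by
  by_contra hge
  push Not at hge
  have hζ := root_eq_one (v := v) P.prime.pos P.root.pow_eq_one
  have h1 : v (ζ - 1) = 1 := le_antisymm ((v.map_sub _ _).trans (max_le hζ.le (by simp))) hge
  have hall : ∀ r ∈ range (p - 1), v (1 - ζ ^ (r + 1)) = 1 := by
    intro r hr
    rw [mem_range] at hr
    have hne : ζ ^ (r + 1) ≠ 1 := P.root.pow_ne_one_of_pos_of_lt r.succ_ne_zero (by omega)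
    have hprim : IsPrimitiveRoot (ζ ^ (r + 1)) p :=
      P.root.pow_of_coprime _ ((Nat.Prime.coprime_iff_not_dvd P.prime).2
        (Nat.not_dvd_of_pos_of_lt r.succ_pos (by omega))).symm
    have : NeZero p := ⟨P.prime.ne_zero⟩
    obtain ⟨i, -, hi⟩ := hprim.eq_pow_of_pow_eq_one P.root.pow_eq_one
    rw [Valuation.map_sub_swap]
    refine le_antisymm ((v.map_sub _ _).trans (max_le (by rw [map_pow, hζ, one_pow]) (by simp))) ?_
    calc (1 : Γ) = v (ζ - 1) := h1.symm
      _ = v ((∑ j ∈ range i, (ζ ^ (r + 1)) ^ j) * (ζ ^ (r + 1) - 1)) := by rw [geom_sum_mul, hi]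
      _ ≤ v (ζ ^ (r + 1) - 1) := by
        rw [map_mul]
        refine mul_le_of_le_one_left' (v.map_sum_le fun j _ => ?_)
        rw [map_pow, map_pow, hζ, one_pow, one_pow]
  have hprod : ∏ r ∈ range (p - 1), (1 - ζ ^ (r + 1)) = (p : ℂ) := by
    have hp1 : p = p - 1 + 1 := (Nat.sub_add_cancel P.prime.pos).symm
    have := (hp1 ▸ P.root : IsPrimitiveRoot ζ (p - 1 + 1)).prod_one_sub_pow_eq_order
    rw [this]
    exact_mod_cast hp1.symm
  have := P.small
  rw [← hprod, map_prod, prod_congr rfl hall, prod_const_one] at this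
  exact lt_irrefl _ this

/-- A power of `ζ` other than `1` differs from `1` by a unit times `δ`. -/
theorem sub_one_of_pow {r : ℕ} (hr : ¬ p ∣ r) :
    Cong v ((ζ ^ r - 1) / (ζ - 1)) r ∧ v (ζ ^ r - 1) = v (ζ - 1) := by
  have hζ := root_eq_one (v := v) P.prime.pos P.root.pow_eq_one
  have e : (ζ ^ r - 1) / (ζ - 1) = ∑ j ∈ range r, ζ ^ j := by
    rw [← geom_sum_mul ζ r, mul_div_cancel_right₀ _ P.delta_ne]
  have hc : Cong v ((ζ ^ r - 1) / (ζ - 1)) r := by
    rw [Cong, e, show (∑ j ∈ range r, ζ ^ j) - r = ∑ j ∈ range r, (ζ ^ j - 1) by simp]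
    refine v.map_sum_lt one_ne_zero fun j _ => ?_
    rw [← geom_sum_mul ζ j, map_mul]
    refine (mul_le_of_le_one_left' ?_).trans_lt P.vdelta_lt
    exact v.map_sum_le fun i _ => by rw [map_pow, hζ, one_pow]
  refine ⟨hc, ?_⟩
  have h1 : v ((ζ ^ r - 1) / (ζ - 1)) = 1 := by
    rw [← P.natCast_eq_one hr]
    refine v.map_eq_of_sub_lt ?_
    rwa [P.natCast_eq_one hr]
  rwa [map_div₀, div_eq_one_iff_eq P.vdelta_ne] at h1

/-- A root of unity whose order divides `p * q`, `q` prime to `p`, differs from `1` by a unit,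
or by a unit times `δ`. -/
theorem dichotomy {x : ℂ} {q : ℕ} (hq : ¬ p ∣ q) (hx : x ^ (p * q) = 1) (h1 : x ≠ 1) :
    v (x - 1) = 1 ∨ x ^ p = 1 ∧ v (x - 1) = v (ζ - 1) := by
  by_cases hp : x ^ p = 1
  · refine Or.inr ⟨hp, ?_⟩
    have : NeZero p := ⟨P.prime.ne_zero⟩
    obtain ⟨r, hr, rfl⟩ := P.root.eq_pow_of_pow_eq_one hp
    refine (P.sub_one_of_pow fun hd => h1 ?_).2
    rcases Nat.eq_zero_or_pos r with rfl | h0
    · simp
    · exact absurd hd (Nat.not_dvd_of_pos_of_lt h0 hr)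
  · left
    have hpq : 0 < p * q :=
      Nat.mul_pos P.prime.pos (Nat.pos_of_ne_zero fun h => hq (h ▸ dvd_zero p))
    have hx1 := root_eq_one (v := v) hpq hx
    refine le_antisymm ((v.map_sub _ _).trans (max_le hx1.le (by simp))) (not_lt.1 fun hlt => ?_)
    have h2 := P.sub_one_eq_one hq (by rwa [← pow_mul]) hp
    rw [← geom_sum_mul x p, map_mul] at h2
    refine ((mul_le_of_le_one_left' ?_).trans_lt hlt).ne h2
    exact v.map_sum_le fun j _ => by rw [map_pow, hx1, one_pow]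

theorem pole_iff {k : ℤ} {x : ℂ} : Pole ζ v k x ↔ v x ≤ v (ζ - 1) ^ (-k) := by
  rw [Pole, map_mul, map_zpow₀, zpow_neg, ← one_div,
    le_div_iff₀ (zpow_pos (zero_lt_iff.2 P.vdelta_ne) k)]

theorem pole_mono {a b : ℤ} {x : ℂ} (h : Pole ζ v a x) (hab : a ≤ b) : Pole ζ v b x := by
  rw [P.pole_iff] at h ⊢
  exact h.trans (zpow_le_zpow_right_of_le_one₀ (zero_lt_iff.2 P.vdelta_ne) P.vdelta_lt.le (by omega))

theorem pole_mul {a b c : ℤ} {x y : ℂ} (hx : Pole ζ v a x) (hy : Pole ζ v b y) (h : a + b ≤ c) :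
    Pole ζ v c (x * y) := by
  refine P.pole_mono ?_ h
  rw [Pole, zpow_add₀ P.delta_ne, mul_mul_mul_comm, map_mul]
  exact mul_le_one' hx hy

omit P in
theorem pole_add {a : ℤ} {x y : ℂ} (hx : Pole ζ v a x) (hy : Pole ζ v a y) :
    Pole ζ v a (x + y) := by
  rw [Pole, add_mul]
  exact (v.map_add _ _).trans (max_le hx hy)

omit P in
theorem pole_neg {a : ℤ} {x : ℂ} (hx : Pole ζ v a x) : Pole ζ v a (-x) := by
  rwa [Pole, neg_mul, Valuation.map_neg]

omit P in
theorem pole_sub {a : ℤ} {x y : ℂ} (hx : Pole ζ v a x) (hy : Pole ζ v a y) :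
    Pole ζ v a (x - y) := sub_eq_add_neg x y ▸ pole_add hx (pole_neg hy)

omit P in
theorem pole_zero (a : ℤ) : Pole ζ v a 0 := by simp [Pole]

omit P in
theorem pole_sum {ι : Type*} {a : ℤ} (s : Finset ι) {f : ι → ℂ}
    (h : ∀ i ∈ s, Pole ζ v a (f i)) : Pole ζ v a (∑ i ∈ s, f i) :=
  Finset.sum_induction f (Pole ζ v a) (fun _ _ => pole_add) (pole_zero a) h

omit P in
theorem pole_of_le_one {x : ℂ} (hx : v x ≤ 1) : Pole ζ v 0 x := by simpa [Pole] using hx

theorem pole_of_eq_delta {x : ℂ} (h : v x = v (ζ - 1)) : Pole ζ v (-1) x := by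
  rw [P.pole_iff, h]; simp

theorem pole_inv {x : ℂ} {s : ℕ} (h : v x = v (ζ - 1) ^ s) : Pole ζ v s x⁻¹ := by
  rw [P.pole_iff, map_inv₀, h, zpow_neg, zpow_natCast]

end Place

end Vale.Agent.P097.Rigid
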